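import Vale.Agent.P168.FT

namespace Vale.Agent.P168

open Finset MeasureTheory
open scoped BigOperators

variable {r : ℕ} {J : Type} [Fintype J] [DecidableEq J]

theorem msgT_ext_lip (p : Trial r) (Φ Φ' : (J → Bool) → ℝ) :
    |msgT p J (ext Φ) - msgT p J (ext Φ')| ≤ ‖Φ - Φ'‖ := by
  sorry

theorem abs_msgT_ext_le (p : Trial r) (Φ : (J → Bool) → ℝ) : |msgT p J (ext Φ)| ≤ ‖Φ‖ := by
  sorry

/-- continuity in the trial function -/
theorem msgT_x_lip (r : ℕ) (J : Type) [Fintype J] [DecidableEq J] (Φ : (J → Bool) → ℝ) :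
    ∃ C : ℝ, ∀ p p' : Trial r, p.m = p'.m →
      |msgT p J (ext Φ) - msgT p' J (ext Φ)| ≤ C * ∫ ω, |p.x ω - p'.x ω| := by
  sorry

end Vale.Agent.P168
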