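import Vale.Agent.P168.Basic

namespace Vale.Agent.P168

open Finset MeasureTheory ProbabilityTheory
open scoped BigOperators NNReal

variable {K : ℕ}

/-- integral over a Poisson number of clauses -/
noncomputable def Pint (a : ℝ≥0) (ν : Measure (Cl K)) (F : (M : ℕ) → (Fin M → Cl K) → ℝ) : ℝ :=
  ∫ M, (∫ θ, F M θ ∂(Measure.pi fun _ : Fin M => ν)) ∂(poissonMeasure a)

/-- admissible integrands -/
def Adm (F : (M : ℕ) → (Fin M → Cl K) → ℝ) : Prop :=
  (∀ M, Measurable (F M)) ∧ ∃ C : ℝ, ∀ M θ, |F M θ| ≤ C * (1 + M + ∑ k, ‖θ k‖)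

variable {a : ℝ≥0} {ν : Measure (Cl K)} [IsProbabilityMeasure ν]
  {F G : (M : ℕ) → (Fin M → Cl K) → ℝ}

theorem pint_eval (hν : Integrable id ν) {M : ℕ} (k : Fin M) :
    Integrable (fun θ : Fin M → Cl K => ‖θ k‖) (Measure.pi fun _ : Fin M => ν) :=
  (measurePreserving_eval (fun _ : Fin M => ν) k).integrable_comp_of_integrable hν.norm

theorem integral_sum_norm (hν : Integrable id ν) (M : ℕ) :
    ∫ θ, ∑ k, ‖θ k‖ ∂(Measure.pi fun _ : Fin M => ν) = M * ∫ θ, ‖θ‖ ∂ν := by
  have h1 : ∀ k : Fin M, MeasurePreserving (Function.eval k) (Measure.pi fun _ : Fin M => ν) ν :=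
    fun k => measurePreserving_eval _ k
  rw [integral_finsetSum _ fun k _ => pint_eval hν k]
  have h2 : ∀ k : Fin M, ∫ θ : Fin M → Cl K, ‖θ k‖ ∂(Measure.pi fun _ : Fin M => ν) =
      ∫ θ, ‖θ‖ ∂ν := fun k => by
    rw [← (h1 k).map_eq, integral_map (h1 k).measurable.aemeasurable
      continuous_norm.aestronglyMeasurable, (h1 k).map_eq]
  simp [h2]

theorem pint_hasSum (a : ℝ≥0) :
    HasSum (fun n : ℕ => (Real.exp (-a) * a ^ n / n.factorial) • (n : ℝ)) a := by
  have h := (hasSum_one_poissonMeasure a).mul_left (a : ℝ)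
  rw [mul_one] at h
  rw [← hasSum_nat_add_iff' 1]
  simp only [range_one, sum_singleton, Nat.cast_zero, smul_eq_mul, mul_zero, sub_zero]
  refine h.congr_fun fun n => ?_
  rw [Nat.factorial_succ]
  push_cast
  field_simp
  ring

theorem integral_poisson_id (a : ℝ≥0) : ∫ M, (M : ℝ) ∂(poissonMeasure a) = a := by
  rw [integral_poissonMeasure]
  exact (pint_hasSum a).tsum_eq

theorem integrable_poisson_of_le (a : ℝ≥0) {g : ℕ → ℝ} {C : ℝ} (h : ∀ M, |g M| ≤ C * (1 + M)) :
    Integrable g (poissonMeasure a) := by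
  have h1 : Integrable (fun M : ℕ => (M : ℝ)) (poissonMeasure a) :=
    integrable_poissonMeasure_iff.2 (by simpa using (pint_hasSum a).summable)
  exact (((integrable_const 1).add h1).const_mul C).mono' (measurable_of_countable g).aestronglyMeasurable
    (Filter.Eventually.of_forall h)

theorem pint_dom (hν : Integrable id ν) (M : ℕ) (C : ℝ) :
    Integrable (fun θ : Fin M → Cl K => C * (1 + M + ∑ k, ‖θ k‖))
      (Measure.pi fun _ : Fin M => ν) :=
  ((integrable_const _).add (integrable_finsetSum _ fun k _ => pint_eval hν k)).const_mul C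

theorem pint_bound (hν : Integrable id ν) {C : ℝ}
    (hC : ∀ M θ, |F M θ| ≤ C * (1 + M + ∑ k, ‖θ k‖)) (M : ℕ) :
    |∫ θ, F M θ ∂(Measure.pi fun _ : Fin M => ν)| ≤ (|C| * (1 + ∫ θ, ‖θ‖ ∂ν)) * (1 + M) := by
  have h0 : 0 ≤ ∫ θ, ‖θ‖ ∂ν := integral_nonneg fun _ => norm_nonneg _
  have h1 := norm_integral_le_of_norm_le (pint_dom hν M |C|) (f := F M)
    (Filter.Eventually.of_forall fun θ => (hC M θ).trans
      (mul_le_mul_of_nonneg_right (le_abs_self C) (by positivity)))
  rw [integral_const_mul, integral_add (integrable_const _)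
    (integrable_finsetSum _ fun k _ => pint_eval hν k),
    integral_sum_norm hν, integral_const] at h1
  refine h1.trans ?_
  rw [mul_assoc]
  refine mul_le_mul_of_nonneg_left ?_ (abs_nonneg C)
  simp only [probReal_univ, smul_eq_mul, one_mul]
  nlinarith

theorem Adm.integrable_pi (hν : Integrable id ν) (h : Adm F) (M : ℕ) :
    Integrable (F M) (Measure.pi fun _ : Fin M => ν) := by
  obtain ⟨hm, C, hC⟩ := h
  exact (pint_dom hν M C).mono' (hm M).aestronglyMeasurable (Filter.Eventually.of_forall (hC M))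

theorem Adm.integrable_poisson (hν : Integrable id ν) (h : Adm F) (a : ℝ≥0) :
    Integrable (fun M => ∫ θ, F M θ ∂(Measure.pi fun _ : Fin M => ν)) (poissonMeasure a) := by
  obtain ⟨hm, C, hC⟩ := h
  exact integrable_poisson_of_le a (pint_bound hν hC)

theorem Adm.add (h : Adm F) (h' : Adm G) : Adm fun M θ => F M θ + G M θ := by
  obtain ⟨hm, C, hC⟩ := h
  obtain ⟨hm', C', hC'⟩ := h'
  refine ⟨fun M => (hm M).add (hm' M), C + C', fun M θ => (abs_add_le _ _).trans ?_⟩
  linarith [hC M θ, hC' M θ]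

theorem Adm.const_mul (h : Adm F) (c : ℝ) : Adm fun M θ => c * F M θ := by
  obtain ⟨hm, C, hC⟩ := h
  refine ⟨fun M => (hm M).const_mul c, |c| * C, fun M θ => ?_⟩
  rw [abs_mul, mul_assoc]
  exact mul_le_mul_of_nonneg_left (hC M θ) (abs_nonneg c)

theorem Adm.sub (h : Adm F) (h' : Adm G) : Adm fun M θ => F M θ - G M θ := by
  simpa [sub_eq_add_neg] using h.add (h'.const_mul (-1))

theorem adm_const (c : ℝ) : Adm fun M (_ : Fin M → Cl K) => c := by
  refine ⟨fun M => measurable_const, |c|, fun M θ => le_mul_of_one_le_right (abs_nonneg c) ?_⟩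
  have : 0 ≤ ∑ k, ‖θ k‖ := by positivity
  have : (0 : ℝ) ≤ M := by positivity
  linarith

theorem Adm.sum {ι : Type} (T : Finset ι) {F : ι → (M : ℕ) → (Fin M → Cl K) → ℝ}
    (h : ∀ c ∈ T, Adm (F c)) : Adm fun M θ => ∑ c ∈ T, F c M θ := by
  classical
  induction T using Finset.induction_on with
  | empty => simpa using adm_const 0
  | insert c T hc ih =>
    simp only [Finset.sum_insert hc]
    exact (h c (by simp)).add (ih fun c hc => h c (by simp [hc]))

theorem Pint_mono (hν : Integrable id ν) (h : Adm F) (h' : Adm G) (hle : ∀ M θ, F M θ ≤ G M θ) :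
    Pint a ν F ≤ Pint a ν G := by
  exact integral_mono (h.integrable_poisson hν a) (h'.integrable_poisson hν a) fun M =>
    integral_mono (h.integrable_pi hν M) (h'.integrable_pi hν M) (hle M)

theorem Pint_add (hν : Integrable id ν) (h : Adm F) (h' : Adm G) :
    Pint a ν (fun M θ => F M θ + G M θ) = Pint a ν F + Pint a ν G := by
  unfold Pint
  rw [← integral_add (h.integrable_poisson hν a) (h'.integrable_poisson hν a)]
  exact integral_congr_ae (Filter.Eventually.of_forall fun M =>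
    integral_add (h.integrable_pi hν M) (h'.integrable_pi hν M))

theorem Pint_sub (hν : Integrable id ν) (h : Adm F) (h' : Adm G) :
    Pint a ν (fun M θ => F M θ - G M θ) = Pint a ν F - Pint a ν G := by
  unfold Pint
  rw [← integral_sub (h.integrable_poisson hν a) (h'.integrable_poisson hν a)]
  exact integral_congr_ae (Filter.Eventually.of_forall fun M =>
    integral_sub (h.integrable_pi hν M) (h'.integrable_pi hν M))

theorem Pint_const_mul (c : ℝ) : Pint a ν (fun M θ => c * F M θ) = c * Pint a ν F := by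
  simp only [Pint, integral_const_mul]

theorem Pint_const (c : ℝ) : Pint a ν (fun _ _ => c) = c := by
  simp [Pint]

theorem Pint_sum (hν : Integrable id ν) {ι : Type} (T : Finset ι)
    {F : ι → (M : ℕ) → (Fin M → Cl K) → ℝ} (h : ∀ c ∈ T, Adm (F c)) :
    Pint a ν (fun M θ => ∑ c ∈ T, F c M θ) = ∑ c ∈ T, Pint a ν (F c) := by
  classical
  induction T using Finset.induction_on with
  | empty => simpa using Pint_const 0
  | insert c T hc ih =>
    simp only [Finset.sum_insert hc]
    rw [Pint_add hν (h c (by simp)) (Adm.sum T fun c hc => h c (by simp [hc])),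
      ih fun c hc => h c (by simp [hc])]

/-- the tail function -/
noncomputable def tl (M0 : ℕ) (R : ℝ) (M : ℕ) (θ : Fin M → Cl K) : ℝ :=
  if M ≤ M0 ∧ ∑ k, ‖θ k‖ ≤ R then 0 else 1 + ∑ k, ‖θ k‖

theorem pint_tl_le (M0 : ℕ) (R : ℝ) (M : ℕ) (θ : Fin M → Cl K) :
    |tl M0 R M θ| ≤ 1 * (1 + M + ∑ k, ‖θ k‖) := by
  have : (0 : ℝ) ≤ M := by positivity
  unfold tl
  split_ifs
  · rw [abs_zero]; positivity
  · rw [abs_of_nonneg (by positivity)]; linarith

theorem pint_tendsto (hν : Integrable id ν) {Fs : ℕ → (M : ℕ) → (Fin M → Cl K) → ℝ}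
    (hm : ∀ g M, Measurable (Fs g M)) {C : ℝ}
    (hb : ∀ g M θ, |Fs g M θ| ≤ C * (1 + M + ∑ k, ‖θ k‖))
    (hl : ∀ M θ, Filter.Tendsto (fun g => Fs g M θ) Filter.atTop (nhds (F M θ))) :
    Filter.Tendsto (fun g => Pint a ν (Fs g)) Filter.atTop (nhds (Pint a ν F)) := by
  refine tendsto_integral_of_dominated_convergence
    (fun M : ℕ => (|C| * (1 + ∫ θ, ‖θ‖ ∂ν)) * (1 + M))
    (fun g => (measurable_of_countable _).aestronglyMeasurable)
    (integrable_poisson_of_le a (C := |(|C| * (1 + ∫ θ, ‖θ‖ ∂ν))|) fun M => by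
      rw [abs_mul, abs_of_nonneg (a := (1 + M : ℝ)) (by positivity)])
    (fun g => Filter.Eventually.of_forall (pint_bound hν (hb g)))
    (Filter.Eventually.of_forall fun M => ?_)
  exact tendsto_integral_of_dominated_convergence _ (fun g => (hm g M).aestronglyMeasurable)
    (pint_dom hν M C) (fun g => Filter.Eventually.of_forall (hb g M))
    (Filter.Eventually.of_forall (hl M))

theorem adm_tl (M0 : ℕ) (R : ℝ) : Adm (tl (K := K) M0 R) := by
  refine ⟨fun M => ?_, 1, pint_tl_le M0 R⟩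
  unfold tl
  refine Measurable.ite ?_ measurable_const (by fun_prop)
  have : Measurable fun θ : Fin M → Cl K => ∑ k, ‖θ k‖ := by fun_prop
  exact (MeasurableSet.const _).inter (measurableSet_le this measurable_const)

theorem Pint_tl (hν : Integrable id ν) (a : ℝ≥0) {ε : ℝ} (hε : 0 < ε) :
    ∃ (M0 : ℕ) (R0 : ℝ), ∀ M ≥ M0, ∀ R ≥ R0, Pint a ν (tl M R) ≤ ε := by
  have h1 := pint_tendsto (a := a) (F := fun _ _ => 0) hν (Fs := fun g => tl g g)
    (fun g => (adm_tl g g).1) (fun g => pint_tl_le g g) fun M θ => by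
      refine tendsto_const_nhds.congr' ?_
      filter_upwards [Filter.eventually_ge_atTop M,
        tendsto_natCast_atTop_atTop.eventually_ge_atTop (∑ k, ‖θ k‖)] with g h1 h2
      simp [tl, h1, h2]
  rw [Pint_const] at h1
  obtain ⟨g, hg⟩ := (h1.eventually_le_const hε).exists
  refine ⟨g, g, fun M hM R hR => le_trans (Pint_mono hν (adm_tl _ _) (adm_tl _ _) fun M' θ => ?_) hg⟩
  unfold tl
  by_cases h : M' ≤ g ∧ ∑ k, ‖θ k‖ ≤ g
  · rw [if_pos h, if_pos ⟨h.1.trans hM, h.2.trans hR⟩]
  · rw [if_neg h]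
    split_ifs
    · positivity
    · rfl

theorem real_tail {μ : Measure ℝ} [IsProbabilityMeasure μ] (hμ : Integrable id μ) {ε : ℝ}
    (hε : 0 < ε) : ∃ R0 : ℝ, ∀ R ≥ R0, ∫ h, (if |h| ≤ R then 0 else 1 + |h|) ∂μ ≤ ε := by
  have hi : Integrable (fun h : ℝ => 1 + |h|) μ := (integrable_const 1).add hμ.abs
  have hm : ∀ R : ℝ, Measurable fun h : ℝ => if |h| ≤ R then 0 else 1 + |h| := fun R =>
    Measurable.ite (measurableSet_le (by fun_prop) measurable_const) measurable_const (by fun_prop)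
  have hb : ∀ R h : ℝ, ‖if |h| ≤ R then 0 else 1 + |h|‖ ≤ 1 + |h| := fun R h => by
    split_ifs
    · rw [norm_zero]; positivity
    · rw [Real.norm_of_nonneg (by positivity)]
  have h1 := tendsto_integral_filter_of_dominated_convergence (μ := μ) (l := Filter.atTop)
    (F := fun (R : ℝ) (h : ℝ) => if |h| ≤ R then 0 else 1 + |h|) (f := fun _ => (0 : ℝ))
    (fun h => 1 + |h|) (Filter.Eventually.of_forall fun R => (hm R).aestronglyMeasurable)
    (Filter.Eventually.of_forall fun R => Filter.Eventually.of_forall (hb R)) hi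
    (Filter.Eventually.of_forall fun h => by
      refine tendsto_const_nhds.congr' ?_
      filter_upwards [Filter.eventually_ge_atTop |h|] with R hR
      simp [hR])
  rw [integral_zero] at h1
  exact Filter.eventually_atTop.1 (h1.eventually_le_const hε)

/-- dominated convergence -/
theorem Pint_tendsto (hν : Integrable id ν) {Fs : ℕ → (M : ℕ) → (Fin M → Cl K) → ℝ}
    (hm : ∀ g M, Measurable (Fs g M)) {C : ℝ}
    (hb : ∀ g M θ, |Fs g M θ| ≤ C * (1 + M + ∑ k, ‖θ k‖))
    (hl : ∀ M θ, Filter.Tendsto (fun g => Fs g M θ) Filter.atTop (nhds (F M θ))) :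
    Filter.Tendsto (fun g => Pint a ν (Fs g)) Filter.atTop (nhds (Pint a ν F)) := by
  exact pint_tendsto hν hm hb hl

end Vale.Agent.P168
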