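import Vale.Agent.P168.RL
import Vale.Agent.P168.Nest
import Vale.Agent.P168.Pint

namespace Vale.Agent.P168

open Finset MeasureTheory ProbabilityTheory
open scoped BigOperators NNReal

/-- approximation of a trial function by step functions -/
theorem exists_step {r : ℕ} (p : Trial r) {ε : ℝ} (hε : 0 < ε) : ∃ (f : FD) (p' : Trial r),
    f.Ok ∧ p'.m = p.m ∧ ∫ ω, |p.x ω - p'.x ω| ≤ ε ∧ ∀ (J : Type) [Fintype J] [DecidableEq J]
      (Y : (J → ℝ) → ℝ), (∀ x, Cube x → 0 < Y x) → msgT p' J Y = f.T J Y := by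
  sorry

theorem approx {K r : ℕ} {ν : Measure (Cl K)} [IsProbabilityMeasure ν] {μ : Measure ℝ}
    [IsProbabilityMeasure μ] (hν : Integrable id ν) (hμ : Integrable id μ) (lam : ℝ≥0)
    (p : Trial r) {ε : ℝ} (hε : 0 < ε) :
    ∃ f : FD, f.Ok ∧ f.val ν μ lam ≤ TU ν μ lam p - TV ν lam p + ε := by
  sorry

theorem realize_val {K : ℕ} (ν : Measure (Cl K)) (μ : Measure ℝ) (lam : ℝ≥0) {f : FD} (hf : f.Ok) :
    ∃ p : Trial f.r, TU ν μ lam p - TV ν lam p = f.val ν μ lam := by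
  sorry

end Vale.Agent.P168
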