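import Vale.Agent.P168.GW

namespace Vale.Agent.P168

open Finset Matrix
open scoped BigOperators

/-- martingale increments are small on average over shapes and levels -/
theorem avg_errp {β : ℝ} (hβ : 0 < β) : ∃ C : ℝ, 0 ≤ C ∧ ∀ {n : ℕ} [NeZero n] {S I L : Type}
    [Fintype S] [Fintype I] [Fintype L] [Nonempty L] (lab : L → Bool) (c : Ch S) (μ : ℕ → S → ℝ)
    (z : I → Bool → S → ℝ) (D : ℕ) (γ : ℝ), c.Sto D → Dec c.b D β → Path c D μ → Obs z →
    (∀ d < D, c.b d - c.b (d + 1) ≤ γ) → ∀ T : Finset ℕ, (∀ d ∈ T, d < D) →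
    ∑ d ∈ T, ∑ t : Sh n L (d + 1), wt c.b (d + 1) t * (1 / (2 * Fintype.card L)) ^ lv (d + 1) t *
      errp c μ z d (Sh.map lab (d + 1) t) ≤ C * (γ * T.card + 1) := by
  sorry

end Vale.Agent.P168
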