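import Vale.Agent.P168.Core

namespace Vale.Agent.P168

open Finset Matrix
open scoped BigOperators

variable {S S' : Type} [Fintype S] [Fintype S'] {n : ℕ} {L L' : Type}

theorem sg_sq (b : Bool) : sg b * sg b = 1 := by cases b <;> simp [sg]

theorem abs_sg (b : Bool) : |sg b| = 1 := by cases b <;> simp [sg]

theorem Sto.posK {κ : Matrix S S ℝ} (h : Sto κ) : PosK κ :=
  ⟨h.1, fun s => by rw [h.2 s]; exact one_pos⟩

theorem Ch.Sto.pos {c : Ch S} {D : ℕ} (h : c.Sto D) : c.Pos D :=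
  fun d hd => ⟨(h d hd).1.posK, (h d hd).2.posK⟩

theorem Ch.Sto.mono {c : Ch S} {D D' : ℕ} (h : c.Sto D) (hD : D' ≤ D) : c.Sto D' :=
  fun d hd => h d (hd.trans_le hD)

theorem Ch.Pos.mono {c : Ch S} {D D' : ℕ} (h : c.Pos D) (hD : D' ≤ D) : c.Pos D' :=
  fun d hd => h d (hd.trans_le hD)

theorem mulVec_apply' (κ : Matrix S S ℝ) (g : S → ℝ) (s : S) : (κ *ᵥ g) s = ∑ t, κ s t * g t := rfl

theorem vecMul_apply' (κ : Matrix S S ℝ) (w : S → ℝ) (t : S) : (w ᵥ* κ) t = ∑ s, w s * κ s t := rfl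

theorem sum_vecMul_mul (κ : Matrix S S ℝ) (w g : S → ℝ) :
    ∑ t, (w ᵥ* κ) t * g t = ∑ s, w s * (κ *ᵥ g) s := by
  simp only [vecMul_apply', mulVec_apply', sum_mul, mul_sum, mul_assoc]
  exact sum_comm

theorem mulVec_mono {κ : Matrix S S ℝ} (h : ∀ s t, 0 ≤ κ s t) {f g : S → ℝ} (hfg : ∀ t, f t ≤ g t)
    (s : S) : (κ *ᵥ f) s ≤ (κ *ᵥ g) s :=
  sum_le_sum fun t _ => mul_le_mul_of_nonneg_left (hfg t) (h s t)

theorem mulVec_nonneg' {κ : Matrix S S ℝ} (h : ∀ s t, 0 ≤ κ s t) {f : S → ℝ} (hf : ∀ t, 0 ≤ f t)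
    (s : S) : 0 ≤ (κ *ᵥ f) s :=
  sum_nonneg fun t _ => mul_nonneg (h s t) (hf t)

theorem Sto.mulVec_const {κ : Matrix S S ℝ} (h : Sto κ) (x : ℝ) (s : S) :
    (κ *ᵥ fun _ => x) s = x := by
  rw [mulVec_apply', ← sum_mul, h.2, one_mul]

theorem Sto.mulVec_le {κ : Matrix S S ℝ} (h : Sto κ) {f : S → ℝ} {x : ℝ} (hf : ∀ t, f t ≤ x)
    (s : S) : (κ *ᵥ f) s ≤ x :=
  (mulVec_mono h.1 hf s).trans (h.mulVec_const x s).le

theorem Sto.le_mulVec {κ : Matrix S S ℝ} (h : Sto κ) {f : S → ℝ} {x : ℝ} (hf : ∀ t, x ≤ f t)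
    (s : S) : x ≤ (κ *ᵥ f) s :=
  (h.mulVec_const x s).ge.trans (mulVec_mono h.1 hf s)

theorem abs_mulVec_le {κ : Matrix S S ℝ} (h : ∀ s t, 0 ≤ κ s t) (f : S → ℝ) (s : S) :
    |(κ *ᵥ f) s| ≤ (κ *ᵥ fun t => |f t|) s :=
  (abs_sum_le_sum_abs _ _).trans (le_of_eq (sum_congr rfl fun t _ => by
    rw [abs_mul, abs_of_nonneg (h s t)]))

theorem Sto.abs_mulVec_le {κ : Matrix S S ℝ} (h : Sto κ) {f : S → ℝ} {x : ℝ} (hf : ∀ t, |f t| ≤ x)
    (s : S) : |(κ *ᵥ f) s| ≤ x :=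
  (P168.abs_mulVec_le h.1 f s).trans (h.mulVec_le hf s)

theorem Sto.mul {κ κ' : Matrix S S ℝ} (h : Sto κ) (h' : Sto κ') : Sto (κ * κ') := by
  refine ⟨fun s t => sum_nonneg fun u _ => mul_nonneg (h.1 _ _) (h'.1 _ _), fun s => ?_⟩
  simp only [Matrix.mul_apply]
  rw [sum_comm]
  simp only [← mul_sum, h'.2, mul_one, h.2]

theorem Sto.one [DecidableEq S] : Sto (1 : Matrix S S ℝ) :=
  ⟨fun s t => by rw [Matrix.one_apply]; split_ifs <;> norm_num, fun s => by simp [Matrix.one_apply]⟩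

theorem Prob.vecMul {w : S → ℝ} (hw : Prob w) {κ : Matrix S S ℝ} (h : Sto κ) : Prob (w ᵥ* κ) := by
  refine ⟨fun t => sum_nonneg fun s _ => mul_nonneg (hw.1 s) (h.1 s t), ?_⟩
  simp only [vecMul_apply']
  rw [sum_comm]
  simp only [← mul_sum, h.2, mul_one, hw.2]

theorem Prob.single [DecidableEq S] (s : S) : Prob (Pi.single s 1 : S → ℝ) :=
  ⟨fun t => by rw [Pi.single_apply]; split_ifs <;> norm_num, by simp⟩

theorem Path.prob {c : Ch S} {D : ℕ} {μ : ℕ → S → ℝ} (h : Path c D μ) (hc : c.Sto D) {d : ℕ}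
    (hd : d ≤ D) : Prob (μ d) := by
  induction hd using Nat.decreasingInduction with
  | self => exact h.top
  | of_succ k hk ih => rw [h.step k hk]; exact (ih.vecMul (hc k hk).1).vecMul (hc k hk).2

theorem Path.prob_me {c : Ch S} {D : ℕ} {μ : ℕ → S → ℝ} (h : Path c D μ) (hc : c.Sto D) {d : ℕ}
    (hd : d < D) : Prob (me c μ d) :=
  (h.prob hc hd).vecMul (hc d hd).1

theorem Path.sum_me (c : Ch S) (μ : ℕ → S → ℝ) (d : ℕ) (g : S → ℝ) :
    ∑ β, me c μ d β * g β = ∑ γ, μ (d + 1) γ * (c.A d *ᵥ g) γ :=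
  sum_vecMul_mul _ _ _

theorem Path.sum_mo {c : Ch S} {D : ℕ} {μ : ℕ → S → ℝ} (h : Path c D μ) {d : ℕ} (hd : d < D)
    (g : S → ℝ) : ∑ s, μ d s * g s = ∑ β, me c μ d β * (c.B d *ᵥ g) β := by
  rw [h.step d hd]
  exact sum_vecMul_mul _ _ _

theorem path_mo (c : Ch S) (D : ℕ) {w : S → ℝ} (hw : Prob w) : Path c D (mo c D w) := by
  refine ⟨by simpa [mo, dn] using hw, fun d hd => ?_⟩
  obtain ⟨j, rfl⟩ : ∃ j, D = d + 1 + j := ⟨D - (d + 1), by omega⟩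
  have e1 : d + 1 + j - d = j + 1 := by omega
  have e2 : d + 1 + j - (d + 1) = j := by omega
  have e3 : d + 1 + j - 1 - j = d := by omega
  simp only [mo, e1, e2, dn, e3]

theorem Expo.b_anti {a b : ℕ → ℝ} {D : ℕ} {β : ℝ} (h : Expo a b D β) {d e : ℕ} (hde : d ≤ e)
    (he : e ≤ D) : b e ≤ b d := by
  induction hde with
  | refl => exact le_rfl
  | step _ ih => exact ((h.lt _ he).1.trans (h.lt _ he).2).le.trans (ih (Nat.le_of_succ_le he))

theorem Expo.dec {a b : ℕ → ℝ} {D : ℕ} {β : ℝ} (h : Expo a b D β) : Dec b D β :=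
  ⟨h.b0, fun d hd => ((h.lt d hd).1.trans (h.lt d hd).2).le, h.le, h.pos⟩

theorem Dec.b_anti {b : ℕ → ℝ} {D : ℕ} {β : ℝ} (h : Dec b D β) {d e : ℕ} (hde : d ≤ e)
    (he : e ≤ D) : b e ≤ b d := by
  induction hde with
  | refl => exact le_rfl
  | step _ ih => exact (h.anti _ he).trans (ih (Nat.le_of_succ_le he))

theorem Dec.le_b {b : ℕ → ℝ} {D : ℕ} {β : ℝ} (h : Dec b D β) {d : ℕ} (hd : d ≤ D) : β ≤ b d :=
  h.le.trans (h.b_anti hd le_rfl)

theorem Dec.b_pos {b : ℕ → ℝ} {D : ℕ} {β : ℝ} (h : Dec b D β) {d : ℕ} (hd : d ≤ D) : 0 < b d :=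
  h.pos.trans_le (h.le_b hd)

theorem Dec.b_le_one {b : ℕ → ℝ} {D : ℕ} {β : ℝ} (h : Dec b D β) {d : ℕ} (hd : d ≤ D) : b d ≤ 1 :=
  h.b0 ▸ h.b_anti (Nat.zero_le d) hd

theorem Dec.mono {b : ℕ → ℝ} {D D' : ℕ} {β : ℝ} (h : Dec b D β) (hD : D' ≤ D) : Dec b D' β :=
  ⟨h.b0, fun d hd => h.anti d (hd.trans_le hD), h.le_b hD, h.pos⟩

theorem Expo.mono {a b : ℕ → ℝ} {D D' : ℕ} {β : ℝ} (h : Expo a b D β) (hD : D' ≤ D) :
    Expo a b D' β :=
  ⟨h.b0, fun d hd => h.lt d (hd.trans_le hD), h.dec.le_b hD, h.pos⟩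

theorem Expo.a_pos {a b : ℕ → ℝ} {D : ℕ} {β : ℝ} (h : Expo a b D β) {d : ℕ} (hd : d < D) :
    0 < a d :=
  (h.dec.b_pos hd).trans (h.lt d hd).1

/-! ### The recursion -/

theorem PosK.sum_exp_pos {κ : Matrix S S ℝ} (h : PosK κ) (X : S → ℝ) (s : S) :
    0 < ∑ t, κ s t * Real.exp (X t) := by
  obtain ⟨t, -, ht⟩ := exists_lt_of_sum_lt (s := univ) (f := fun _ => (0 : ℝ)) (g := κ s)
    (by simpa using h.2 s)
  exact sum_pos' (fun u _ => mul_nonneg (h.1 _ _) (Real.exp_pos _).le)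
    ⟨t, mem_univ _, mul_pos ht (Real.exp_pos _)⟩

theorem exp_lse {κ : Matrix S S ℝ} (h : PosK κ) {a : ℝ} (ha : a ≠ 0) (X : S → ℝ) (s : S) :
    Real.exp (a * lse κ a X s) = ∑ t, κ s t * Real.exp (a * X t) := by
  rw [lse, mul_div_cancel₀ _ ha, Real.exp_log (h.sum_exp_pos _ s)]

theorem lse_add_const {κ : Matrix S S ℝ} (h : PosK κ) {a : ℝ} (ha : a ≠ 0) (X : S → ℝ) (x : ℝ)
    (s : S) : lse κ a (fun t => X t + x) s = lse κ a X s + x := by
  have : ∑ t, κ s t * Real.exp (a * (X t + x)) =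
      (∑ t, κ s t * Real.exp (a * X t)) * Real.exp (a * x) := by
    rw [sum_mul]
    exact sum_congr rfl fun t _ => by rw [mul_add, Real.exp_add, mul_assoc]
  rw [lse, this, Real.log_mul (h.sum_exp_pos _ s).ne' (Real.exp_pos _).ne', Real.log_exp, lse,
    add_div, mul_div_cancel_left₀ _ ha]

theorem lse_mono {κ : Matrix S S ℝ} (h : PosK κ) {a : ℝ} (ha : 0 < a) {X Y : S → ℝ}
    (hXY : ∀ t, X t ≤ Y t) (s : S) : lse κ a X s ≤ lse κ a Y s :=
  div_le_div_of_nonneg_right (Real.log_le_log (h.sum_exp_pos _ s) (sum_le_sum fun t _ =>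
    mul_le_mul_of_nonneg_left (Real.exp_le_exp.2 (mul_le_mul_of_nonneg_left (hXY t) ha.le))
      (h.1 s t))) ha.le

theorem lse_le_add {κ : Matrix S S ℝ} (h : PosK κ) {a : ℝ} (ha : 0 < a) {X Y : S → ℝ} {x : ℝ}
    (hXY : ∀ t, X t ≤ Y t + x) (s : S) : lse κ a X s ≤ lse κ a Y s + x :=
  (lse_mono h ha hXY s).trans (lse_add_const h ha.ne' Y x s).le

theorem lse_lip {κ : Matrix S S ℝ} (h : PosK κ) {a : ℝ} (ha : 0 < a) {X Y : S → ℝ} {x : ℝ}
    (hXY : ∀ t, |X t - Y t| ≤ x) (s : S) : |lse κ a X s - lse κ a Y s| ≤ x := by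
  have h1 := lse_le_add h ha (X := X) (Y := Y) (x := x)
    (fun t => by linarith [(abs_le.1 (hXY t)).2]) s
  have h2 := lse_le_add h ha (X := Y) (Y := X) (x := x)
    (fun t => by linarith [(abs_le.1 (hXY t)).1]) s
  exact abs_le.2 ⟨by linarith, by linarith⟩

theorem Sto.lse_const {κ : Matrix S S ℝ} (h : Sto κ) {a : ℝ} (ha : a ≠ 0) (x : ℝ) (s : S) :
    lse κ a (fun _ => x) s = x := by
  rw [lse, ← sum_mul, h.2, one_mul, Real.log_exp, mul_div_cancel_left₀ _ ha]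

theorem Sto.lse_le {κ : Matrix S S ℝ} (h : Sto κ) {a : ℝ} (ha : 0 < a) {X : S → ℝ} {x : ℝ}
    (hX : ∀ t, X t ≤ x) (s : S) : lse κ a X s ≤ x :=
  (lse_mono h.posK ha hX s).trans (h.lse_const ha.ne' x s).le

theorem Sto.le_lse {κ : Matrix S S ℝ} (h : Sto κ) {a : ℝ} (ha : 0 < a) {X : S → ℝ} {x : ℝ}
    (hX : ∀ t, x ≤ X t) (s : S) : x ≤ lse κ a X s :=
  (h.lse_const ha.ne' x s).ge.trans (lse_mono h.posK ha hX s)

/-- Jensen -/
theorem Sto.mulVec_le_lse {κ : Matrix S S ℝ} (h : Sto κ) {a : ℝ} (ha : 0 < a) (X : S → ℝ) (s : S) :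
    (κ *ᵥ X) s ≤ lse κ a X s := by
  rw [lse, le_div_iff₀ ha, Real.le_log_iff_exp_le (h.posK.sum_exp_pos _ s)]
  have := convexOn_exp.map_sum_le (t := univ) (w := κ s) (p := fun t => a * X t)
    (fun t _ => h.1 s t) (h.2 s) (fun _ _ => Set.mem_univ _)
  simp only [smul_eq_mul] at this
  refine le_trans (le_of_eq ?_) this
  congr 1
  rw [mulVec_apply', sum_mul]
  exact sum_congr rfl fun t _ => by ring

theorem lse_one [DecidableEq S] {a : ℝ} (ha : a ≠ 0) (X : S → ℝ) : lse (1 : Matrix S S ℝ) a X = X := by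
  funext s
  simp [lse, Matrix.one_apply, mul_div_cancel_left₀ _ ha]

theorem lse_mul {κ κ' : Matrix S S ℝ} (h' : PosK κ') {a : ℝ} (ha : a ≠ 0) (X : S → ℝ) :
    lse κ a (lse κ' a X) = lse (κ * κ') a X := by
  funext s
  simp only [lse.eq_1 κ, exp_lse h' ha, lse.eq_1 (κ * κ'), Matrix.mul_apply, mul_sum, sum_mul,
    mul_assoc]
  rw [sum_comm]

theorem tilt_sto {κ : Matrix S S ℝ} (h : PosK κ) (a : ℝ) (X : S → ℝ) : Sto (tilt κ a X) :=
  ⟨fun s t => div_nonneg (mul_nonneg (h.1 s t) (Real.exp_pos _).le) (h.sum_exp_pos _ s).le,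
    fun s => by simp only [tilt]; rw [← sum_div, div_self (h.sum_exp_pos _ s).ne']⟩

theorem tilt_eq {κ : Matrix S S ℝ} (h : PosK κ) {a : ℝ} (ha : a ≠ 0) (X : S → ℝ) (s t : S) :
    tilt κ a X s t = κ s t * Real.exp (a * (X t - lse κ a X s)) := by
  rw [tilt, ← exp_lse h ha, mul_sub, Real.exp_sub, mul_div_assoc]

theorem lse_add {κ : Matrix S S ℝ} (h : PosK κ) {a : ℝ} (_ha : a ≠ 0) (X Z : S → ℝ) (s : S) :
    lse κ a (fun t => X t + Z t) s = lse κ a X s + lse (tilt κ a X) a Z s := by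
  have h1 : ∑ t, tilt κ a X s t * Real.exp (a * Z t) =
      (∑ t, κ s t * Real.exp (a * (X t + Z t))) / ∑ t, κ s t * Real.exp (a * X t) := by
    rw [sum_div]
    exact sum_congr rfl fun t _ => by rw [tilt, mul_add, Real.exp_add]; ring
  rw [lse.eq_1 (tilt κ a X), h1, Real.log_div (h.sum_exp_pos _ s).ne' (h.sum_exp_pos _ s).ne', lse,
    lse]
  ring

theorem tilt_add {κ : Matrix S S ℝ} (h : PosK κ) (a : ℝ) (X Z : S → ℝ) :
    tilt κ a (fun t => X t + Z t) = tilt (tilt κ a X) a Z := by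
  funext s t
  have h1 : ∑ t, tilt κ a X s t * Real.exp (a * Z t) =
      (∑ t, κ s t * Real.exp (a * (X t + Z t))) / ∑ t, κ s t * Real.exp (a * X t) := by
    rw [sum_div]
    exact sum_congr rfl fun t _ => by rw [tilt, mul_add, Real.exp_add]; ring
  have h2 := (h.sum_exp_pos (fun t => a * X t) s).ne'
  rw [tilt.eq_1 (tilt κ a X), h1, tilt, tilt, mul_add, Real.exp_add]
  field_simp

theorem XO_succ (c : Ch S) (X : S → ℝ) (d : ℕ) : XO c X (d + 1) = lse (c.A d) (c.a d) (XE c X d) :=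
  rfl

theorem Ch.tl_sto {c : Ch S} {D : ℕ} (h : c.Pos D) (X : S → ℝ) : (c.tl X).Sto D :=
  fun d hd => ⟨tilt_sto (h d hd).1 _ _, tilt_sto (h d hd).2 _ _⟩

/-- positivity of the exponents below height `D` -/
def Ch.EP (c : Ch S) (D : ℕ) : Prop := ∀ d < D, 0 < c.a d ∧ 0 < c.b d

omit [Fintype S] in
theorem Expo.ep {c : Ch S} {D : ℕ} {β : ℝ} (h : Expo c.a c.b D β) : c.EP D :=
  fun _ hd => ⟨h.a_pos hd, h.dec.b_pos hd.le⟩

omit [Fintype S] in
theorem Dec.ep_fl {c : Ch S} {D : ℕ} {β : ℝ} (h : Dec c.b D β) : c.fl.EP D :=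
  fun _ hd => ⟨h.b_pos hd, h.b_pos hd.le⟩

theorem XO_add {c : Ch S} {D : ℕ} (h : c.Pos D) (he : c.EP D) (X Z : S → ℝ) {d : ℕ} (hd : d ≤ D) :
    XO c (fun t => X t + Z t) d = fun s => XO c X d s + XO (c.tl X) Z d s := by
  induction d with
  | zero => rfl
  | succ d ih =>
    funext s
    have h1 : lse (c.B d) (c.b d) (fun s => XO c X d s + XO (c.tl X) Z d s) =
        fun s => XE c X d s + XE (c.tl X) Z d s :=
      funext (lse_add (h d hd).2 (he d hd).2.ne' _ _)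
    rw [XO, ih (Nat.le_of_succ_le hd), h1, lse_add (h d hd).1 (he d hd).1.ne']
    rfl

theorem XE_add {c : Ch S} {D : ℕ} (h : c.Pos D) (he : c.EP D) (X Z : S → ℝ) {d : ℕ} (hd : d < D) :
    XE c (fun t => X t + Z t) d = fun s => XE c X d s + XE (c.tl X) Z d s := by
  rw [XE, XO_add h he X Z hd.le]
  exact funext (lse_add (h d hd).2 (he d hd).2.ne' _ _)

theorem XO_le_add {c : Ch S} {D : ℕ} (h : c.Pos D) (he : c.EP D) {X Y : S → ℝ} {x : ℝ}
    (hXY : ∀ t, X t ≤ Y t + x) {d : ℕ} (hd : d ≤ D) (s : S) : XO c X d s ≤ XO c Y d s + x := by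
  induction d generalizing s with
  | zero => exact hXY s
  | succ d ih =>
    exact lse_le_add (h d hd).1 (he d hd).1
      (lse_le_add (h d hd).2 (he d hd).2 (ih (Nat.le_of_succ_le hd))) s

theorem XE_le_add {c : Ch S} {D : ℕ} (h : c.Pos D) (he : c.EP D) {X Y : S → ℝ} {x : ℝ}
    (hXY : ∀ t, X t ≤ Y t + x) {d : ℕ} (hd : d < D) (s : S) : XE c X d s ≤ XE c Y d s + x :=
  lse_le_add (h d hd).2 (he d hd).2 (XO_le_add h he hXY hd.le) s

theorem XO_lip {c : Ch S} {D : ℕ} (h : c.Pos D) (he : c.EP D) {X Y : S → ℝ} {x : ℝ}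
    (hXY : ∀ t, |X t - Y t| ≤ x) {d : ℕ} (hd : d ≤ D) (s : S) : |XO c X d s - XO c Y d s| ≤ x := by
  have h1 := XO_le_add h he (X := X) (Y := Y) (x := x)
    (fun t => by linarith [(abs_le.1 (hXY t)).2]) hd s
  have h2 := XO_le_add h he (X := Y) (Y := X) (x := x)
    (fun t => by linarith [(abs_le.1 (hXY t)).1]) hd s
  exact abs_le.2 ⟨by linarith, by linarith⟩

theorem XE_lip {c : Ch S} {D : ℕ} (h : c.Pos D) (he : c.EP D) {X Y : S → ℝ} {x : ℝ}
    (hXY : ∀ t, |X t - Y t| ≤ x) {d : ℕ} (hd : d < D) (s : S) : |XE c X d s - XE c Y d s| ≤ x :=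
  lse_lip (h d hd).2 (he d hd).2 (XO_lip h he hXY hd.le) s

theorem XO_le {c : Ch S} {D : ℕ} (h : c.Sto D) (he : c.EP D) {X : S → ℝ} {x : ℝ}
    (hX : ∀ t, X t ≤ x) {d : ℕ} (hd : d ≤ D) (s : S) : XO c X d s ≤ x := by
  induction d generalizing s with
  | zero => exact hX s
  | succ d ih =>
    exact (h d hd).1.lse_le (he d hd).1 ((h d hd).2.lse_le (he d hd).2 (ih (Nat.le_of_succ_le hd))) s

theorem le_XO {c : Ch S} {D : ℕ} (h : c.Sto D) (he : c.EP D) {X : S → ℝ} {x : ℝ}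
    (hX : ∀ t, x ≤ X t) {d : ℕ} (hd : d ≤ D) (s : S) : x ≤ XO c X d s := by
  induction d generalizing s with
  | zero => exact hX s
  | succ d ih =>
    exact (h d hd).1.le_lse (he d hd).1 ((h d hd).2.le_lse (he d hd).2 (ih (Nat.le_of_succ_le hd))) s

theorem XE_le {c : Ch S} {D : ℕ} (h : c.Sto D) (he : c.EP D) {X : S → ℝ} {x : ℝ}
    (hX : ∀ t, X t ≤ x) {d : ℕ} (hd : d < D) (s : S) : XE c X d s ≤ x :=
  (h d hd).2.lse_le (he d hd).2 (XO_le h he hX hd.le) s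

theorem le_XE {c : Ch S} {D : ℕ} (h : c.Sto D) (he : c.EP D) {X : S → ℝ} {x : ℝ}
    (hX : ∀ t, x ≤ X t) {d : ℕ} (hd : d < D) (s : S) : x ≤ XE c X d s :=
  (h d hd).2.le_lse (he d hd).2 (le_XO h he hX hd.le) s

theorem PO_succ (c : Ch S) (y : S → ℝ) (d : ℕ) : PO c y (d + 1) = c.A d *ᵥ PE c y d := rfl

theorem PO_exp {c : Ch S} {D : ℕ} {β : ℝ} (h : c.Pos D) (hb : Dec c.b D β) (X : S → ℝ) {d : ℕ}
    (hd : d ≤ D) : PO c (fun s => Real.exp (X s)) d = fun s => Real.exp (c.b d * XO c.fl X d s) := by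
  induction d with
  | zero => funext s; simp [PO, XO, hb.b0]
  | succ d ih =>
    funext s
    have h1 := hb.b_pos hd
    have h2 := hb.b_pos (Nat.le_of_succ_le hd)
    have h3 : XO c.fl X (d + 1) s = lse (c.A d) (c.b (d + 1)) (XE c.fl X d) s := rfl
    rw [h3, exp_lse (h d hd).1 h1.ne', PO, mulVec_apply', ih (Nat.le_of_succ_le hd)]
    refine sum_congr rfl fun t _ => ?_
    have h4 : XE c.fl X d t = lse (c.B d) (c.b d) (XO c.fl X d) t := rfl
    rw [mulVec_apply', ← exp_lse (h d hd).2 h2.ne', ← h4, ← Real.exp_mul]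
    congr 2
    field_simp

theorem PE_exp {c : Ch S} {D : ℕ} {β : ℝ} (h : c.Pos D) (hb : Dec c.b D β) (X : S → ℝ) {d : ℕ}
    (hd : d < D) (s : S) :
    PE c (fun s => Real.exp (X s)) d s = Real.exp (c.b (d + 1) * XE c.fl X d s) := by
  have h2 := hb.b_pos hd.le
  have h4 : XE c.fl X d s = lse (c.B d) (c.b d) (XO c.fl X d) s := rfl
  rw [PE, PO_exp h hb X hd.le, mulVec_apply', ← exp_lse (h d hd).2 h2.ne', ← h4, ← Real.exp_mul]
  congr 1
  field_simp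

/-! ### Products of chains -/

theorem piK_sto {J : Type} [Fintype J] [DecidableEq J] {κ : Matrix S S ℝ} (h : Sto κ) :
    Sto (piK J κ) :=
  ⟨fun s t => prod_nonneg fun j _ => h.1 _ _, fun s => by
    simp only [piK]
    rw [← Fintype.prod_sum (fun j t => κ (s j) t)]
    simp [h.2]⟩

theorem piK_mulVec_prod {J : Type} [Fintype J] [DecidableEq J] (κ : Matrix S S ℝ) (g : J → S → ℝ)
    (s : J → S) : (piK J κ *ᵥ fun t => ∏ j, g j (t j)) s = ∏ j, (κ *ᵥ g j) (s j) := by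
  simp only [mulVec_apply', piK, ← prod_mul_distrib]
  exact (Fintype.prod_sum fun j t => κ (s j) t * g j t).symm

theorem piK_mul {J : Type} [Fintype J] [DecidableEq J] (κ κ' : Matrix S S ℝ) :
    piK J (κ * κ') = piK J κ * piK J κ' := by
  funext s t
  simp only [piK, Matrix.mul_apply, ← prod_mul_distrib]
  exact Fintype.prod_sum fun j u => κ (s j) u * κ' u (t j)

theorem Ch.Sto.pi {J : Type} [Fintype J] [DecidableEq J] {c : Ch S} {D : ℕ} (h : c.Sto D) :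
    (c.pi J).Sto D :=
  fun d hd => ⟨piK_sto (h d hd).1, piK_sto (h d hd).2⟩

theorem prodK_mulVec (κ : Matrix S S ℝ) (κ' : Matrix S' S' ℝ) (g : S → ℝ) (g' : S' → ℝ)
    (s : S × S') : ((fun s t : S × S' => κ s.1 t.1 * κ' s.2 t.2 : Matrix _ _ ℝ) *ᵥ
      fun t => g t.1 * g' t.2) s = (κ *ᵥ g) s.1 * (κ' *ᵥ g') s.2 := by
  show ∑ t : S × S', κ s.1 t.1 * κ' s.2 t.2 * (g t.1 * g' t.2) = _
  rw [mulVec_apply', mulVec_apply', Fintype.sum_prod_type, sum_mul_sum]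
  exact sum_congr rfl fun t _ => sum_congr rfl fun t' _ => by ring

theorem Ch.Sto.prod {c : Ch S} {c' : Ch S'} {D : ℕ} (h : c.Sto D) (h' : c'.Sto D) :
    (c.prod c').Sto D := by
  have key : ∀ {κ : Matrix S S ℝ} {κ' : Matrix S' S' ℝ}, P168.Sto κ → P168.Sto κ' →
      P168.Sto (fun s t : S × S' => κ s.1 t.1 * κ' s.2 t.2 : Matrix _ _ ℝ) := fun h h' =>
    ⟨fun s t => mul_nonneg (h.1 _ _) (h'.1 _ _), fun s => by
      rw [Fintype.sum_prod_type, ← sum_mul_sum, h.2, h'.2, one_mul]⟩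
  exact fun d hd => ⟨key (h d hd).1 (h' d hd).1, key (h d hd).2 (h' d hd).2⟩

/-! ### Shapes -/

theorem act_succ (c : Ch S) (z : L → S → ℝ) (d : ℕ) (t : Sh n L (d + 1)) :
    act c z (d + 1) t = c.A d *ᵥ eact c z d t := rfl

theorem lv_pos : ∀ (d : ℕ) (t : Sh n L d), 0 < lv d t
  | 0, _ => one_pos
  | d + 1, t => sum_pos (fun q _ => lv_pos d (t.2 q)) univ_nonempty

theorem lv_map (f : L → L') : ∀ (d : ℕ) (t : Sh n L d), lv d (Sh.map f d t) = lv d t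
  | 0, _ => rfl
  | d + 1, t => sum_congr rfl fun q _ => lv_map f d (t.2 q)

theorem wt_map (b : ℕ → ℝ) (f : L → L') :
    ∀ (d : ℕ) (t : Sh n L d), wt b d (Sh.map f d t) = wt b d t
  | 0, _ => rfl
  | d + 1, t => congrArg (sib (b (d + 1) / b d) t.1 * ·)
      (prod_congr rfl fun q _ => wt_map b f d (t.2 q))

theorem act_map (c : Ch S) (z : L' → S → ℝ) (f : L → L') :
    ∀ (d : ℕ) (t : Sh n L d), act c z d (Sh.map f d t) = act c (fun l => z (f l)) d t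
  | 0, _ => rfl
  | d + 1, t => congrArg (c.A d *ᵥ ·) (funext fun β => prod_congr rfl fun q _ =>
      congrFun (congrArg (c.B d *ᵥ ·) (act_map c z f d (t.2 q))) β)

theorem eact_map (c : Ch S) (z : L' → S → ℝ) (f : L → L') (d : ℕ) (t : Sh n L (d + 1)) :
    eact c z d (Sh.map f (d + 1) t) = eact c (fun l => z (f l)) d t :=
  funext fun β => prod_congr rfl fun q _ =>
    congrFun (congrArg (c.B d *ᵥ ·) (act_map c z f d (t.2 q))) β

theorem act_mem {c : Ch S} {D : ℕ} (h : c.Sto D) {z : L → S → ℝ}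
    (hz : ∀ l s, 0 ≤ z l s ∧ z l s ≤ 1) :
    ∀ (d : ℕ), d ≤ D → ∀ (t : Sh n L d) (s : S), 0 ≤ act c z d t s ∧ act c z d t s ≤ 1
  | 0, _, t, s => hz t s
  | d + 1, hd, t, s => by
    have h1 : ∀ q β, 0 ≤ (c.B d *ᵥ act c z d (t.2 q)) β ∧ (c.B d *ᵥ act c z d (t.2 q)) β ≤ 1 :=
      fun q β => ⟨(h d hd).2.le_mulVec (fun u => (act_mem h hz d (Nat.le_of_succ_le hd) _ u).1) β,
        (h d hd).2.mulVec_le (fun u => (act_mem h hz d (Nat.le_of_succ_le hd) _ u).2) β⟩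
    exact ⟨(h d hd).1.le_mulVec (fun β => prod_nonneg fun q _ => (h1 q β).1) s,
      (h d hd).1.mulVec_le (fun β => prod_le_one (fun q _ => (h1 q β).1) fun q _ => (h1 q β).2) s⟩

theorem Bact_mem {c : Ch S} {D : ℕ} (h : c.Sto D) {z : L → S → ℝ}
    (hz : ∀ l s, 0 ≤ z l s ∧ z l s ≤ 1) {d : ℕ} (hd : d < D) (t : Sh n L d) (β : S) :
    0 ≤ (c.B d *ᵥ act c z d t) β ∧ (c.B d *ᵥ act c z d t) β ≤ 1 :=
  ⟨(h d hd).2.le_mulVec (fun u => (act_mem h hz d hd.le _ u).1) β,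
    (h d hd).2.mulVec_le (fun u => (act_mem h hz d hd.le _ u).2) β⟩

theorem eact_mem {c : Ch S} {D : ℕ} (h : c.Sto D) {z : L → S → ℝ}
    (hz : ∀ l s, 0 ≤ z l s ∧ z l s ≤ 1) {d : ℕ} (hd : d < D) (t : Sh n L (d + 1)) (β : S) :
    0 ≤ eact c z d t β ∧ eact c z d t β ≤ 1 :=
  ⟨prod_nonneg fun _ _ => (Bact_mem h hz hd _ β).1,
    prod_le_one (fun _ _ => (Bact_mem h hz hd _ β).1) fun _ _ => (Bact_mem h hz hd _ β).2⟩

theorem vir_mem {c : Ch S} {D : ℕ} (h : c.Sto D) {z : L → S → ℝ}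
    (hz : ∀ l s, 0 ≤ z l s ∧ z l s ≤ 1) :
    ∀ (d : ℕ), d ≤ D → ∀ (t : Sh n L d) (s : S), 0 ≤ vir c z d t s ∧ vir c z d t s ≤ 1
  | 0, _, t, s => hz t s
  | d + 1, hd, t, s => by
    have h1 : ∀ q, 0 ≤ (c.A d *ᵥ (c.B d *ᵥ vir c z d (t.2 q))) s ∧
        (c.A d *ᵥ (c.B d *ᵥ vir c z d (t.2 q))) s ≤ 1 := fun q =>
      ⟨(h d hd).1.le_mulVec ((h d hd).2.le_mulVec
          fun u => (vir_mem h hz d (Nat.le_of_succ_le hd) _ u).1) s,
        (h d hd).1.mulVec_le ((h d hd).2.mulVec_le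
          fun u => (vir_mem h hz d (Nat.le_of_succ_le hd) _ u).2) s⟩
    exact ⟨prod_nonneg fun q _ => (h1 q).1, prod_le_one (fun q _ => (h1 q).1) fun q _ => (h1 q).2⟩

theorem act_nonneg {c : Ch S} {D : ℕ} (h : c.Sto D) {z : L → S → ℝ} (hz : ∀ l s, 0 ≤ z l s) :
    ∀ (d : ℕ), d ≤ D → ∀ (t : Sh n L d) (s : S), 0 ≤ act c z d t s
  | 0, _, t, s => hz t s
  | d + 1, hd, _, s => (h d hd).1.le_mulVec (fun β => prod_nonneg fun _ _ =>
      (h d hd).2.le_mulVec (act_nonneg h hz d (Nat.le_of_succ_le hd) _) β) s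

theorem act_one {c : Ch S} {D : ℕ} (h : c.Sto D) :
    ∀ (d : ℕ), d ≤ D → ∀ (t : Sh n L d), act c (fun _ _ => 1) d t = fun _ => 1
  | 0, _, _ => rfl
  | d + 1, hd, t => by
    funext s
    have h1 : ∀ q β, (c.B d *ᵥ act c (fun _ _ => 1) d (t.2 q)) β = 1 := fun q β => by
      rw [act_one h d (Nat.le_of_succ_le hd), (h d hd).2.mulVec_const]
    simp only [act, h1, prod_const_one, (h d hd).1.mulVec_const]

/-- label weights come out of the evaluation -/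
theorem act_lw (c : Ch S) (Z : L → ℝ) (z : L → S → ℝ) : ∀ (d : ℕ) (t : Sh n L d),
    act c (fun l s => Z l * z l s) d t = fun s => lw Z d t * act c z d t s
  | 0, _ => rfl
  | d + 1, t => by
    funext s
    have h1 : ∀ q β, (c.B d *ᵥ act c (fun l s => Z l * z l s) d (t.2 q)) β =
        lw Z d (t.2 q) * (c.B d *ᵥ act c z d (t.2 q)) β := fun q β => by
      rw [act_lw c Z z d, mulVec_apply', mulVec_apply', mul_sum]
      exact sum_congr rfl fun u _ => by ring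
    simp only [act, h1, prod_mul_distrib, lw]
    rw [mulVec_apply', mulVec_apply', mul_sum]
    exact sum_congr rfl fun u _ => by ring

theorem eact_lw (c : Ch S) (Z : L → ℝ) (z : L → S → ℝ) (d : ℕ) (t : Sh n L (d + 1)) (β : S) :
    eact c (fun l s => Z l * z l s) d t β = lw Z (d + 1) t * eact c z d t β := by
  have h1 : ∀ q, (c.B d *ᵥ act c (fun l s => Z l * z l s) d (t.2 q)) β =
      lw Z d (t.2 q) * (c.B d *ᵥ act c z d (t.2 q)) β := fun q => by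
    rw [act_lw c Z z d, mulVec_apply', mulVec_apply', mul_sum]
    exact sum_congr rfl fun u _ => by ring
  simp only [eact, h1, prod_mul_distrib, lw]

theorem lw_const (x : ℝ) : ∀ (d : ℕ) (t : Sh n L d), lw (fun _ => x) d t = x ^ lv d t
  | 0, _ => (pow_one x).symm
  | d + 1, t => by simp only [lw, lv, lw_const x d, prod_pow_eq_pow_sum]

theorem lw_mem {Z : L → ℝ} (hZ : ∀ l, 0 ≤ Z l ∧ Z l ≤ 1) :
    ∀ (d : ℕ) (t : Sh n L d), 0 ≤ lw Z d t ∧ lw Z d t ≤ 1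
  | 0, t => hZ t
  | d + 1, t => ⟨prod_nonneg fun q _ => (lw_mem hZ d (t.2 q)).1,
      prod_le_one (fun q _ => (lw_mem hZ d (t.2 q)).1) fun q _ => (lw_mem hZ d (t.2 q)).2⟩

theorem act_prod (c : Ch S) (c' : Ch S') (z : L → S → ℝ) (z' : L → S' → ℝ) :
    ∀ (d : ℕ) (t : Sh n L d), act (c.prod c') (fun l s => z l s.1 * z' l s.2) d t =
      fun s => act c z d t s.1 * act c' z' d t s.2
  | 0, _ => rfl
  | d + 1, t => by
    funext s
    have h1 : (fun β => ∏ q, ((c.prod c').B d *ᵥ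
        act (c.prod c') (fun l s => z l s.1 * z' l s.2) d (t.2 q)) β) =
        fun β => eact c z d t β.1 * eact c' z' d t β.2 := by
      funext β
      rw [eact, eact, ← prod_mul_distrib]
      refine prod_congr rfl fun q _ => ?_
      rw [act_prod c c' z z' d]
      exact prodK_mulVec _ _ _ _ _
    rw [act, h1]
    exact prodK_mulVec _ _ _ _ _

theorem eact_prod (c : Ch S) (c' : Ch S') (z : L → S → ℝ) (z' : L → S' → ℝ) (d : ℕ)
    (t : Sh n L (d + 1)) (β : S × S') : eact (c.prod c') (fun l s => z l s.1 * z' l s.2) d t β =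
      eact c z d t β.1 * eact c' z' d t β.2 := by
  rw [eact, eact, eact, ← prod_mul_distrib]
  refine prod_congr rfl fun q _ => ?_
  rw [act_prod c c' z z' d]
  exact prodK_mulVec _ _ _ _ _

theorem act_pi {J : Type} [Fintype J] [DecidableEq J] (c : Ch S) (z : J → L → S → ℝ) :
    ∀ (d : ℕ) (t : Sh n L d), act (c.pi J) (fun l s => ∏ j, z j l (s j)) d t =
      fun s => ∏ j, act c (z j) d t (s j)
  | 0, _ => rfl
  | d + 1, t => by
    funext s
    have h1 : (fun β => ∏ q, ((c.pi J).B d *ᵥ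
        act (c.pi J) (fun l s => ∏ j, z j l (s j)) d (t.2 q)) β) =
        fun β => ∏ j, eact c (z j) d t (β j) := by
      funext β
      simp only [eact]
      rw [prod_comm]
      refine prod_congr rfl fun q _ => ?_
      rw [act_pi c z d]
      exact piK_mulVec_prod _ _ _
    rw [act, h1]
    exact piK_mulVec_prod _ (fun j => eact c (z j) d t) _

theorem eact_pi {J : Type} [Fintype J] [DecidableEq J] (c : Ch S) (z : J → L → S → ℝ) (d : ℕ)
    (t : Sh n L (d + 1)) (β : J → S) :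
    eact (c.pi J) (fun l s => ∏ j, z j l (s j)) d t β = ∏ j, eact c (z j) d t (β j) := by
  simp only [eact]
  rw [prod_comm]
  refine prod_congr rfl fun q _ => ?_
  rw [act_pi c z d]
  exact piK_mulVec_prod _ _ _

/-- summing a product over all shapes of height `d+1` -/
theorem sum_Sh_succ [Fintype L] (d : ℕ) (F : Sh n L (d + 1) → ℝ) :
    ∑ t, F t = ∑ c : Fin n, ∑ ts : Fin (c + 1) → Sh n L d, F ⟨c, ts⟩ :=
  Fintype.sum_sigma _

theorem sib_nonneg {θ : ℝ} (h0 : 0 ≤ θ) (h1 : θ ≤ 1) : ∀ c, 0 ≤ sib θ c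
  | 0 => h0
  | c + 1 => div_nonneg (mul_nonneg (sib_nonneg h0 h1 c)
      (by linarith [(Nat.cast_nonneg c : (0 : ℝ) ≤ c)])) (by positivity)

theorem sib_succ_le {θ : ℝ} (h0 : 0 ≤ θ) (h1 : θ ≤ 1) :
    ∀ c : ℕ, ((c : ℝ) + 2) * sib θ (c + 1) ≤ θ * (1 - θ)
  | 0 => by simp only [sib]; push_cast; field_simp; norm_num
  | c + 1 => by
    have ih := sib_succ_le h0 h1 c
    have h2 := sib_nonneg h0 h1 (c + 1)
    rw [sib]
    push_cast
    rw [mul_div_cancel₀ _ (by positivity)]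
    nlinarith

theorem wt_nonneg {b : ℕ → ℝ} {D : ℕ} {β : ℝ} (hb : Dec b D β) :
    ∀ (d : ℕ), d ≤ D → ∀ t : Sh n L d, 0 ≤ wt b d t
  | 0, _, _ => zero_le_one
  | d + 1, hd, _ => mul_nonneg (sib_nonneg
      (div_nonneg (hb.b_pos hd).le (hb.b_pos (Nat.le_of_succ_le hd)).le)
      ((div_le_one (hb.b_pos (Nat.le_of_succ_le hd))).2 (hb.anti d hd)) _)
      (prod_nonneg fun _ _ => wt_nonneg hb d (Nat.le_of_succ_le hd) _)

omit [Fintype S] in
theorem obs_ind {I : Type} (sp : S → I → Bool) : Obs (ind sp) := fun i τ s => by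
  unfold ind
  split_ifs <;> norm_num

theorem abs_prod_sub_prod_le {ι : Type} (T : Finset ι) {f g : ι → ℝ} (hf : ∀ q, |f q| ≤ 1)
    (hg : ∀ q, |g q| ≤ 1) : |∏ q ∈ T, f q - ∏ q ∈ T, g q| ≤ ∑ q ∈ T, |f q - g q| := by
  classical
  induction T using Finset.induction_on with
  | empty => simp
  | insert a T ha ih =>
    rw [prod_insert ha, prod_insert ha, sum_insert ha]
    have h1 : |∏ q ∈ T, g q| ≤ 1 := by
      rw [abs_prod]; exact prod_le_one (fun q _ => abs_nonneg _) fun q _ => hg q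
    calc |f a * ∏ q ∈ T, f q - g a * ∏ q ∈ T, g q|
        = |f a * (∏ q ∈ T, f q - ∏ q ∈ T, g q) + (f a - g a) * ∏ q ∈ T, g q| := by ring_nf
      _ ≤ |f a| * |∏ q ∈ T, f q - ∏ q ∈ T, g q| + |f a - g a| * |∏ q ∈ T, g q| := by
        rw [← abs_mul, ← abs_mul]; exact abs_add_le _ _
      _ ≤ 1 * ∑ q ∈ T, |f q - g q| + |f a - g a| * 1 := by gcongr; exact hf a
      _ = _ := by ring

end Vale.Agent.P168
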