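import Vale.Agent.P168.BrMsg

/-! Stability of the trial functional. -/

namespace Vale.Agent.P168

open Finset MeasureTheory

section Gen

variable {Λ : Type} [MeasureSpace Λ] [IsProbabilityMeasure (volume : Measure Λ)]

omit [IsProbabilityMeasure (volume : Measure Λ)] in
theorem apx_measurable_snoc (k : ℕ) :
    Measurable (fun x : (Fin k → Λ) × Λ => (Fin.snoc (α := fun _ => Λ) x.1 x.2 : Fin (k + 1) → Λ)) := by
  refine measurable_pi_lambda _ fun i => ?_
  refine Fin.lastCases ?_ (fun j => ?_) i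
  · simpa using measurable_snd
  · simp only [Fin.snoc_castSucc]
    exact (measurable_pi_apply j).comp measurable_fst

theorem apx_measurable_int {k : ℕ} {g : (Fin (k + 1) → Λ) → ℝ} (hg : Measurable g) :
    Measurable (fun w : Fin k → Λ => ∫ η : Λ, g (Fin.snoc (α := fun _ => Λ) w η)) :=
  ((hg.comp (apx_measurable_snoc k)).stronglyMeasurable.integral_prod_right').measurable

theorem apx_integrable {α : Type*} [MeasurableSpace α] {μ : Measure α} [IsFiniteMeasure μ]
    {g : α → ℝ} (hg : Measurable g) {C : ℝ} (hC : ∀ x, |g x| ≤ C) : Integrable g μ :=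
  Integrable.of_bound hg.aestronglyMeasurable C (Filter.Eventually.of_forall hC)

omit [IsProbabilityMeasure (volume : Measure Λ)] in
theorem apx_measurable_sec {k : ℕ} {g : (Fin (k + 1) → Λ) → ℝ} (hg : Measurable g)
    (w : Fin k → Λ) : Measurable (fun η : Λ => g (Fin.snoc (α := fun _ => Λ) w η)) :=
  (hg.comp (apx_measurable_snoc k)).comp (measurable_const.prodMk measurable_id)

def GoodY {α : Type} [MeasurableSpace α] (Y : α → ℝ) (B : ℝ) : Prop :=
  Measurable Y ∧ ∀ w, Real.exp (-B) ≤ Y w ∧ Y w ≤ Real.exp B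

noncomputable def lvl {k : ℕ} (m : ℝ) (Y : (Fin (k + 1) → Λ) → ℝ) (w : Fin k → Λ) : ℝ :=
  (∫ η : Λ, Y (Fin.snoc (α := fun _ => Λ) w η) ^ m) ^ (1 / m)

theorem lvl_integrable {k : ℕ} {m B : ℝ} (hm : 0 < m) {Y : (Fin (k + 1) → Λ) → ℝ}
    (hY : GoodY Y B) (w : Fin k → Λ) :
    Integrable (fun η : Λ => Y (Fin.snoc (α := fun _ => Λ) w η) ^ m) := by
  refine apx_integrable ((apx_measurable_sec hY.1 w).pow_const m) (C := Real.exp B ^ m) fun η => ?_
  have h0 : 0 ≤ Y (Fin.snoc (α := fun _ => Λ) w η) := (Real.exp_pos _).le.trans (hY.2 _).1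
  rw [abs_of_nonneg (Real.rpow_nonneg h0 _)]
  exact Real.rpow_le_rpow h0 (hY.2 _).2 hm.le

theorem lvl_int_bounds {k : ℕ} {m B : ℝ} (hm : 0 < m) {Y : (Fin (k + 1) → Λ) → ℝ}
    (hY : GoodY Y B) (w : Fin k → Λ) :
    Real.exp (-B) ^ m ≤ ∫ η : Λ, Y (Fin.snoc (α := fun _ => Λ) w η) ^ m ∧
      ∫ η : Λ, Y (Fin.snoc (α := fun _ => Λ) w η) ^ m ≤ Real.exp B ^ m := by
  constructor
  · calc Real.exp (-B) ^ m = ∫ _ : Λ, Real.exp (-B) ^ m := by simp
      _ ≤ _ := integral_mono (integrable_const _) (lvl_integrable hm hY w) fun η =>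
          Real.rpow_le_rpow (Real.exp_pos _).le (hY.2 _).1 hm.le
  · calc _ ≤ ∫ _ : Λ, Real.exp B ^ m := integral_mono (lvl_integrable hm hY w)
          (integrable_const _) fun η =>
          Real.rpow_le_rpow ((Real.exp_pos _).le.trans (hY.2 _).1) (hY.2 _).2 hm.le
      _ = _ := by simp

theorem lvl_good {k : ℕ} {m B : ℝ} (hm : 0 < m) {Y : (Fin (k + 1) → Λ) → ℝ} (hY : GoodY Y B) :
    GoodY (lvl m Y) B := by
  refine ⟨(apx_measurable_int (hY.1.pow_const m)).pow_const _, fun w => ?_⟩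
  obtain ⟨h1, h2⟩ := lvl_int_bounds hm hY w
  have h0 : 0 ≤ Real.exp (-B) ^ m := Real.rpow_nonneg (Real.exp_pos _).le _
  have hm' : 0 ≤ 1 / m := by positivity
  constructor
  · calc Real.exp (-B) = (Real.exp (-B) ^ m) ^ (1 / m) := by
          rw [one_div, Real.rpow_rpow_inv (Real.exp_pos _).le hm.ne']
      _ ≤ _ := Real.rpow_le_rpow h0 h1 hm'
  · calc lvl m Y w ≤ (Real.exp B ^ m) ^ (1 / m) := Real.rpow_le_rpow (h0.trans h1) h2 hm'
      _ = _ := by rw [one_div, Real.rpow_rpow_inv (Real.exp_pos _).le hm.ne']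

theorem lvl_le {k : ℕ} {m B c : ℝ} (hm : 0 < m) (hc : 0 ≤ c) {Y Y' : (Fin (k + 1) → Λ) → ℝ}
    (hY : GoodY Y B) (hY' : GoodY Y' B) (h : ∀ w, Y w ≤ c * Y' w) (w : Fin k → Λ) :
    lvl m Y w ≤ c * lvl m Y' w := by
  have h0 : 0 ≤ Real.exp (-B) ^ m := Real.rpow_nonneg (Real.exp_pos _).le _
  have hm' : 0 ≤ 1 / m := by positivity
  have h1 : ∫ η : Λ, Y (Fin.snoc (α := fun _ => Λ) w η) ^ m ≤
      c ^ m * ∫ η : Λ, Y' (Fin.snoc (α := fun _ => Λ) w η) ^ m := by
    rw [← integral_const_mul]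
    refine integral_mono (lvl_integrable hm hY w) ((lvl_integrable hm hY' w).const_mul _) fun η => ?_
    have a0 : 0 ≤ Y' (Fin.snoc (α := fun _ => Λ) w η) := (Real.exp_pos _).le.trans (hY'.2 _).1
    simp only
    rw [← Real.mul_rpow hc a0]
    exact Real.rpow_le_rpow ((Real.exp_pos _).le.trans (hY.2 _).1) (h _) hm.le
  calc lvl m Y w ≤ (c ^ m * ∫ η : Λ, Y' (Fin.snoc (α := fun _ => Λ) w η) ^ m) ^ (1 / m) :=
        Real.rpow_le_rpow (h0.trans (lvl_int_bounds hm hY w).1) h1 hm'
    _ = c * lvl m Y' w := by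
        rw [Real.mul_rpow (Real.rpow_nonneg hc _) (h0.trans (lvl_int_bounds hm hY' w).1), one_div,
          Real.rpow_rpow_inv hc hm.ne', lvl, one_div]

theorem apx_exp_sub {m B a b : ℝ} (hm : 0 < m) (ha : a ≤ B) (hb : b ≤ B) :
    |Real.exp (a * m) - Real.exp (b * m)| ≤ Real.exp (B * m) * (m * |a - b|) := by
  have key : ∀ a b : ℝ, a ≤ B → Real.exp (a * m) - Real.exp (b * m) ≤
      Real.exp (B * m) * (m * |a - b|) := by
    intro a b ha
    have h1 : Real.exp (a * m) - Real.exp (b * m) ≤ Real.exp (a * m) * (m * (a - b)) := by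
      have h2 := Real.add_one_le_exp (b * m - a * m)
      have h3 : Real.exp (b * m) = Real.exp (a * m) * Real.exp (b * m - a * m) := by
        rw [← Real.exp_add]; ring_nf
      have h4 := Real.exp_pos (a * m)
      nlinarith
    refine h1.trans ?_
    calc Real.exp (a * m) * (m * (a - b)) ≤ Real.exp (a * m) * (m * |a - b|) := by
          gcongr; exact le_abs_self _
      _ ≤ _ := by gcongr
  rw [abs_le]
  constructor
  · have := key b a hb
    rw [abs_sub_comm] at this
    linarith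
  · exact key a b ha

theorem apx_log_sub {a b c : ℝ} (hc : 0 < c) (ha : c ≤ a) (hb : c ≤ b) :
    |Real.log a - Real.log b| ≤ |a - b| / c := by
  have key : ∀ x y : ℝ, c ≤ x → c ≤ y → Real.log x - Real.log y ≤ |x - y| / c := by
    intro x y hx hy
    have x0 : 0 < x := hc.trans_le hx
    have y0 : 0 < y := hc.trans_le hy
    rw [← Real.log_div x0.ne' y0.ne']
    refine (Real.log_le_sub_one_of_pos (div_pos x0 y0)).trans ?_
    have : x / y - 1 = (x - y) / y := by field_simp
    rw [this]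
    calc (x - y) / y ≤ |x - y| / y := by gcongr; exact le_abs_self _
      _ ≤ |x - y| / c := by gcongr
  rw [abs_le]
  constructor
  · have := key _ _ hb ha
    rw [abs_sub_comm] at this
    linarith
  · exact key _ _ ha hb

theorem lvl_log_sub {k : ℕ} {m B C : ℝ} (hm : 0 < m) (hm1 : m ≤ 1) (hB : 0 ≤ B)
    {Y Y' g : (Fin (k + 1) → Λ) → ℝ} (hY : GoodY Y B) (hY' : GoodY Y' B) (hg : Measurable g)
    (hC : ∀ w, |g w| ≤ C) (h : ∀ w, |Real.log (Y w) - Real.log (Y' w)| ≤ g w) (w : Fin k → Λ) :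
    |Real.log (lvl m Y w) - Real.log (lvl m Y' w)| ≤
      Real.exp (2 * B) * ∫ η : Λ, g (Fin.snoc (α := fun _ => Λ) w η) := by
  have c0 : 0 < Real.exp (-B) ^ m := Real.rpow_pos_of_pos (Real.exp_pos _) _
  obtain ⟨a1, -⟩ := lvl_int_bounds hm hY w
  obtain ⟨b1, -⟩ := lvl_int_bounds hm hY' w
  rw [lvl, lvl, Real.log_rpow (c0.trans_le a1), Real.log_rpow (c0.trans_le b1), ← mul_sub, abs_mul,
    abs_of_pos (by positivity : 0 < 1 / m)]
  have gi : Integrable (fun η : Λ => g (Fin.snoc (α := fun _ => Λ) w η)) :=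
    apx_integrable (apx_measurable_sec hg w) fun _ => hC _
  have g0 : 0 ≤ ∫ η : Λ, g (Fin.snoc (α := fun _ => Λ) w η) :=
    integral_nonneg fun _ => (abs_nonneg _).trans (h _)
  have h2 : |(∫ η : Λ, Y (Fin.snoc (α := fun _ => Λ) w η) ^ m) -
      ∫ η : Λ, Y' (Fin.snoc (α := fun _ => Λ) w η) ^ m| ≤
      Real.exp (B * m) * m * ∫ η : Λ, g (Fin.snoc (α := fun _ => Λ) w η) := by
    rw [← integral_sub (lvl_integrable hm hY w) (lvl_integrable hm hY' w), ← integral_const_mul]
    refine abs_integral_le_integral_abs.trans (integral_mono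
      ((lvl_integrable hm hY w).sub (lvl_integrable hm hY' w)).abs (gi.const_mul _) fun η => ?_)
    have p1 : 0 < Y (Fin.snoc (α := fun _ => Λ) w η) := (Real.exp_pos _).trans_le (hY.2 _).1
    have p2 : 0 < Y' (Fin.snoc (α := fun _ => Λ) w η) := (Real.exp_pos _).trans_le (hY'.2 _).1
    simp only
    rw [Real.rpow_def_of_pos p1, Real.rpow_def_of_pos p2, mul_assoc]
    refine (apx_exp_sub hm ((Real.log_le_iff_le_exp p1).2 (hY.2 _).2)
      ((Real.log_le_iff_le_exp p2).2 (hY'.2 _).2)).trans ?_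
    gcongr
    exact h _
  have h3 := apx_log_sub c0 a1 b1
  have h4 : Real.exp (B * m) / Real.exp (-B) ^ m ≤ Real.exp (2 * B) := by
    rw [← Real.exp_mul, ← Real.exp_sub, Real.exp_le_exp]
    nlinarith
  calc _ ≤ 1 / m * ((Real.exp (B * m) * m * ∫ η : Λ, g (Fin.snoc (α := fun _ => Λ) w η)) /
          Real.exp (-B) ^ m) := by
        gcongr
        exact h3.trans (by gcongr)
    _ = Real.exp (B * m) / Real.exp (-B) ^ m * ∫ η : Λ, g (Fin.snoc (α := fun _ => Λ) w η) := by
        field_simp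
    _ ≤ _ := by gcongr

omit [IsProbabilityMeasure (volume : Measure Λ)] in
theorem Y0_succ (r : ℕ) (m : Fin (r + 1) → ℝ) (Y : (Fin (r + 2) → Λ) → ℝ) :
    Y0 (r + 1) m Y = Y0 r (Fin.init m) (lvl (m (Fin.last r)) Y) := rfl

theorem Y0_good {B : ℝ} : ∀ (r : ℕ) (m : Fin r → ℝ) (Y : (Fin (r + 1) → Λ) → ℝ),
    (∀ p, 0 < m p) → GoodY Y B → GoodY (Y0 r m Y) B
  | 0, _, Y, _, hY => ⟨hY.1.comp (measurable_pi_lambda _ fun _ => measurable_id), fun _ => hY.2 _⟩
  | r + 1, m, Y, hm, hY => by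
      rw [Y0_succ]
      exact Y0_good r _ _ (fun p => hm _) (lvl_good (hm _) hY)

theorem Y0_le {B c : ℝ} (hc : 0 ≤ c) : ∀ (r : ℕ) (m : Fin r → ℝ) (Y Y' : (Fin (r + 1) → Λ) → ℝ),
    (∀ p, 0 < m p) → GoodY Y B → GoodY Y' B → (∀ w, Y w ≤ c * Y' w) →
      ∀ u, Y0 r m Y u ≤ c * Y0 r m Y' u
  | 0, _, _, _, _, _, _, h, _ => h _
  | r + 1, m, Y, Y', hm, hY, hY', h, u => by
      rw [Y0_succ, Y0_succ]
      exact Y0_le hc r _ _ _ (fun p => hm _) (lvl_good (hm _) hY) (lvl_good (hm _) hY')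
        (lvl_le (hm _) hc hY hY' h) u

noncomputable def It : (r : ℕ) → ((Fin (r + 1) → Λ) → ℝ) → Λ → ℝ
  | 0, g => fun u => g (fun _ => u)
  | r + 1, g => It r (fun w => ∫ η : Λ, g (Fin.snoc (α := fun _ => Λ) w η))

omit [IsProbabilityMeasure (volume : Measure Λ)] in
theorem It_mul (c : ℝ) : ∀ (r : ℕ) (g : (Fin (r + 1) → Λ) → ℝ) (u : Λ),
    It r (fun w => c * g w) u = c * It r g u
  | 0, _, _ => rfl
  | r + 1, g, u => by
      simp only [It, integral_const_mul]
      exact It_mul c r _ u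

theorem apx_int_bound {k : ℕ} {g : (Fin (k + 1) → Λ) → ℝ} {C : ℝ} (hC : ∀ w, |g w| ≤ C)
    (w : Fin k → Λ) : |∫ η : Λ, g (Fin.snoc (α := fun _ => Λ) w η)| ≤ C := by
  have := norm_integral_le_of_norm_le_const (μ := (volume : Measure Λ))
    (f := fun η : Λ => g (Fin.snoc (α := fun _ => Λ) w η)) (C := C)
    (Filter.Eventually.of_forall fun _ => hC _)
  simpa using this

theorem It_good {C : ℝ} : ∀ (r : ℕ) (g : (Fin (r + 1) → Λ) → ℝ), Measurable g →
    (∀ w, |g w| ≤ C) → Measurable (It r g) ∧ ∀ u, |It r g u| ≤ C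
  | 0, _, hg, hC => ⟨hg.comp (measurable_pi_lambda _ fun _ => measurable_id), fun _ => hC _⟩
  | r + 1, _, hg, hC => It_good r _ (apx_measurable_int hg) (apx_int_bound hC)

theorem integral_It {C : ℝ} : ∀ (r : ℕ) (g : (Fin (r + 1) → Λ) → ℝ), Measurable g →
    (∀ w, |g w| ≤ C) → ∫ u, It r g u = ∫ w, g w
  | 0, g, _, _ => by
      have h := (volume_preserving_funUnique (Fin 1) Λ).symm.integral_comp' g
      exact h
  | r + 1, g, hg, hC => by
      rw [It, integral_It r _ (apx_measurable_int hg) (apx_int_bound hC)]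
      have h := (volume_preserving_piFinSuccAbove (fun _ : Fin (r + 2) => Λ)
        (Fin.last (r + 1))).symm.integral_comp' g
      rw [← h, Measure.volume_eq_prod, integral_prod_symm]
      · simp [MeasurableEquiv.piFinSuccAbove_symm_apply, Fin.insertNthEquiv, Fin.insertNth_last']
      · exact apx_integrable (hg.comp (MeasurableEquiv.measurable _)) fun _ => hC _

theorem Y0_log_sub {B : ℝ} (hB : 0 ≤ B) : ∀ (r : ℕ) (m : Fin r → ℝ)
    (Y Y' g : (Fin (r + 1) → Λ) → ℝ) (C : ℝ), (∀ p, 0 < m p ∧ m p ≤ 1) → GoodY Y B → GoodY Y' B →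
      Measurable g → (∀ w, |g w| ≤ C) → (∀ w, |Real.log (Y w) - Real.log (Y' w)| ≤ g w) →
      ∀ u, |Real.log (Y0 r m Y u) - Real.log (Y0 r m Y' u)| ≤ Real.exp (2 * B * r) * It r g u
  | 0, _, _, _, _, _, _, _, _, _, _, h, _ => by simpa [Y0, It] using h _
  | r + 1, m, Y, Y', g, C, hm, hY, hY', hg, hC, h, u => by
      rw [Y0_succ, Y0_succ]
      have := Y0_log_sub hB r (Fin.init m) _ _
        (fun w => Real.exp (2 * B) * ∫ η : Λ, g (Fin.snoc (α := fun _ => Λ) w η))
        (Real.exp (2 * B) * C) (fun p => hm _) (lvl_good (hm (Fin.last r)).1 hY)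
        (lvl_good (hm (Fin.last r)).1 hY') ((apx_measurable_int hg).const_mul _) (fun w => by
          rw [abs_mul, abs_of_pos (Real.exp_pos _)]
          gcongr
          exact apx_int_bound hC w)
        (lvl_log_sub (hm (Fin.last r)).1 (hm (Fin.last r)).2 hB hY hY' hg hC h) u
      rw [It_mul, ← mul_assoc, ← Real.exp_add] at this
      refine this.trans (le_of_eq ?_)
      rw [It]
      congr 2
      push_cast
      ring

theorem goodY_log {α : Type} [MeasurableSpace α] {Y : α → ℝ} {B : ℝ} (h : GoodY Y B) :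
    Measurable (fun u => Real.log (Y u)) ∧ ∀ u, |Real.log (Y u)| ≤ B := by
  refine ⟨h.1.log, fun u => ?_⟩
  have p : 0 < Y u := (Real.exp_pos _).trans_le (h.2 u).1
  rw [abs_le]
  exact ⟨(Real.le_log_iff_exp_le p).2 (h.2 u).1, (Real.log_le_iff_le_exp p).2 (h.2 u).2⟩

end Gen

variable {J : Type} [Fintype J]

omit [Fintype J] in
theorem apx_goodY {r : ℕ} {m : Fin r → ℝ} {x : (Fin (r + 1) → unitInterval) → ℝ}
    (h : Adm r m x) {F : (J → ℝ) → ℝ} (hF : Measurable F) {B : ℝ}
    (hFB : ∀ y, Cube y → 0 < F y ∧ |Real.log (F y)| ≤ B) :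
    GoodY (fun w : Fin (r + 1) → J → unitInterval => F (fun j => x (fun p => w p j))) B := by
  refine ⟨hF.comp (measurable_pi_lambda _ fun j => h.2.2.1.comp
    (measurable_pi_lambda _ fun p => (measurable_pi_apply j).comp (measurable_pi_apply p))),
    fun w => ?_⟩
  obtain ⟨p, hb⟩ := hFB (fun j => x (fun p => w p j)) (fun j => h.2.2.2 _)
  rw [abs_le] at hb
  exact ⟨(Real.le_log_iff_exp_le p).1 hb.1, (Real.log_le_iff_le_exp p).1 hb.2⟩

theorem abs_Tf_sub_le {r : ℕ} {m : Fin r → ℝ} {x : (Fin (r + 1) → unitInterval) → ℝ}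
    (h : Adm r m x) {F G : (J → ℝ) → ℝ} (hF : Measurable F) (hG : Measurable G) {B b : ℝ}
    (hFB : ∀ y, Cube y → 0 < F y ∧ |Real.log (F y)| ≤ B)
    (hGB : ∀ y, Cube y → 0 < G y ∧ |Real.log (G y)| ≤ B)
    (hb : ∀ y, Cube y → |Real.log (F y) - Real.log (G y)| ≤ b) :
    |Tf r m x F - Tf r m x G| ≤ b := by
  have gF := apx_goodY h hF hFB
  have gG := apx_goodY h hG hGB
  have hm : ∀ p, 0 < m p := fun p => (h.2.1 p).1
  have yF := Y0_good r m _ hm gF
  have yG := Y0_good r m _ hm gG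
  have lF := goodY_log yF
  have lG := goodY_log yG
  have aux : ∀ a c : ℝ, 0 < a → 0 < c → (Real.log a - Real.log c ≤ b ↔ a ≤ Real.exp b * c) := by
    intro a c ha hc
    rw [sub_le_iff_le_add, Real.log_le_iff_le_exp ha, Real.exp_add, Real.exp_log hc]
  rw [Tf, Tf, ← integral_sub (apx_integrable lF.1 lF.2) (apx_integrable lG.1 lG.2)]
  have := norm_integral_le_of_norm_le_const (μ := (volume : Measure (J → unitInterval)))
    (f := fun u => Real.log (Y0 r m (fun w : Fin (r + 1) → J → unitInterval =>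
      F (fun j => x (fun p => w p j))) u) - Real.log (Y0 r m
        (fun w : Fin (r + 1) → J → unitInterval => G (fun j => x (fun p => w p j))) u)) (C := b)
    (Filter.Eventually.of_forall fun u => by
      have pF := (Real.exp_pos _).trans_le (yF.2 u).1
      have pG := (Real.exp_pos _).trans_le (yG.2 u).1
      rw [Real.norm_eq_abs, abs_le]
      constructor
      · have := (aux _ _ pG pF).2 (Y0_le (Real.exp_pos b).le r m _ _ hm gG gF (fun w => by
          have c : Cube (fun j => x (fun p => w p j)) := fun j => h.2.2.2 _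
          refine (aux _ _ (hGB _ c).1 (hFB _ c).1).1 ?_
          linarith [(abs_le.1 (hb _ c)).1]) u)
        linarith
      · exact (aux _ _ pF pG).2 (Y0_le (Real.exp_pos b).le r m _ _ hm gF gG (fun w => by
          have c : Cube (fun j => x (fun p => w p j)) := fun j => h.2.2.2 _
          exact (aux _ _ (hFB _ c).1 (hGB _ c).1).1 (abs_le.1 (hb _ c)).2) u))
  simpa using this

theorem abs_Tf_le {r : ℕ} {m : Fin r → ℝ} {x : (Fin (r + 1) → unitInterval) → ℝ}
    (h : Adm r m x) {F : (J → ℝ) → ℝ} (hF : Measurable F) {B : ℝ}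
    (hFB : ∀ y, Cube y → 0 < F y ∧ |Real.log (F y)| ≤ B) : |Tf r m x F| ≤ B := by
  have lF := goodY_log (Y0_good r m _ (fun p => (h.2.1 p).1) (apx_goodY h hF hFB))
  have := norm_integral_le_of_norm_le_const (μ := (volume : Measure (J → unitInterval)))
    (f := fun u => Real.log (Y0 r m (fun w : Fin (r + 1) → J → unitInterval =>
      F (fun j => x (fun p => w p j))) u))
    (C := B) (Filter.Eventually.of_forall fun u => by rw [Real.norm_eq_abs]; exact lF.2 u)
  simpa [Tf] using this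

theorem abs_Tf_sub_le_L1 {r : ℕ} {m : Fin r → ℝ} {x x' : (Fin (r + 1) → unitInterval) → ℝ}
    (h : Adm r m x) (h' : Adm r m x') {F : (J → ℝ) → ℝ} (hF : Measurable F) {B Lp : ℝ}
    (hLp : 0 ≤ Lp) (hFB : ∀ y, Cube y → 0 < F y ∧ |Real.log (F y)| ≤ B)
    (hlip : ∀ y y', Cube y → Cube y' →
      |Real.log (F y) - Real.log (F y')| ≤ Lp * ∑ j, |y j - y' j|) :
    |Tf r m x F - Tf r m x' F| ≤
      Real.exp (2 * B * r) * Lp * Fintype.card J * ∫ w, |x w - x' w| := by
  have gF := apx_goodY h hF hFB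
  have gG := apx_goodY h' hF hFB
  have hm : ∀ p, 0 < m p := fun p => (h.2.1 p).1
  have lF := goodY_log (Y0_good r m _ hm gF)
  have lG := goodY_log (Y0_good r m _ hm gG)
  have hB : 0 ≤ B := (abs_nonneg _).trans (hFB 0 (fun _ => by simp)).2
  have dm : Measurable fun w => |x w - x' w| := (h.2.2.1.sub h'.2.2.1).abs
  have db : ∀ w, |(|x w - x' w|)| ≤ 2 := fun w => by
    rw [abs_abs]
    linarith [abs_sub (x w) (x' w), h.2.2.2 w, h'.2.2.2 w]
  have mp : ∀ j : J, MeasurePreserving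
      (fun (w : Fin (r + 1) → J → unitInterval) (p : Fin (r + 1)) => w p j) volume volume :=
    fun j => measurePreserving_pi (fun _ => volume) (fun _ => volume)
      (f := fun (_ : Fin (r + 1)) (u : J → unitInterval) => u j)
      (fun _ => measurePreserving_eval (fun _ : J => (volume : Measure unitInterval)) j)
  set g : (Fin (r + 1) → J → unitInterval) → ℝ :=
    fun w => Lp * ∑ j, |x (fun p => w p j) - x' (fun p => w p j)| with hg
  have gm : Measurable g :=
    (Finset.measurable_sum _ fun j _ => dm.comp (mp j).measurable).const_mul _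
  have gb : ∀ w, |g w| ≤ Lp * (Fintype.card J * 2) := fun w => by
    rw [hg, abs_mul, abs_of_nonneg hLp]
    gcongr
    refine (Finset.abs_sum_le_sum_abs _ _).trans ?_
    refine (Finset.sum_le_card_nsmul _ _ 2 fun j _ => db _).trans ?_
    simp
  have gI := It_good r g gm gb
  have gint : ∫ w, g w = Lp * Fintype.card J * ∫ w, |x w - x' w| := by
    have ij : ∀ j : J, Integrable (fun w : Fin (r + 1) → J → unitInterval =>
        |x (fun p => w p j) - x' (fun p => w p j)|) := fun j =>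
      apx_integrable (dm.comp (mp j).measurable) fun _ => db _
    rw [hg, integral_const_mul, integral_finsetSum _ fun j _ => ij j]
    have : ∀ j : J, ∫ w : Fin (r + 1) → J → unitInterval,
        |x (fun p => w p j) - x' (fun p => w p j)| = ∫ w, |x w - x' w| := fun j => by
      rw [← (mp j).map_eq, integral_map (mp j).measurable.aemeasurable dm.aestronglyMeasurable]
    simp only [this, sum_const, card_univ, nsmul_eq_mul]
    ring
  rw [Tf, Tf, ← integral_sub (apx_integrable lF.1 lF.2) (apx_integrable lG.1 lG.2)]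
  calc _ ≤ ∫ u, Real.exp (2 * B * r) * It r g u := by
        refine abs_integral_le_integral_abs.trans (integral_mono
          ((apx_integrable lF.1 lF.2).sub (apx_integrable lG.1 lG.2)).abs
          ((apx_integrable gI.1 gI.2).const_mul _) fun u => ?_)
        exact Y0_log_sub hB r m _ _ g _ (fun p => ⟨(h.2.1 p).1, (h.2.1 p).2.le⟩) gF gG gm gb
          (fun w => hlip _ _ (fun j => h.2.2.2 _) (fun j => h'.2.2.2 _)) u
    _ = _ := by rw [integral_const_mul, integral_It r g gm gb, gint]; ring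

theorem exists_grid_approx {r : ℕ} {x : (Fin (r + 1) → unitInterval) → ℝ} (hx : Measurable x)
    (hx1 : ∀ w, |x w| ≤ 1) {ε : ℝ} (hε : 0 < ε) :
    ∃ (n : ℕ) (xg : (Fin (r + 1) → Fin (n + 1)) → ℝ), (∀ s, |xg s| ≤ 1) ∧
      ∫ w, |x w - xg (fun p => cell n (w p))| ≤ ε := by
  have xi : Integrable x := apx_integrable hx hx1
  obtain ⟨g, hg, gi⟩ := xi.exists_boundedContinuous_integral_sub_le (half_pos hε)
  obtain ⟨δ, δ0, hδ⟩ := Metric.uniformContinuous_iff.1
    (CompactSpace.uniformContinuous_of_continuous g.continuous) (ε / 2) (half_pos hε)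
  obtain ⟨n, hn⟩ := exists_nat_one_div_lt δ0
  have n0 : (0 : ℝ) < (n : ℝ) + 1 := by positivity
  let pt : Fin (n + 1) → unitInterval := fun c => ⟨(c : ℝ) / ((n : ℝ) + 1), by positivity, by
    rw [div_le_one n0]
    have : ((c : ℕ) : ℝ) ≤ n := by exact_mod_cast Nat.lt_succ_iff.1 c.isLt
    linarith⟩
  have hpt : ∀ u : unitInterval, dist u (pt (cell n u)) ≤ 1 / ((n : ℝ) + 1) := by
    intro u
    have u0 : 0 ≤ (u : ℝ) := u.2.1
    have u1 : (u : ℝ) ≤ 1 := u.2.2
    have f1 := Nat.floor_le (mul_nonneg n0.le u0)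
    have f2 := Nat.lt_floor_add_one (((n : ℝ) + 1) * (u : ℝ))
    have key : |((n : ℝ) + 1) * u - ((min ⌊((n : ℝ) + 1) * (u : ℝ)⌋₊ n : ℕ) : ℝ)| ≤ 1 := by
      rcases le_total ⌊((n : ℝ) + 1) * (u : ℝ)⌋₊ n with hc | hc
      · rw [min_eq_left hc, abs_le]; constructor <;> linarith
      · rw [min_eq_right hc, abs_le]
        have : (n : ℝ) ≤ (⌊((n : ℝ) + 1) * (u : ℝ)⌋₊ : ℝ) := by exact_mod_cast hc
        constructor <;> nlinarith
    rw [Subtype.dist_eq, Real.dist_eq]
    have : (u : ℝ) - (pt (cell n u) : ℝ) =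
        (((n : ℝ) + 1) * u - ((min ⌊((n : ℝ) + 1) * (u : ℝ)⌋₊ n : ℕ) : ℝ)) / ((n : ℝ) + 1) := by
      simp only [pt, cell]
      field_simp
    rw [this, abs_div, abs_of_pos n0]
    gcongr
  refine ⟨n, fun s => max (-1) (min 1 (g (fun p => pt (s p)))), fun s => ?_, ?_⟩
  · rw [abs_le]
    exact ⟨le_max_left _ _, max_le (by norm_num) (min_le_left _ _)⟩
  · have hb : ∀ w, |x w - max (-1) (min 1 (g (fun p => pt (cell n (w p)))))| ≤
        ‖x w - g w‖ + ε / 2 := by
      intro w
      have h1 : dist w (fun p => pt (cell n (w p))) < δ :=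
        lt_of_le_of_lt ((dist_pi_le_iff (by positivity)).2 fun p => hpt _) hn
      have h2 := hδ h1
      rw [Real.dist_eq] at h2
      have h3 := abs_le.1 (hx1 w)
      have h4 : |x w - max (-1) (min 1 (g (fun p => pt (cell n (w p)))))| ≤
          |x w - g (fun p => pt (cell n (w p)))| := by
        generalize g (fun p => pt (cell n (w p))) = a
        rcases le_total 1 a with ha | ha
        · rw [min_eq_left ha, max_eq_right (by norm_num), abs_of_nonpos (by linarith),
            abs_of_nonpos (by linarith)]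
          linarith
        · rw [min_eq_right ha]
          rcases le_total (-1) a with hb | hb
          · rw [max_eq_right hb]
          · rw [max_eq_left hb, abs_of_nonneg (by linarith), abs_of_nonneg (by linarith)]
            linarith
      rw [Real.norm_eq_abs]
      linarith [abs_sub_le (x w) (g w) (g (fun p => pt (cell n (w p))))]
    calc _ ≤ ∫ w, (‖x w - g w‖ + ε / 2) :=
          integral_mono_of_nonneg (Filter.Eventually.of_forall fun _ => abs_nonneg _)
            ((xi.sub gi).norm.add (integrable_const _)) (Filter.Eventually.of_forall hb)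
      _ = (∫ w, ‖x w - g w‖) + ε / 2 := by
          have i1 : Integrable (fun w => ‖x w - g w‖) := (xi.sub gi).norm
          rw [integral_add i1 (integrable_const _)]
          simp
      _ ≤ ε := by linarith

end Vale.Agent.P168
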