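import Vale.Agent.P168.Casc

/-! Message structures read off a cascade; the functions `U` and `V`. -/

namespace Vale.Agent.P168

open Finset

theorem msgOf_good {S : Type} [Fintype S] [DecidableEq S] {N : ℕ} (hN : 1 ≤ N) (r : ℕ)
    {κ : ℕ → S → S → ℝ} (hκ : ∀ d, IsK (κ d)) (σ : S → Fin N → Bool) (s : S) :
    (msgOf r κ σ s).Good := by
  have hN' : (0 : ℝ) < N := Nat.cast_pos.mpr hN
  refine ⟨fun d => ?_, fun x => ?_, ?_, fun x => ?_, fun e he => ?_, fun e he => ?_⟩
  · refine isK_prodK (κ := fun e => if e + 1 = r then κ (2 * e + 1)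
      else compK (κ (2 * e + 2)) (κ (2 * e + 1))) (κ' := fun _ => (idK : Fin N → Fin N → ℝ))
      (d := d) ?_ isK_idK
    split_ifs
    · exact hκ _
    · exact isK_compK (hκ _) (hκ _)
  · show 0 ≤ (if x.1 = s then 1 / (N : ℝ) else 0)
    split_ifs
    · positivity
    · exact le_rfl
  · show ∑ x : S × Fin N, (if x.1 = s then 1 / (N : ℝ) else 0) = 1
    rw [Fintype.sum_prod_type]
    have : ∀ a : S, ∑ _b : Fin N, (if a = s then 1 / (N : ℝ) else 0) = if a = s then 1 else 0 := by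
      intro a
      split_ifs
      · rw [sum_const, card_univ, Fintype.card_fin, nsmul_eq_mul]
        field_simp
      · simp
    simp only [this, sum_ite_eq', mem_univ, if_true]
  · exact (hκ 0).abs_Ex_le (fun t => (abs_spin _).le) _
  · refine ⟨mu_pos _ _, ?_⟩
    show mu r (2 * e + 1) < 1
    rw [mu_odd r e he]
    have : 0 < ((e : ℝ) + 1) / ((r : ℝ) + 1) := by positivity
    linarith
  · show mu r (2 * (e + 1) + 1) < mu r (2 * e + 1)
    have he' : e + 1 < r := he
    rw [mu_odd r (e + 1) he', mu_odd r e (by omega)]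
    have : ((e : ℝ) + 1) / ((r : ℝ) + 1) < (((e + 1 : ℕ) : ℝ) + 1) / ((r : ℝ) + 1) := by
      apply div_lt_div_of_pos_right _ (by positivity)
      push_cast
      linarith
    linarith

theorem merge_ind (a b : Bool) :
    (if a = b then (1 : ℝ) else 0) = 1 / 2 + spin b / 2 * spin a := by
  cases a <;> cases b <;> norm_num [spin]

theorem merge_leaf {S : Type} [Fintype S] {N : ℕ} (r : ℕ) {κ : ℕ → S → S → ℝ}
    (hκ : ∀ d, IsK (κ d)) (σ : S → Fin N → Bool) (J : Type) [Fintype J] [DecidableEq J]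
    (Y : (J → Bool) → ℝ) (hY : ∀ s, 0 < Y s) (i : J → Fin N) (t : J → S) :
    Rec (piK J κ) (mu r) (fun t => Real.log (Y (fun j => σ (t j) (i j)))) 1 t =
      Real.log (hat Y (fun j => Ex (κ 0) (fun u => spin (σ u (i j))) (t j))) := by
  rw [Rec_succ, mu_zero, inv_one, one_mul]
  congr 1
  have e1 : (fun u : J → S => Real.exp (1 * Rec (piK J κ) (mu r)
      (fun t => Real.log (Y (fun j => σ (t j) (i j)))) 0 u)) =
      fun u : J → S => ∑ b : J → Bool, Y b * ∏ j, if σ (u j) (i j) = b j then 1 else 0 := by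
    funext u
    rw [one_mul]
    exact (Real.exp_log (hY _)).trans (avg_expand Y fun j => σ (u j) (i j))
  rw [e1, Ex_sum]
  refine sum_congr rfl fun b _ => ?_
  rw [Ex_mul_left, Ex_piK_prod J κ 0 fun j x => if σ x (i j) = b j then 1 else 0]
  congr 1
  refine prod_congr rfl fun j _ => ?_
  simp only [merge_ind]
  rw [Ex_add, Ex_mul_left, (hκ 0).Ex_const]
  ring

theorem merge_odd {S : Type} [Fintype S] {r : ℕ} {κ : ℕ → S → S → ℝ}
    (hκ : ∀ d, IsK (κ d)) (J : Type) [Fintype J] [DecidableEq J] (L : (J → S) → ℝ) (e : ℕ)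
    (he : e < r) :
    Rec (piK J (fun e => if e + 1 = r then κ (2 * e + 1)
        else compK (κ (2 * e + 2)) (κ (2 * e + 1)))) (fun e => mu r (2 * e + 1))
      (Rec (piK J κ) (mu r) L 1) e = Rec (piK J κ) (mu r) L (2 * e + 1) := by
  induction e with
  | zero => rfl
  | succ e ih =>
    funext s
    have h2 := Rec_two (κ := piK J κ) (μ := mu r) L (2 * e + 1) (isK_piK J (hκ _))
      (mu_even r e) (mu_pos _ _).ne' s
    rw [Rec_succ, ih (by omega)]
    refine Eq.trans ?_ h2.symm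
    rw [piK_compK J κ κ _ (2 * e + 2) (2 * e + 1) e (if_neg (by omega))]

theorem merge_top {S : Type} [Fintype S] {r : ℕ} (hr : 1 ≤ r) {κ : ℕ → S → S → ℝ}
    (hκ : ∀ d, IsK (κ d)) (J : Type) [Fintype J] [DecidableEq J] (L : (J → S) → ℝ) :
    Rec (piK J (fun e => if e + 1 = r then κ (2 * e + 1)
        else compK (κ (2 * e + 2)) (κ (2 * e + 1)))) (fun e => mu r (2 * e + 1))
      (Rec (piK J κ) (mu r) L 1) r = Rec (piK J κ) (mu r) L (2 * r) := by
  obtain ⟨e, rfl⟩ : ∃ e, r = e + 1 := ⟨r - 1, by omega⟩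
  funext s
  rw [Rec_succ, merge_odd hκ J L e (by omega)]
  have h1 : piK J (fun d => if d + 1 = e + 1 then κ (2 * d + 1)
      else compK (κ (2 * d + 2)) (κ (2 * d + 1))) e = piK J κ (2 * e + 1) := by
    funext a b
    simp only [piK, if_true]
  rw [h1]
  rfl

theorem Tfin_msgOf {S : Type} [Fintype S] [DecidableEq S] {N : ℕ} (hN : 1 ≤ N) {r : ℕ}
    (hr : 1 ≤ r) {κ : ℕ → S → S → ℝ} (hκ : ∀ d, IsK (κ d)) (σ : S → Fin N → Bool) (s : S)
    (J : Type) [Fintype J] [DecidableEq J] (Y : (J → Bool) → ℝ) (hY : ∀ s, 0 < Y s) :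
    Tfin (msgOf r κ σ s) (hat Y) = avg (fun i : J → Fin N =>
      Rec (piK J κ) (mu r) (fun t => Real.log (Y (fun j => σ (t j) (i j)))) (2 * r)
        (fun _ => s)) := by
  have hN' : (0 : ℝ) < N := Nat.cast_pos.mpr hN
  have key : ∀ i : J → Fin N,
      Rec (piK J (msgOf r κ σ s).κ) (msgOf r κ σ s).μ
        (fun t => Real.log (hat Y (fun j => (msgOf r κ σ s).xv (t j)))) r (fun j => (s, i j)) =
      Rec (piK J κ) (mu r) (fun t => Real.log (Y (fun j => σ (t j) (i j)))) (2 * r)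
        (fun _ => s) := by
    intro i
    rw [← merge_top hr hκ J, funext (merge_leaf r hκ σ J Y hY i)]
    symm
    refine Rec_mor (φ := fun (t : J → S) (j : J) => (t j, i j)) _
      (fun t => Real.log (hat Y (fun j => (msgOf r κ σ s).xv (t j)))) r (fun e _ => ?_) (fun _ => s)
    refine isMor_piK_map J (fun j t => (t, i j)) fun j f a => ?_
    simp only [msgOf, Ex_prodK, Ex_idK]
  rw [Tfin, avg, sum_div]
  symm
  refine Fintype.sum_of_injective (fun (i : J → Fin N) (j : J) => (s, i j))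
    (fun i i' h => funext fun j => congrArg Prod.snd (congrFun h j)) _ _ (fun t ht => ?_)
    (fun i => ?_)
  · have : ∃ j, (t j).1 ≠ s := by
      by_contra hc
      push Not at hc
      exact ht ⟨fun j => (t j).2, funext fun j => Prod.ext (hc j).symm rfl⟩
    obtain ⟨j, hj⟩ := this
    rw [prod_eq_zero (mem_univ j) (show (msgOf r κ σ s).π (t j) = 0 from if_neg hj), zero_mul]
  · have e1 : ∀ j, (msgOf r κ σ s).π (s, i j) = 1 / (N : ℝ) := fun j => if_pos rfl
    simp only [e1]
    rw [← key i, prod_const, card_univ, Fintype.card_fun, Fintype.card_fin, Nat.cast_pow, one_div,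
      inv_pow, div_eq_inv_mul]
    rfl

section Hat

variable {J : Type} [Fintype J] [DecidableEq J]

theorem sum_spin_weight (y : J → ℝ) :
    ∑ s : J → Bool, ∏ j, (1 + y j * spin (s j)) / 2 = 1 := by
  rw [← Fintype.piFinset_univ,
    ← prod_univ_sum (fun _ => univ) fun j (b : Bool) => (1 + y j * spin b) / 2]
  refine prod_eq_one fun j _ => ?_
  simp only [Fintype.sum_bool, spin, if_true, Bool.false_eq_true, if_false]
  ring

theorem merge_w_nonneg {x : ℝ} (hx : |x| ≤ 1) (b : Bool) : 0 ≤ (1 + x * spin b) / 2 := by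
  have := abs_le.mp hx
  cases b <;> simp only [spin, if_true, Bool.false_eq_true, if_false] <;> linarith

omit [DecidableEq J] in
theorem merge_W_nonneg {y : J → ℝ} (hy : Cube y) (s : J → Bool) :
    0 ≤ ∏ j, (1 + y j * spin (s j)) / 2 :=
  prod_nonneg fun j _ => merge_w_nonneg (hy j) _

theorem merge_hat_mono {Y Y' : (J → Bool) → ℝ} (c : ℝ) (h : ∀ s, Y s ≤ c * Y' s) {y : J → ℝ}
    (hy : Cube y) : hat Y y ≤ c * hat Y' y := by
  rw [hat, hat, mul_sum]
  refine sum_le_sum fun s _ => ?_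
  rw [← mul_assoc]
  exact mul_le_mul_of_nonneg_right (h s) (merge_W_nonneg hy s)

theorem merge_hat_one (y : J → ℝ) : hat (fun _ => 1) y = 1 := by
  simp only [hat, one_mul, sum_spin_weight]

theorem hat_pos {Y : (J → Bool) → ℝ} (hY : ∀ s, 0 < Y s) {y : J → ℝ} (hy : Cube y) :
    0 < hat Y y := by
  obtain ⟨t, -, ht⟩ := exists_ne_zero_of_sum_ne_zero (s := univ)
    (f := fun s : J → Bool => ∏ j, (1 + y j * spin (s j)) / 2)
    (by rw [sum_spin_weight]; exact one_ne_zero)
  exact sum_pos' (fun t _ => mul_nonneg (hY t).le (merge_W_nonneg hy t))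
    ⟨t, mem_univ t, mul_pos (hY t) ((merge_W_nonneg hy t).lt_of_ne' ht)⟩

theorem merge_le_exp {a b B : ℝ} (ha : 0 < a) (hb : 0 < b) (h : Real.log a - Real.log b ≤ B) :
    a ≤ Real.exp B * b := by
  rw [← Real.exp_log ha, ← Real.exp_log hb, ← Real.exp_add]
  exact Real.exp_le_exp.mpr (by linarith)

theorem merge_log_le {a b B : ℝ} (ha : 0 < a) (hb : 0 < b) (h : a ≤ Real.exp B * b) :
    Real.log a - Real.log b ≤ B := by
  have := Real.log_le_log ha h
  rw [Real.log_mul (Real.exp_pos _).ne' hb.ne', Real.log_exp] at this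
  linarith

theorem abs_log_hat_sub_le {Y Y' : (J → Bool) → ℝ} {B : ℝ} (hY : ∀ s, 0 < Y s)
    (hY' : ∀ s, 0 < Y' s) (h : ∀ s, |Real.log (Y s) - Real.log (Y' s)| ≤ B) {y : J → ℝ}
    (hy : Cube y) : |Real.log (hat Y y) - Real.log (hat Y' y)| ≤ B := by
  have h1 := merge_log_le (hat_pos hY hy) (hat_pos hY' hy) (merge_hat_mono _
    (fun s => merge_le_exp (hY s) (hY' s) (abs_le.mp (h s)).2) hy)
  have h2 := merge_log_le (B := B) (hat_pos hY' hy) (hat_pos hY hy) (merge_hat_mono _
    (fun s => merge_le_exp (hY' s) (hY s) (by linarith [(abs_le.mp (h s)).1])) hy)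
  exact abs_le.mpr ⟨by linarith, h1⟩

theorem abs_log_hat_le {Y : (J → Bool) → ℝ} {B : ℝ}
    (hY : ∀ s, 0 < Y s ∧ |Real.log (Y s)| ≤ B) {y : J → ℝ} (hy : Cube y) :
    |Real.log (hat Y y)| ≤ B := by
  have := abs_log_hat_sub_le (Y' := fun _ => 1) (B := B) (fun s => (hY s).1) (fun _ => one_pos)
    (fun s => by rw [Real.log_one, sub_zero]; exact (hY s).2) hy
  rwa [merge_hat_one, Real.log_one, sub_zero] at this

theorem continuous_hat (Y : (J → Bool) → ℝ) : Continuous (hat Y) := by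
  unfold hat
  fun_prop

/-- `hat` along one coordinate. -/
theorem merge_hat_update (Y : (J → Bool) → ℝ) (y : J → ℝ) (j : J) (x : ℝ) :
    hat Y (Function.update y j x) = ∑ s : J → Bool, Y s * ((1 + x * spin (s j)) / 2 *
      ∏ k ∈ univ.erase j, (1 + y k * spin (s k)) / 2) := by
  refine sum_congr rfl fun s _ => ?_
  rw [← mul_prod_erase univ _ (mem_univ j), Function.update_self]
  congr 2
  exact prod_congr rfl fun k hk => by rw [Function.update_of_ne (ne_of_mem_erase hk)]

theorem merge_abs_hat_update {Y : (J → Bool) → ℝ} {C : ℝ} (hY : ∀ s, |Y s| ≤ C) {y : J → ℝ}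
    (hy : Cube y) (j : J) (x x' : ℝ) :
    |hat Y (Function.update y j x) - hat Y (Function.update y j x')| ≤ C * |x - x'| := by
  have h0 := merge_hat_update (fun _ => 1) y j 0
  rw [merge_hat_one] at h0
  rw [merge_hat_update, merge_hat_update, ← sum_sub_distrib]
  refine (abs_sum_le_sum_abs _ _).trans ?_
  refine le_trans ?_ ((congrArg (fun z => C * |x - x'| * z) h0).symm.trans (mul_one _)).le
  rw [mul_sum]
  refine sum_le_sum fun s _ => ?_
  have hP : 0 ≤ ∏ k ∈ univ.erase j, (1 + y k * spin (s k)) / 2 :=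
    prod_nonneg fun k _ => merge_w_nonneg (hy k) _
  generalize (∏ k ∈ univ.erase j, (1 + y k * spin (s k)) / 2) = P at hP
  have e : Y s * ((1 + x * spin (s j)) / 2 * P) - Y s * ((1 + x' * spin (s j)) / 2 * P) =
      Y s * (x - x') * spin (s j) * (P / 2) := by ring
  rw [e, abs_mul, abs_mul, abs_mul, abs_spin, abs_of_nonneg (by positivity : 0 ≤ P / 2)]
  have := mul_le_mul_of_nonneg_right (hY s) (mul_nonneg (abs_nonneg (x - x')) hP)
  nlinarith

theorem merge_abs_hat_sub {Y : (J → Bool) → ℝ} {C : ℝ} (hY : ∀ s, |Y s| ≤ C) {y y' : J → ℝ}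
    (hy : Cube y) (hy' : Cube y') (A : Finset J) :
    |hat Y y - hat Y (A.piecewise y' y)| ≤ C * ∑ j ∈ A, |y j - y' j| := by
  induction A using Finset.induction_on with
  | empty => simp
  | insert j A hj ih =>
    have hc : Cube (A.piecewise y' y) := fun k => by
      by_cases hk : k ∈ A
      · rw [piecewise_eq_of_mem _ _ _ hk]; exact hy' k
      · rw [piecewise_eq_of_notMem _ _ _ hk]; exact hy k
    have h1 := merge_abs_hat_update hY hc j (y j) (y' j)
    have e1 : Function.update (A.piecewise y' y) j (y j) = A.piecewise y' y := by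
      rw [← piecewise_eq_of_notMem A y' y hj, Function.update_eq_self]
    rw [e1] at h1
    rw [piecewise_insert, sum_insert hj, mul_add]
    have := abs_sub_le (hat Y y) (hat Y (A.piecewise y' y))
      (hat Y (Function.update (A.piecewise y' y) j (y' j)))
    linarith

theorem merge_log_lip {a b m : ℝ} (hm : 0 < m) (ha : m ≤ a) (hb : m ≤ b) :
    Real.log a - Real.log b ≤ m⁻¹ * |a - b| := by
  have ha' : 0 < a := hm.trans_le ha
  have hb' : 0 < b := hm.trans_le hb
  rw [← Real.log_div ha'.ne' hb'.ne']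
  refine (Real.log_le_sub_one_of_pos (div_pos ha' hb')).trans ?_
  have e : a / b - 1 = b⁻¹ * (a - b) := by field_simp
  rw [e]
  exact (mul_le_mul_of_nonneg_left (le_abs_self _) (by positivity)).trans
    (mul_le_mul_of_nonneg_right (inv_anti₀ hm hb) (abs_nonneg _))

theorem abs_log_hat_lip {Y : (J → Bool) → ℝ} {B : ℝ}
    (hY : ∀ s, 0 < Y s ∧ |Real.log (Y s)| ≤ B) {y y' : J → ℝ} (hy : Cube y) (hy' : Cube y') :
    |Real.log (hat Y y) - Real.log (hat Y y')| ≤ Real.exp (2 * B) * ∑ j, |y j - y' j| := by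
  have hup : ∀ s, |Y s| ≤ Real.exp B := fun s => by
    rw [abs_of_pos (hY s).1, ← Real.exp_log (hY s).1]
    exact Real.exp_le_exp.mpr (abs_le.mp (hY s).2).2
  have hlo : ∀ z, Cube z → Real.exp (-B) ≤ hat Y z := fun z hz => by
    rw [← Real.exp_log (hat_pos (fun s => (hY s).1) hz)]
    exact Real.exp_le_exp.mpr (abs_le.mp (abs_log_hat_le hY hz)).1
  have h1 := merge_abs_hat_sub hup hy hy' univ
  rw [piecewise_univ] at h1
  have h2 := merge_log_lip (Real.exp_pos (-B)) (hlo y hy) (hlo y' hy')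
  have h3 := merge_log_lip (Real.exp_pos (-B)) (hlo y' hy') (hlo y hy)
  rw [abs_sub_comm] at h3
  rw [← Real.exp_neg, neg_neg] at h2 h3
  have h4 := mul_le_mul_of_nonneg_left h1 (Real.exp_pos B).le
  rw [← mul_assoc, ← Real.exp_add, ← two_mul] at h4
  exact abs_le.mpr ⟨by linarith, by linarith⟩

end Hat

section UV

variable {K M : ℕ}

theorem merge_curry (G : Fin M → (Fin K → Bool) → ℝ) :
    ∑ s : Fin M × Fin K → Bool, ∏ k, G k (fun j => s (k, j)) = ∏ k, ∑ σ, G k σ := by
  rw [prod_univ_sum, Fintype.piFinset_univ]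
  exact (Equiv.curry (Fin M) (Fin K) Bool).sum_comp fun s => ∏ k, G k (s k)

theorem merge_out (g : (Fin K → Bool) → ℝ) (l : Fin K) (ε : Bool) (y : Fin K → ℝ) :
    ∑ σ : Fin K → Bool, g (fun j => if j = l then ε else σ j) * ∏ j, (1 + y j * spin (σ j)) / 2 =
      ∑ σ ∈ univ.filter (fun σ : Fin K → Bool => σ l = ε),
        g σ * ∏ j ∈ univ.erase l, (1 + y j * spin (σ j)) / 2 := by
  have hi : Function.Involutive fun σ : Fin K → Bool => Function.update σ l (!σ l) := by
    intro σ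
    simp
  rw [← sum_filter_add_sum_filter_not univ (fun σ : Fin K → Bool => σ l = ε)]
  have e2 : ∑ σ ∈ univ.filter (fun σ : Fin K → Bool => ¬σ l = ε),
      g (fun j => if j = l then ε else σ j) * ∏ j, (1 + y j * spin (σ j)) / 2 =
      ∑ σ ∈ univ.filter (fun σ : Fin K → Bool => σ l = ε),
        g σ * ((1 + y l * spin (!ε)) / 2 * ∏ j ∈ univ.erase l, (1 + y j * spin (σ j)) / 2) := by
    symm
    refine sum_equiv hi.toPerm (fun σ => ?_) (fun σ hσ => ?_)
    · simp only [mem_filter, mem_univ, true_and, Function.Involutive.coe_toPerm,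
        Function.update_self]
      cases σ l <;> cases ε <;> simp
    · have hl : σ l = ε := (mem_filter.mp hσ).2
      simp only [Function.Involutive.coe_toPerm]
      rw [← mul_prod_erase univ _ (mem_univ l), Function.update_self, hl]
      congr 2
      · funext j
        by_cases hj : j = l
        · rw [if_pos hj, hj, hl]
        · rw [if_neg hj, Function.update_of_ne hj]
      · exact prod_congr rfl fun k hk => by rw [Function.update_of_ne (ne_of_mem_erase hk)]
  rw [e2, ← sum_add_distrib]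
  refine sum_congr rfl fun σ hσ => ?_
  have hl : σ l = ε := (mem_filter.mp hσ).2
  have e3 : (fun j => if j = l then ε else σ j) = σ := by
    funext j
    by_cases hj : j = l
    · rw [if_pos hj, hj, hl]
    · rw [if_neg hj]
  rw [e3, ← mul_prod_erase univ _ (mem_univ l), hl]
  cases ε <;> simp only [spin, if_true, Bool.false_eq_true, if_false, Bool.not_true,
    Bool.not_false] <;> ring

theorem hat_YU (h : ℝ) (θ : Fin M → Cl K) (l : Fin M → Fin K) :
    hat (YU h θ l) = Ufun h θ l := by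
  funext y
  simp only [hat, YU, Ufun, sum_mul]
  rw [sum_comm]
  refine sum_congr rfl fun ε _ => ?_
  simp only [mul_assoc]
  rw [← mul_sum]
  congr 1
  simp only [Fintype.prod_prod_type, ← prod_mul_distrib]
  rw [merge_curry fun k σ => Real.exp (θ k fun j => if j = l k then ε else σ j) *
    ∏ j, (1 + y (k, j) * spin (σ j)) / 2]
  exact prod_congr rfl fun k _ =>
    merge_out (fun σ => Real.exp (θ k σ)) (l k) ε fun j => y (k, j)

theorem hat_YV (θ : Fin M → Cl K) : hat (YV θ) = Vfun θ := by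
  funext y
  simp only [hat, YV, Vfun, Fintype.prod_prod_type, ← prod_mul_distrib]
  exact merge_curry fun k σ => Real.exp (θ k σ) * ∏ j, (1 + y (k, j) * spin (σ j)) / 2

theorem YU_pos (h : ℝ) (θ : Fin M → Cl K) (l : Fin M → Fin K) (s : Fin M × Fin K → Bool) :
    0 < YU h θ l s :=
  sum_pos (fun _ _ => mul_pos (Real.exp_pos _) (prod_pos fun _ _ => Real.exp_pos _)) univ_nonempty

theorem YV_pos (θ : Fin M → Cl K) (s : Fin M × Fin K → Bool) : 0 < YV θ s :=
  prod_pos fun _ _ => Real.exp_pos _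

/-- Lipschitz bound for `log ∑ exp`. -/
theorem abs_log_sum_exp_sub_le {α : Type} [Fintype α] [Nonempty α] {H H' : α → ℝ} {b : ℝ}
    (h : ∀ s, |H s - H' s| ≤ b) :
    |Real.log (∑ s, Real.exp (H s)) - Real.log (∑ s, Real.exp (H' s))| ≤ b := by
  have hp : ∀ G : α → ℝ, 0 < ∑ s, Real.exp (G s) := fun G =>
    sum_pos (fun _ _ => Real.exp_pos _) univ_nonempty
  have key : ∀ G G' : α → ℝ, (∀ s, G s - G' s ≤ b) →
      Real.log (∑ s, Real.exp (G s)) - Real.log (∑ s, Real.exp (G' s)) ≤ b := fun G G' hG => by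
    refine merge_log_le (hp G) (hp G') ?_
    rw [mul_sum]
    refine sum_le_sum fun s _ => ?_
    rw [← Real.exp_add]
    exact Real.exp_le_exp.mpr (by linarith [hG s])
  have h1 := key H H' fun s => (abs_le.mp (h s)).2
  have h2 := key H' H fun s => by linarith [(abs_le.mp (h s)).1]
  exact abs_le.mpr ⟨by linarith, h1⟩

theorem merge_abs_sum_sub (θ θ' : Fin M → Cl K) (σ : Fin M → Fin K → Bool) :
    |∑ k, θ k (σ k) - ∑ k, θ' k (σ k)| ≤ ∑ k, ‖θ k - θ' k‖ := by
  rw [← sum_sub_distrib]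
  exact (abs_sum_le_sum_abs _ _).trans (sum_le_sum fun k _ => norm_le_pi_norm (θ k - θ' k) (σ k))

theorem abs_log_YU_sub_le (h h' : ℝ) (θ θ' : Fin M → Cl K) (l : Fin M → Fin K)
    (s : Fin M × Fin K → Bool) :
    |Real.log (YU h θ l s) - Real.log (YU h' θ' l s)| ≤ |h - h'| + ∑ k, ‖θ k - θ' k‖ := by
  simp only [YU, ← Real.exp_sum, ← Real.exp_add]
  refine abs_log_sum_exp_sub_le fun ε => ?_
  have h1 := merge_abs_sum_sub θ θ' fun k j => if j = l k then ε else s (k, j)
  have h2 : |h * spin ε - h' * spin ε| = |h - h'| := by rw [← sub_mul, abs_mul, abs_spin, mul_one]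
  rw [add_sub_add_comm]
  exact (abs_add_le _ _).trans (add_le_add h2.le h1)

theorem abs_log_YV_sub_le (θ θ' : Fin M → Cl K) (s : Fin M × Fin K → Bool) :
    |Real.log (YV θ s) - Real.log (YV θ' s)| ≤ ∑ k, ‖θ k - θ' k‖ := by
  simp only [YV, ← Real.exp_sum, Real.log_exp]
  exact merge_abs_sum_sub θ θ' fun k j => s (k, j)

theorem merge_log_two : |Real.log 2| ≤ 1 := by
  rw [abs_of_pos (Real.log_pos one_lt_two)]
  linarith [Real.log_le_sub_one_of_pos (two_pos : (0 : ℝ) < 2)]

theorem abs_log_YU_le (h : ℝ) (θ : Fin M → Cl K) (l : Fin M → Fin K)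
    (s : Fin M × Fin K → Bool) : |Real.log (YU h θ l s)| ≤ 1 + |h| + ∑ k, ‖θ k‖ := by
  have h1 := abs_log_YU_sub_le h 0 θ 0 l s
  have h2 : YU 0 (0 : Fin M → Cl K) l s = 2 := by simp [YU]
  simp only [h2, sub_zero, Pi.zero_apply] at h1
  have h3 := abs_sub_abs_le_abs_sub (Real.log (YU h θ l s)) (Real.log 2)
  linarith [merge_log_two]

theorem abs_log_YV_le (θ : Fin M → Cl K) (s : Fin M × Fin K → Bool) :
    |Real.log (YV θ s)| ≤ ∑ k, ‖θ k‖ := by
  have h1 := abs_log_YV_sub_le θ 0 s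
  have h2 : YV (0 : Fin M → Cl K) s = 1 := by simp [YV]
  simpa only [h2, sub_zero, Pi.zero_apply, Real.log_one] using h1

theorem abs_logZ_sub_le {N : ℕ} (θ θ' : Fin M → Cl K) (i : Fin M → Fin K → Fin N)
    (h h' : Fin N → ℝ) :
    |logZ θ i h - logZ θ' i h'| ≤ ∑ k, ‖θ k - θ' k‖ + ∑ v, |h v - h' v| := by
  refine abs_log_sum_exp_sub_le fun σ => ?_
  have h1 := merge_abs_sum_sub θ θ' fun k j => σ (i k j)
  have h2 : |∑ v, h v * spin (σ v) - ∑ v, h' v * spin (σ v)| ≤ ∑ v, |h v - h' v| := by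
    rw [← sum_sub_distrib]
    refine (abs_sum_le_sum_abs _ _).trans (sum_le_sum fun v _ => ?_)
    rw [← sub_mul, abs_mul, abs_spin, mul_one]
  rw [add_sub_add_comm]
  exact (abs_add_le _ _).trans (add_le_add h1 h2)

theorem abs_logZ_le {N : ℕ} (θ : Fin M → Cl K) (i : Fin M → Fin K → Fin N) (h : Fin N → ℝ) :
    |logZ θ i h| ≤ N + ∑ k, ‖θ k‖ + ∑ v, |h v| := by
  have h1 := abs_logZ_sub_le θ 0 i h 0
  have h2 : logZ (0 : Fin M → Cl K) i 0 = N * Real.log 2 := by simp [logZ]
  simp only [h2, sub_zero, Pi.zero_apply] at h1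
  have h3 := abs_sub_abs_le_abs_sub (logZ θ i h) (N * Real.log 2)
  have h4 : |(N : ℝ) * Real.log 2| ≤ N := by
    rw [abs_mul, Nat.abs_cast]
    exact mul_le_of_le_one_right (Nat.cast_nonneg _) merge_log_two
  linarith

end UV

end Vale.Agent.P168
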