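import Vale.Agent.P168.BrApx
import Vale.Agent.P168.Merge
import Vale.Agent.P168.Poi
import Vale.Agent.P168.BrDisA

/-! Dependence on the law of the disorder. -/

namespace Vale.Agent.P168

open Finset MeasureTheory

variable {Ω : Type*} [MeasurableSpace Ω] {P : Measure Ω} [IsProbabilityMeasure P] {K : ℕ}

theorem dis_measZ {θ : Ω → Cl K} {h : Ω → ℝ} (hθ : Measurable θ) (hh : Measurable h)
    (M N : ℕ) : Measurable (fun z : (Fin M → Ω) × (Fin N → Ω) =>
      disZ N (fun k => θ (z.1 k)) (fun v => h (z.2 v))) := by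
  have h1 : Measurable (fun z : (Fin M → Ω) × (Fin N → Ω) =>
      (((fun k => θ (z.1 k)), (fun v => h (z.2 v))) : (Fin M → Cl K) × (Fin N → ℝ))) := by
    fun_prop
  have h2 := (disZ_cont (K := K) (M := M) N).measurable.comp h1
  simpa only [Function.comp_def] using h2

theorem dis_absZ {θ : Ω → Cl K} {h : Ω → ℝ} (hθ : Measurable θ) (hh : Measurable h)
    (iθ : Integrable θ P) (ih : Integrable h P) (N M : ℕ) :
    |∫ ω : Fin M → Ω, ∫ ω' : Fin N → Ω, disZ N (fun k => θ (ω k)) (fun v => h (ω' v))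
      ∂(Measure.pi fun _ => P) ∂(Measure.pi fun _ => P)| ≤
      (∫ ω' : Fin N → Ω, (N + ∑ v, |h (ω' v)|) ∂(Measure.pi fun _ => P)) +
        (∫ ω, ‖θ ω‖ ∂P) * M := by
  have := dis_abs2 (dis_measZ hθ hh M N) (dis_int_sum M iθ.norm)
    ((integrable_const (N : ℝ)).add (dis_int_sum N ih.abs)) (fun ω ω' => disZ_abs N _ _)
  rw [dis_integral_sum M iθ.norm, add_comm] at this
  exact this

theorem abs_pressure_sub_le {θ θ' : Ω → Cl K} {h h' : Ω → ℝ} (hθ : Measurable θ)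
    (hθ' : Measurable θ') (hh : Measurable h) (hh' : Measurable h') (iθ : Integrable θ P)
    (iθ' : Integrable θ' P) (ih : Integrable h P) (ih' : Integrable h' P) {lam : ℝ}
    (hlam : 0 ≤ lam) {N : ℕ} (hN : 1 ≤ N) :
    |pressure P θ h lam N - pressure P θ' h' lam N| ≤
      lam * ∫ ω, ‖θ ω - θ' ω‖ ∂P + ∫ ω, |h ω - h' ω| ∂P := by
  have hN' : (0 : ℝ) < N := by exact_mod_cast hN
  have key := dis_tsum (γ := lam * N) (by positivity) (dis_absZ hθ hh iθ ih N)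
    (dis_absZ hθ' hh' iθ' ih' N) (c := (∫ ω, |h ω - h' ω| ∂P) * N)
    (d := ∫ ω, ‖θ ω - θ' ω‖ ∂P) (fun M => by
      have := dis_sub2 (dis_measZ hθ hh M N) (dis_measZ hθ' hh' M N) (dis_int_sum M iθ.norm)
        ((integrable_const (N : ℝ)).add (dis_int_sum N ih.abs)) (fun ω ω' => disZ_abs N _ _)
        (dis_int_sum M iθ'.norm) ((integrable_const (N : ℝ)).add (dis_int_sum N ih'.abs))
        (fun ω ω' => disZ_abs N _ _) (dis_int_sum M (φ := fun ω => ‖θ ω - θ' ω‖) (iθ.sub iθ').norm)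
        (dis_int_sum N (φ := fun ω => |h ω - h' ω|) (ih.sub ih').abs)
        (fun ω ω' => disZ_sub N _ _ _ _)
      rw [dis_integral_sum M (φ := fun ω => ‖θ ω - θ' ω‖) (iθ.sub iθ').norm,
        dis_integral_sum N (φ := fun ω => |h ω - h' ω|) (ih.sub ih').abs, add_comm] at this
      exact this)
  unfold pressure
  rw [← mul_sub, abs_mul, abs_of_pos (by positivity : (0 : ℝ) < 1 / N)]
  refine (mul_le_mul_of_nonneg_left key (by positivity)).trans (le_of_eq ?_)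
  field_simp
  ring

theorem dis_measU {θ : Ω → Cl K} {h : Ω → ℝ} (hθ : Measurable θ) (hh : Measurable h)
    {r : ℕ} {m : Fin r → ℝ} {x : (Fin (r + 1) → unitInterval) → ℝ} (ha : Adm r m x) (M : ℕ) :
    Measurable (fun z : (Fin M → Ω) × Ω => disU r m x (fun k => θ (z.1 k)) (h z.2)) := by
  have h1 : Measurable (fun z : (Fin M → Ω) × Ω =>
      (((fun k => θ (z.1 k)), h z.2) : (Fin M → Cl K) × ℝ)) := by
    fun_prop
  have h2 := (disU_cont (K := K) (M := M) ha).measurable.comp h1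
  simpa only [Function.comp_def] using h2

theorem dis_absU {θ : Ω → Cl K} {h : Ω → ℝ} (hθ : Measurable θ) (hh : Measurable h)
    (iθ : Integrable θ P) (ih : Integrable h P)
    {r : ℕ} {m : Fin r → ℝ} {x : (Fin (r + 1) → unitInterval) → ℝ} (ha : Adm r m x) (M : ℕ) :
    |∫ ω : Fin M → Ω, ∫ ω' : Ω, disU r m x (fun k => θ (ω k)) (h ω')
      ∂P ∂(Measure.pi fun _ => P)| ≤
      (∫ ω', (1 + |h ω'|) ∂P) + (∫ ω, ‖θ ω‖ ∂P) * M := by
  have := dis_abs2 (dis_measU hθ hh ha M) (dis_int_sum M iθ.norm)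
    ((integrable_const (1 : ℝ)).add ih.abs) (fun ω ω' => disU_abs ha _ _)
  rw [dis_integral_sum M iθ.norm, add_comm] at this
  exact this

theorem abs_TU_sub_le {θ θ' : Ω → Cl K} {h h' : Ω → ℝ} (hK : 1 ≤ K) (hθ : Measurable θ)
    (hθ' : Measurable θ') (hh : Measurable h) (hh' : Measurable h') (iθ : Integrable θ P)
    (iθ' : Integrable θ' P) (ih : Integrable h P) (ih' : Integrable h' P) {lam : ℝ}
    (hlam : 0 ≤ lam) {r : ℕ} {m : Fin r → ℝ} {x : (Fin (r + 1) → unitInterval) → ℝ}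
    (ha : Adm r m x) :
    |TU P θ h lam r m x - TU P θ' h' lam r m x| ≤
      K * lam * ∫ ω, ‖θ ω - θ' ω‖ ∂P + ∫ ω, |h ω - h' ω| ∂P := by
  have _ := hK
  have key := dis_tsum (γ := K * lam) (by positivity) (dis_absU hθ hh iθ ih ha)
    (dis_absU hθ' hh' iθ' ih' ha) (c := ∫ ω, |h ω - h' ω| ∂P)
    (d := ∫ ω, ‖θ ω - θ' ω‖ ∂P) (fun M => by
      have := dis_sub2 (dis_measU hθ hh ha M) (dis_measU hθ' hh' ha M) (dis_int_sum M iθ.norm)
        ((integrable_const (1 : ℝ)).add ih.abs) (fun ω ω' => disU_abs ha _ _)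
        (dis_int_sum M iθ'.norm) ((integrable_const (1 : ℝ)).add ih'.abs)
        (fun ω ω' => disU_abs ha _ _)
        (dis_int_sum M (φ := fun ω => ‖θ ω - θ' ω‖) (iθ.sub iθ').norm)
        (t := fun ω => |h ω - h' ω|) (ih.sub ih').abs (fun ω ω' => disU_sub ha _ _ _ _)
      rw [dis_integral_sum M (φ := fun ω => ‖θ ω - θ' ω‖) (iθ.sub iθ').norm, add_comm] at this
      exact this)
  refine le_trans key (le_of_eq ?_)
  ring

theorem dis_measV {θ : Ω → Cl K} (hθ : Measurable θ)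
    {r : ℕ} {m : Fin r → ℝ} {x : (Fin (r + 1) → unitInterval) → ℝ} (ha : Adm r m x) (M : ℕ) :
    Measurable (fun z : Fin M → Ω => Tf r m x (Vfun (fun k => θ (z k)))) := by
  have h1 : Measurable (fun z : Fin M → Ω => ((fun k => θ (z k)) : Fin M → Cl K)) := by
    fun_prop
  exact (disV_cont ha).measurable.comp h1

theorem dis_absV {θ : Ω → Cl K} (iθ : Integrable θ P)
    {r : ℕ} {m : Fin r → ℝ} {x : (Fin (r + 1) → unitInterval) → ℝ} (ha : Adm r m x) (M : ℕ) :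
    |∫ ω : Fin M → Ω, Tf r m x (Vfun (fun k => θ (ω k))) ∂(Measure.pi fun _ => P)| ≤
      0 + (∫ ω, ‖θ ω‖ ∂P) * M := by
  have := dis_abs (G := fun ω : Fin M → Ω => Tf r m x (Vfun (fun k => θ (ω k))))
    (dis_int_sum M iθ.norm) (fun ω => disV_abs ha _)
  rw [dis_integral_sum M iθ.norm] at this
  rw [zero_add]
  exact this

theorem abs_TV_sub_le {θ θ' : Ω → Cl K} (hK : 1 ≤ K) (hθ : Measurable θ)
    (hθ' : Measurable θ') (iθ : Integrable θ P) (iθ' : Integrable θ' P) {lam : ℝ}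
    (hlam : 0 ≤ lam) {r : ℕ} {m : Fin r → ℝ} {x : (Fin (r + 1) → unitInterval) → ℝ}
    (ha : Adm r m x) :
    |TV P θ lam r m x - TV P θ' lam r m x| ≤ (K - 1) * lam * ∫ ω, ‖θ ω - θ' ω‖ ∂P := by
  have hK' : (0 : ℝ) ≤ (K : ℝ) - 1 := by
    have : (1 : ℝ) ≤ K := by exact_mod_cast hK
    linarith
  have key := dis_tsum (γ := (K - 1) * lam) (by positivity) (dis_absV iθ ha)
    (dis_absV iθ' ha) (c := 0) (d := ∫ ω, ‖θ ω - θ' ω‖ ∂P) (fun M => by
      have := dis_sub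
        (dis_int (dis_measV hθ ha M) (dis_int_sum M iθ.norm) (fun ω => disV_abs ha _))
        (dis_int (dis_measV hθ' ha M) (dis_int_sum M iθ'.norm) (fun ω => disV_abs ha _))
        (dis_int_sum M (φ := fun ω => ‖θ ω - θ' ω‖) (iθ.sub iθ').norm)
        (fun ω => disV_sub ha _ _)
      rw [dis_integral_sum M (φ := fun ω => ‖θ ω - θ' ω‖) (iθ.sub iθ').norm] at this
      rw [zero_add]
      exact this)
  refine le_trans key (le_of_eq ?_)
  ring

theorem dis_integral_simple {X : Type*} [MeasurableSpace X] {μ : Measure X}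
    [IsProbabilityMeasure μ] {Θ : Type} [Fintype Θ] {ι : X → Θ}
    (hι : ∀ a, MeasurableSet (ι ⁻¹' {a})) (G : Θ → ℝ) :
    ∫ ω, G (ι ω) ∂μ = ∑ a, μ.real (ι ⁻¹' {a}) * G a := by
  have h1 : ∀ ω, G (ι ω) = ∑ a, (ι ⁻¹' {a}).indicator (fun _ => G a) ω := by
    intro ω
    rw [Finset.sum_eq_single (ι ω)]
    · exact (Set.indicator_of_mem (by simp) (fun _ => G (ι ω))).symm
    · intro a _ ha
      have hn : ω ∉ ι ⁻¹' {a} := fun h => ha (Set.mem_singleton_iff.1 h).symm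
      exact Set.indicator_of_notMem hn _
    · intro h; exact absurd (Finset.mem_univ _) h
  simp only [h1]
  rw [integral_finsetSum _ (fun a _ => (integrable_const (G a)).indicator (hι a))]
  refine Finset.sum_congr rfl (fun a _ => ?_)
  rw [integral_indicator_const _ (hι a), smul_eq_mul]

section Simple

variable {Θ : Type} [Fintype Θ] {ι : Ω → Θ} {q : Θ → ℝ}

theorem integral_pi_simple (hι : ∀ a, MeasurableSet (ι ⁻¹' {a}))
    (hq : ∀ a, q a = P.real (ι ⁻¹' {a})) {κ : Type} [Fintype κ] [DecidableEq κ]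
    (G : (κ → Θ) → ℝ) :
    ∫ ω : κ → Ω, G (fun k => ι (ω k)) ∂(Measure.pi fun _ => P) = Epi q G := by
  have h1 : ∀ c : κ → Θ, (fun (ω : κ → Ω) k => ι (ω k)) ⁻¹' {c} =
      Set.pi Set.univ (fun k => ι ⁻¹' {c k}) := by
    intro c
    ext ω
    simp [funext_iff]
  rw [dis_integral_simple (ι := fun (ω : κ → Ω) k => ι (ω k)) (fun c => by
    rw [h1]; exact MeasurableSet.univ_pi (fun k => hι (c k))) G]
  unfold Epi
  refine Finset.sum_congr rfl (fun c _ => ?_)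
  rw [h1, measureReal_def, Measure.pi_pi, ENNReal.toReal_prod]
  simp only [hq, measureReal_def]

theorem integral_simple (hι : ∀ a, MeasurableSet (ι ⁻¹' {a}))
    (hq : ∀ a, q a = P.real (ι ⁻¹' {a})) (G : Θ → ℝ) :
    ∫ ω, G (ι ω) ∂P = ∑ a, q a * G a := by
  rw [dis_integral_simple hι G]
  simp only [hq]

theorem isPr_simple (hι : ∀ a, MeasurableSet (ι ⁻¹' {a}))
    (hq : ∀ a, q a = P.real (ι ⁻¹' {a})) : IsPr q := by
  refine ⟨fun a => by rw [hq]; exact measureReal_nonneg, ?_⟩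
  have := integral_simple hι hq (fun _ => 1)
  simpa using this.symm

theorem pressure_simple (hι : ∀ a, MeasurableSet (ι ⁻¹' {a}))
    (hq : ∀ a, q a = P.real (ι ⁻¹' {a})) (th : Θ → Cl K) (hv : Θ → ℝ) (lam : ℝ) (N : ℕ) :
    pressure P (fun ω => th (ι ω)) (fun ω => hv (ι ω)) lam N =
      (1 / (N : ℝ)) * Ffin q th hv lam N := by
  unfold pressure Ffin
  congr 1
  refine tsum_congr (fun M => ?_)
  congr 1
  rw [← integral_pi_simple hι hq]
  refine integral_congr_ae (Filter.Eventually.of_forall (fun ω => ?_))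
  exact integral_pi_simple hι hq (fun ω' : Fin N → Θ => avg (fun i : Fin M → Fin K → Fin N =>
    logZ (fun k => th (ι (ω k))) i (fun v => hv (ω' v))))

theorem TU_simple (hι : ∀ a, MeasurableSet (ι ⁻¹' {a}))
    (hq : ∀ a, q a = P.real (ι ⁻¹' {a})) (th : Θ → Cl K) (hv : Θ → ℝ) (lam : ℝ) (r : ℕ)
    (m : Fin r → ℝ) (x : (Fin (r + 1) → unitInterval) → ℝ) :
    TU P (fun ω => th (ι ω)) (fun ω => hv (ι ω)) lam r m x = TUmid q th hv lam r m x := by
  unfold TU TUmid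
  refine tsum_congr (fun M => ?_)
  congr 1
  rw [← integral_pi_simple hι hq]
  refine integral_congr_ae (Filter.Eventually.of_forall (fun ω => ?_))
  exact integral_simple hι hq (fun a => avg (fun l : Fin M → Fin K =>
    Tf r m x (Ufun (hv a) (fun k => th (ι (ω k))) l)))

theorem TV_simple (hι : ∀ a, MeasurableSet (ι ⁻¹' {a}))
    (hq : ∀ a, q a = P.real (ι ⁻¹' {a})) (th : Θ → Cl K) (lam : ℝ) (r : ℕ)
    (m : Fin r → ℝ) (x : (Fin (r + 1) → unitInterval) → ℝ) :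
    TV P (fun ω => th (ι ω)) lam r m x = TVmid q th lam r m x := by
  unfold TV TVmid
  refine tsum_congr (fun M => ?_)
  congr 1
  rw [← integral_pi_simple hι hq]

end Simple

section Mid

variable {Θ : Type} [Fintype Θ] {q : Θ → ℝ}

theorem dis_mid_eq (th : Θ → Cl K) (hv : Θ → ℝ) (lam : ℝ) {S : Type} [Fintype S] {m : Msg S}
    {r : ℕ} {mm : Fin r → ℝ} {x : (Fin (r + 1) → unitInterval) → ℝ}
    (h : ∀ (J : Type) [Fintype J] [DecidableEq J] (F : (J → ℝ) → ℝ), (∀ y, Cube y → 0 < F y) →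
        Tf r mm x F = Tfin m F) :
    TUmid q th hv lam r mm x = TUfin q th hv lam m ∧
      TVmid q th lam r mm x = TVfin q th lam m := by
  have hU : ∀ (M : ℕ) (a : ℝ) (θ : Fin M → Cl K) (l : Fin M → Fin K),
      Tf r mm x (Ufun a θ l) = Tfin m (Ufun a θ l) := fun M a θ l =>
    h _ _ (fun y hy => by rw [← hat_YU]; exact hat_pos (YU_pos a θ l) hy)
  have hV : ∀ (M : ℕ) (θ : Fin M → Cl K), Tf r mm x (Vfun θ) = Tfin m (Vfun θ) := fun M θ =>
    h _ _ (fun y hy => by rw [← hat_YV]; exact hat_pos (YV_pos θ) hy)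
  constructor
  · unfold TUmid TUfin
    simp only [hU]
  · unfold TVmid TVfin
    simp only [hV]

theorem mid_of_msg (th : Θ → Cl K) (hv : Θ → ℝ) (lam : ℝ) {S : Type} [Fintype S] {m : Msg S}
    (hm : m.Good) :
    ∃ (r : ℕ) (mm : Fin r → ℝ) (x : (Fin (r + 1) → unitInterval) → ℝ), Adm r mm x ∧
      TUmid q th hv lam r mm x = TUfin q th hv lam m ∧
      TVmid q th lam r mm x = TVfin q th lam m := by
  obtain ⟨mm, x, ha, h⟩ := exists_x_of_msg hm
  exact ⟨m.r, mm, x, ha, dis_mid_eq th hv lam h⟩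

theorem dis_abs_sum (hq : IsPr q) {f : Θ → ℝ} {B : ℝ} (h : ∀ a, |f a| ≤ B) :
    |∑ a, q a * f a| ≤ B := by
  refine (Finset.abs_sum_le_sum_abs _ _).trans ?_
  have : ∑ a, |q a * f a| ≤ ∑ a, q a * B := Finset.sum_le_sum (fun a _ => by
    rw [abs_mul, abs_of_nonneg (hq.1 a)]
    exact mul_le_mul_of_nonneg_left (h a) (hq.1 a))
  rw [← Finset.sum_mul, hq.2, one_mul] at this
  exact this

theorem dis_norm_sum (th : Θ → Cl K) {M : ℕ} (ω : Fin M → Θ) :
    ∑ k, ‖th (ω k)‖ ≤ (∑ a, ‖th a‖) * M := by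
  have : ∑ k, ‖th (ω k)‖ ≤ ∑ _k : Fin M, ∑ a, ‖th a‖ := Finset.sum_le_sum (fun k _ =>
    Finset.single_le_sum (f := fun a => ‖th a‖) (fun _ _ => norm_nonneg _) (Finset.mem_univ _))
  simpa [mul_comm] using this

theorem dis_YU_bd (th : Θ → Cl K) (hv : Θ → ℝ) {M : ℕ} (ω : Fin M → Θ) (a : Θ)
    (l : Fin M → Fin K) (s : Fin M × Fin K → Bool) :
    0 < YU (hv a) (fun k => th (ω k)) l s ∧
      |Real.log (YU (hv a) (fun k => th (ω k)) l s)| ≤
        (1 + ∑ a, |hv a|) + (∑ a, ‖th a‖) * M := by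
  refine ⟨YU_pos _ _ _ _, (abs_log_YU_le _ _ _ _).trans ?_⟩
  have h1 := dis_norm_sum th ω
  have h2 : |hv a| ≤ ∑ a, |hv a| :=
    Finset.single_le_sum (f := fun a => |hv a|) (fun _ _ => abs_nonneg _) (Finset.mem_univ _)
  linarith

theorem dis_YV_bd (th : Θ → Cl K) (hv : Θ → ℝ) {M : ℕ} (ω : Fin M → Θ)
    (s : Fin M × Fin K → Bool) :
    0 < YV (fun k => th (ω k)) s ∧
      |Real.log (YV (fun k => th (ω k)) s)| ≤ (1 + ∑ a, |hv a|) + (∑ a, ‖th a‖) * M := by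
  refine ⟨YV_pos _ _, (abs_log_YV_le _ _).trans ?_⟩
  have h1 := dis_norm_sum th ω
  have h2 : 0 ≤ ∑ a, |hv a| := by positivity
  linarith

theorem dis_mid_U (hq : IsPr q) (th : Θ → Cl K) (hv : Θ → ℝ) {lam : ℝ}
    (hlam : 0 ≤ lam) {r : ℕ} {mm : Fin r → ℝ} {x x' : (Fin (r + 1) → unitInterval) → ℝ}
    (ha : Adm r mm x) (ha' : Adm r mm x') :
    |TUmid q th hv lam r mm x - TUmid q th hv lam r mm x'| ≤
      (K * Real.exp (2 * (1 + ∑ a, |hv a|) * (r + 1)) * ∫ w, |x w - x' w|) *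
        Real.exp (K * lam * (2 * Real.exp (2 * (∑ a, ‖th a‖) * (r + 1)) - 1)) := by
  have hb : ∀ {x : (Fin (r + 1) → unitInterval) → ℝ}, Adm r mm x → ∀ M : ℕ,
      |Epi q (fun ω : Fin M → Θ => ∑ a, q a * avg (fun l : Fin M → Fin K =>
        Tf r mm x (Ufun (hv a) (fun k => th (ω k)) l)))| ≤
        (1 + ∑ a, |hv a|) + (∑ a, ‖th a‖) * M := by
    intro x ha M
    refine abs_Epi_le hq (fun ω => dis_abs_sum hq (fun a => abs_avg_le (by positivity)
      (fun l => ?_)))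
    rw [← hat_YU]
    exact dis_hat_abs ha (dis_YU_bd th hv ω a l)
  refine dis_tsum_pow (by positivity) (hb ha) (hb ha') (fun M => ?_)
  have hI : 0 ≤ ∫ w, |x w - x' w| := integral_nonneg (fun _ => abs_nonneg _)
  rw [← Epi_sub]
  refine abs_Epi_le hq (fun ω => ?_)
  rw [← Finset.sum_sub_distrib]
  simp only [← mul_sub]
  refine dis_abs_sum hq (fun a => abs_avg_sub_le (by positivity) (fun l => ?_))
  rw [← hat_YU]
  exact dis_hat_L1 ha ha' (dis_YU_bd th hv ω a l)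

theorem dis_mid_V (hq : IsPr q) (hK : 1 ≤ K) (th : Θ → Cl K) (hv : Θ → ℝ) {lam : ℝ}
    (hlam : 0 ≤ lam) {r : ℕ} {mm : Fin r → ℝ} {x x' : (Fin (r + 1) → unitInterval) → ℝ}
    (ha : Adm r mm x) (ha' : Adm r mm x') :
    |TVmid q th lam r mm x - TVmid q th lam r mm x'| ≤
      (K * Real.exp (2 * (1 + ∑ a, |hv a|) * (r + 1)) * ∫ w, |x w - x' w|) *
        Real.exp ((K - 1) * lam * (2 * Real.exp (2 * (∑ a, ‖th a‖) * (r + 1)) - 1)) := by
  have hK' : (0 : ℝ) ≤ (K : ℝ) - 1 := by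
    have : (1 : ℝ) ≤ K := by exact_mod_cast hK
    linarith
  have hb : ∀ {x : (Fin (r + 1) → unitInterval) → ℝ}, Adm r mm x → ∀ M : ℕ,
      |Epi q (fun ω : Fin M → Θ => Tf r mm x (Vfun (fun k => th (ω k))))| ≤
        (1 + ∑ a, |hv a|) + (∑ a, ‖th a‖) * M := by
    intro x ha M
    refine abs_Epi_le hq (fun ω => ?_)
    rw [← hat_YV]
    exact dis_hat_abs ha (dis_YV_bd th hv ω)
  refine dis_tsum_pow (by positivity) (hb ha) (hb ha') (fun M => ?_)
  rw [← Epi_sub]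
  refine abs_Epi_le hq (fun ω => ?_)
  rw [← hat_YV]
  exact dis_hat_L1 ha ha' (dis_YV_bd th hv ω)

theorem msg_of_mid (hq : IsPr q) (hK : 1 ≤ K) (th : Θ → Cl K) (hv : Θ → ℝ) {lam : ℝ}
    (hlam : 0 ≤ lam) {r : ℕ} {mm : Fin r → ℝ} {x : (Fin (r + 1) → unitInterval) → ℝ}
    (ha : Adm r mm x) {ε : ℝ} (hε : 0 < ε) :
    ∃ (S : Type) (_ : Fintype S) (m : Msg S), m.Good ∧
      |TUmid q th hv lam r mm x - TUfin q th hv lam m| ≤ ε ∧
      |TVmid q th lam r mm x - TVfin q th lam m| ≤ ε := by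
  obtain ⟨A, hA⟩ : ∃ A : ℝ, A = K * Real.exp (2 * (1 + ∑ a, |hv a|) * (r + 1)) := ⟨_, rfl⟩
  obtain ⟨E₁, hE₁⟩ : ∃ E : ℝ,
      E = Real.exp (K * lam * (2 * Real.exp (2 * (∑ a, ‖th a‖) * (r + 1)) - 1)) := ⟨_, rfl⟩
  obtain ⟨E₂, hE₂⟩ : ∃ E : ℝ,
      E = Real.exp ((K - 1) * lam * (2 * Real.exp (2 * (∑ a, ‖th a‖) * (r + 1)) - 1)) :=
    ⟨_, rfl⟩
  have hA0 : 0 ≤ A := by rw [hA]; positivity
  have h10 : 0 ≤ E₁ := by rw [hE₁]; positivity
  have h20 : 0 ≤ E₂ := by rw [hE₂]; positivity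
  have hD : 0 < A * E₁ + A * E₂ + 1 := by positivity
  obtain ⟨n, xg, hxg, hI⟩ := exists_grid_approx ha.2.2.1 ha.2.2.2 (div_pos hε hD)
  obtain ⟨m, hm, h⟩ := exists_msg_of_grid ha.1 ha.2.1 xg hxg
  have ha' : Adm r mm (fun w => xg (fun p => cell n (w p))) := by
    refine ⟨ha.1, ha.2.1, ?_, fun w => hxg _⟩
    refine (measurable_of_finite xg).comp ?_
    exact measurable_pi_lambda _ (fun p => (measurable_cell n).comp (measurable_pi_apply p))
  obtain ⟨e1, e2⟩ := dis_mid_eq (q := q) th hv lam h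
  have hU := dis_mid_U hq th hv hlam ha ha'
  have hV := dis_mid_V hq hK th hv hlam ha ha'
  rw [← hA, ← hE₁, e1] at hU
  rw [← hA, ← hE₂, e2] at hV
  have hI0 : 0 ≤ ∫ w, |x w - xg (fun p => cell n (w p))| :=
    integral_nonneg (fun _ => abs_nonneg _)
  rw [le_div_iff₀ hD] at hI
  have p1 := mul_nonneg hI0 (mul_nonneg hA0 h10)
  have p2 := mul_nonneg hI0 (mul_nonneg hA0 h20)
  refine ⟨_, inferInstance, m, hm, hU.trans ?_, hV.trans ?_⟩
  · linarith
  · linarith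

end Mid

end Vale.Agent.P168
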