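import Vale.Agent.P168.Basic

namespace Vale.Agent.P168

open Finset MeasureTheory ProbabilityTheory
open scoped BigOperators NNReal

variable {E E' : Type} [NormedAddCommGroup E] [NormedSpace ℝ E] [FiniteDimensional ℝ E]
  [MeasurableSpace E] [BorelSpace E] [NormedAddCommGroup E'] [NormedSpace ℝ E']
  [FiniteDimensional ℝ E'] [MeasurableSpace E'] [BorelSpace E']

/-- compound Poisson law with intensity `α` -/
noncomputable def cP (α : Measure E) : Measure E :=
  Measure.sum fun M : ℕ => ENNReal.ofReal (Real.exp (-α.real Set.univ) / M.factorial) •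
    (Measure.pi fun _ : Fin M => α).map fun v => ∑ k, v k

/-- law of `v θ i` for `θ ~ ν` and a uniform `i` -/
noncomputable def law {Θ I : Type} [MeasurableSpace Θ] [Fintype I] (ν : Measure Θ)
    (v : Θ → I → E) : Measure E :=
  (Fintype.card I : ENNReal)⁻¹ • ∑ i, ν.map fun θ => v θ i

/-- measurable functions of linear growth -/
def Gr (Γ : E → ℝ) : Prop := Measurable Γ ∧ ∃ C : ℝ, ∀ v, |Γ v| ≤ C * (1 + ‖v‖)

theorem gr_of_lip {Γ : E → ℝ} (h : ∀ u v, |Γ u - Γ v| ≤ ‖u - v‖) : Gr Γ := by
  refine ⟨(LipschitzWith.of_dist_le_mul (K := 1) fun u v => ?_).continuous.measurable,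
    1 + |Γ 0|, fun v => ?_⟩
  · simpa [dist_eq_norm] using h u v
  · have h1 := h v 0
    have h2 := abs_sub_abs_le_abs_sub (Γ v) (Γ 0)
    rw [sub_zero] at h1
    nlinarith [mul_nonneg (abs_nonneg (Γ 0)) (norm_nonneg v)]

theorem Gr.integrable {Γ : E → ℝ} (h : Gr Γ) {α : Measure E} [IsFiniteMeasure α]
    (hα : Integrable id α) : Integrable Γ α := by
  obtain ⟨hm, C, hC⟩ := h
  exact (((integrable_const 1).add hα.norm).const_mul C).mono' hm.aestronglyMeasurable
    (Filter.Eventually.of_forall hC)

theorem cp_meas (M : ℕ) : Measurable fun v : Fin M → E => ∑ k, v k :=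
  (continuous_finsetSum _ fun k _ => continuous_apply k).measurable

theorem cp_term {F : Type} [NormedAddCommGroup F] [NormedSpace ℝ F] (α : Measure E) {M : ℕ}
    {Γ : E → F}
    (h : AEStronglyMeasurable Γ ((Measure.pi fun _ : Fin M => α).map fun v => ∑ k, v k)) :
    ∫ u, Γ u ∂(ENNReal.ofReal (Real.exp (-α.real Set.univ) / M.factorial) •
      (Measure.pi fun _ : Fin M => α).map fun v => ∑ k, v k) =
      (Real.exp (-α.real Set.univ) / M.factorial) •
        ∫ v, Γ (∑ k, v k) ∂(Measure.pi fun _ : Fin M => α) := by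
  rw [integral_smul_measure, ENNReal.toReal_ofReal (by positivity),
    integral_map (cp_meas M).aemeasurable h]

omit [NormedAddCommGroup E] [NormedSpace ℝ E] [FiniteDimensional ℝ E] [BorelSpace E] in
theorem cp_hasSum (α : Measure E) [IsFiniteMeasure α] (c : ℝ) :
    HasSum (fun M : ℕ => Real.exp (-α.real Set.univ) / M.factorial *
      (M * (α.real Set.univ ^ (M - 1) * c))) c := by
  have h := (hasSum_one_poissonMeasure (measureUnivNNReal α)).mul_left c
  rw [mul_one] at h
  rw [← hasSum_nat_add_iff' 1]
  simp only [range_one, sum_singleton, Nat.cast_zero, zero_mul, mul_zero, sub_zero]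
  refine h.congr_fun fun n => ?_
  have e : ((measureUnivNNReal α : ℝ≥0) : ℝ) = α.real Set.univ := rfl
  rw [Nat.factorial_succ, e, Nat.add_sub_cancel]
  push_cast
  field_simp

theorem cp_mom_le {α : Measure E} [IsFiniteMeasure α] (hα : Integrable id α) (M : ℕ) :
    ∫ u, ‖u‖ ∂(ENNReal.ofReal (Real.exp (-α.real Set.univ) / M.factorial) •
      (Measure.pi fun _ : Fin M => α).map fun v => ∑ k, v k) ≤
      Real.exp (-α.real Set.univ) / M.factorial *
        (M * (α.real Set.univ ^ (M - 1) * ∫ v, ‖v‖ ∂α)) := by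
  rw [cp_term α continuous_norm.aestronglyMeasurable, smul_eq_mul]
  refine mul_le_mul_of_nonneg_left ?_ (by positivity)
  have h1 : ∀ k : Fin M, Integrable (fun v : Fin M → E => ‖v k‖) (Measure.pi fun _ => α) :=
    fun k => (integrable_eval hα).norm
  have h2 : ∀ k : Fin M, ∫ v : Fin M → E, ‖v k‖ ∂(Measure.pi fun _ => α) =
      α.real Set.univ ^ (M - 1) * ∫ v, ‖v‖ ∂α := fun k => by
    have := integral_map (μ := Measure.pi fun _ : Fin M => α) (φ := Function.eval k)
      (measurable_pi_apply k).aemeasurable (continuous_norm (E := E)).aestronglyMeasurable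
    rw [Measure.pi_map_eval, integral_smul_measure, prod_const, card_erase_of_mem (mem_univ k),
      card_univ, Fintype.card_fin, ENNReal.toReal_pow] at this
    exact this.symm
  refine (integral_mono_of_nonneg (Filter.Eventually.of_forall fun _ => norm_nonneg _)
    (integrable_finsetSum _ fun k _ => h1 k)
    (Filter.Eventually.of_forall fun v => norm_sum_le _ _)).trans (le_of_eq ?_)
  rw [integral_finsetSum _ fun k _ => h1 k]
  simp [h2]

instance cP_prob (α : Measure E) [IsFiniteMeasure α] : IsProbabilityMeasure (cP α) := by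
  constructor
  have h := hasSum_one_poissonMeasure (measureUnivNNReal α)
  rw [cP, Measure.sum_apply _ MeasurableSet.univ, ← ENNReal.ofReal_one, ← h.tsum_eq,
    ENNReal.ofReal_tsum_of_nonneg (fun _ => by positivity) h.summable]
  refine tsum_congr fun M => ?_
  rw [Measure.smul_apply, Measure.map_apply (cp_meas M) MeasurableSet.univ, Set.preimage_univ,
    Measure.pi_univ, prod_const, card_univ, Fintype.card_fin, smul_eq_mul, mul_div_right_comm,
    ENNReal.ofReal_mul (by positivity), ENNReal.ofReal_pow (by positivity), ENNReal.ofReal_coe_nnreal,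
    coe_measureUnivNNReal]
  rfl

theorem cP_integrable {α : Measure E} [IsFiniteMeasure α] (hα : Integrable id α) :
    Integrable id (cP α) := by
  refine integrable_sum_measure (fun M => ?_) (Summable.of_nonneg_of_le
    (fun M => integral_nonneg fun _ => norm_nonneg _) (cp_mom_le hα) (cp_hasSum α _).summable)
  have h : Integrable (fun v : Fin M → E => ∑ k, v k) (Measure.pi fun _ => α) :=
    integrable_finsetSum _ fun k _ => integrable_eval hα
  exact ((integrable_map_measure aestronglyMeasurable_id (cp_meas M).aemeasurable).2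
    h).smul_measure ENNReal.ofReal_ne_top

theorem cP_mom {α : Measure E} [IsFiniteMeasure α] (hα : Integrable id α) :
    ∫ v, ‖v‖ ∂(cP α) ≤ ∫ v, ‖v‖ ∂α := by
  have h : Integrable (fun v : E => ‖v‖) (cP α) := (cP_integrable hα).norm
  exact hasSum_le (cp_mom_le hα) (hasSum_integral_measure h) (cp_hasSum α _)

omit [FiniteDimensional ℝ E] in
theorem cp_int_exp (α : Measure E) [IsFiniteMeasure α] (L : StrongDual ℝ E) :
    Integrable (fun v => Complex.exp (L v * Complex.I)) α :=
  (integrable_const (1 : ℝ)).mono' (Continuous.aestronglyMeasurable (by fun_prop))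
    (Filter.Eventually.of_forall fun v => (Complex.norm_exp_ofReal_mul_I _).le)

theorem cp_char (α : Measure E) [IsFiniteMeasure α] (L : StrongDual ℝ E) :
    charFunDual (cP α) L = Complex.exp (charFunDual α L - α.real Set.univ) := by
  have h := hasSum_integral_measure (cp_int_exp (cP α) L)
  have h2 := (NormedSpace.expSeries_div_hasSum_exp (charFunDual α L)).mul_left
    (Complex.exp (-α.real Set.univ))
  rw [← Complex.exp_eq_exp_ℂ, ← Complex.exp_add, neg_add_eq_sub] at h2
  refine h.unique (h2.congr_fun fun M => ?_)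
  rw [cp_term α (Continuous.aestronglyMeasurable (by fun_prop))]
  simp only [map_sum, Complex.ofReal_sum, sum_mul, Complex.exp_sum]
  rw [integral_fintype_prod_eq_pow fun v : E => Complex.exp (L v * Complex.I), Fintype.card_fin,
    charFunDual_apply, Complex.real_smul]
  push_cast
  ring

theorem cP_add (α α' : Measure E) [IsFiniteMeasure α] [IsFiniteMeasure α'] :
    cP (α + α') = cP α ∗ cP α' := by
  refine Measure.ext_of_charFunDual (funext fun L => ?_)
  rw [charFunDual_conv, cp_char, cp_char, cp_char, ← Complex.exp_add, charFunDual_apply,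
    integral_add_measure (cp_int_exp α L) (cp_int_exp α' L), measureReal_add_apply,
    charFunDual_apply, charFunDual_apply]
  push_cast
  congr 1
  ring

theorem integral_cP_add {α α' : Measure E} [IsFiniteMeasure α] [IsFiniteMeasure α']
    (hα : Integrable id α) (hα' : Integrable id α') {Γ : E → ℝ} (hΓ : Gr Γ) :
    ∫ v, Γ v ∂(cP (α + α')) = ∫ u, ∫ w, Γ (u + w) ∂(cP α') ∂(cP α) := by
  have h := hΓ.integrable (cP_integrable (hα.add_measure hα'))
  rw [cP_add] at h ⊢
  exact integral_conv h

theorem cP_map (α : Measure E) [IsFiniteMeasure α] (T : E →L[ℝ] E') :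
    (cP α).map T = cP (α.map T) := by
  refine Measure.ext_of_charFunDual (funext fun L => ?_)
  rw [charFunDual_map, cp_char, cp_char, charFunDual_map,
    map_measureReal_apply T.continuous.measurable MeasurableSet.univ, Set.preimage_univ]

theorem cP_lip {α α' : Measure E} [IsFiniteMeasure α] [IsFiniteMeasure α']
    (hα : Integrable id α) (hα' : Integrable id α') {Γ : E → ℝ}
    (h : ∀ u v, |Γ u - Γ v| ≤ ‖u - v‖) :
    |∫ v, Γ v ∂(cP (α + α')) - ∫ v, Γ v ∂(cP α)| ≤ ∫ v, ‖v‖ ∂α' := by
  have hΓ := gr_of_lip h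
  have h0 := hΓ.integrable (cP_integrable (hα.add_measure hα'))
  rw [cP_add] at h0
  have h1 : Integrable (fun u => ∫ w, Γ (u + w) ∂(cP α')) (cP α) :=
    ((integrable_map_measure h0.1 (by fun_prop)).1 h0).integral_prod_left
  rw [integral_cP_add hα hα' hΓ, ← integral_sub h1 (hΓ.integrable (cP_integrable hα))]
  have h2 : ∀ u, ‖∫ w, Γ (u + w) ∂(cP α') - Γ u‖ ≤ ∫ v, ‖v‖ ∂α' := fun u => by
    have h3 : Gr fun w => Γ (u + w) := gr_of_lip fun v w => by simpa using h (u + v) (u + w)
    have h4 := integral_sub (h3.integrable (cP_integrable hα')) (integrable_const (Γ u))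
    rw [integral_const, probReal_univ, one_smul] at h4
    rw [← h4]
    exact (norm_integral_le_of_norm_le (cP_integrable hα').norm
      (Filter.Eventually.of_forall fun w => by simpa using h (u + w) u)).trans (cP_mom hα')
  simpa using norm_integral_le_of_norm_le_const (μ := cP α) (Filter.Eventually.of_forall h2)

theorem cP_dirac_zero (a : ℝ≥0) : cP (a • Measure.dirac (0 : E)) = Measure.dirac 0 := by
  refine Measure.ext_of_charFunDual (funext fun L => ?_)
  rw [cp_char, charFunDual_apply, integral_smul_nnreal_measure]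
  simp [NNReal.smul_def]

variable {Θ I : Type} [MeasurableSpace Θ] [Fintype I] [Nonempty I]

theorem law_prob (ν : Measure Θ) [IsProbabilityMeasure ν] {v : Θ → I → E}
    (hv : ∀ i, Measurable fun θ => v θ i) : IsProbabilityMeasure (law ν v) := by
  constructor
  have h : ∀ i, (ν.map fun θ => v θ i) Set.univ = 1 := fun i => by
    rw [Measure.map_apply (hv i) MeasurableSet.univ]
    simp
  simp only [law, Measure.smul_apply, Measure.finsetSum_apply, h, sum_const, card_univ,
    nsmul_eq_mul, mul_one, smul_eq_mul]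
  exact ENNReal.inv_mul_cancel (by simp) (by simp)

theorem integrable_law {ν : Measure Θ} {v : Θ → I → E} (hv : ∀ i, Measurable fun θ => v θ i)
    {F : Type} [NormedAddCommGroup F] {Γ : E → F} (hΓ : StronglyMeasurable Γ)
    (h : ∀ i, Integrable (fun θ => Γ (v θ i)) ν) : Integrable Γ (law ν v) := by
  refine Integrable.smul_measure ?_ (by simp)
  exact integrable_finsetSum_measure.2 fun i _ =>
    (integrable_map_measure hΓ.aestronglyMeasurable (hv i).aemeasurable).2 (h i)

theorem integral_law {ν : Measure Θ} {v : Θ → I → E} (hv : ∀ i, Measurable fun θ => v θ i)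
    {Γ : E → ℝ} (hΓ : Measurable Γ) (h : ∀ i, Integrable (fun θ => Γ (v θ i)) ν) :
    ∫ u, Γ u ∂(law ν v) = 𝔼 i, ∫ θ, Γ (v θ i) ∂ν := by
  rw [law, integral_smul_measure, integral_finsetSum_measure fun i _ =>
    (integrable_map_measure hΓ.aestronglyMeasurable (hv i).aemeasurable).2 (h i),
    expect_eq_sum_div_card, card_univ, div_eq_inv_mul]
  simp only [integral_map (hv _).aemeasurable hΓ.aestronglyMeasurable]
  simp

omit [NormedAddCommGroup E] [NormedSpace ℝ E] [FiniteDimensional ℝ E] [BorelSpace E] in
theorem cp_pi_smul (α : Measure E) [IsFiniteMeasure α] (a : ℝ≥0) (M : ℕ) :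
    (Measure.pi fun _ : Fin M => a • α) = a ^ M • Measure.pi fun _ : Fin M => α := by
  refine Measure.pi_eq fun s _ => ?_
  simp only [Measure.smul_apply, Measure.pi_pi, ENNReal.smul_def, smul_eq_mul, prod_mul_distrib,
    prod_const, card_univ, Fintype.card_fin, ENNReal.coe_pow]

theorem cp_pi_law (ν : Measure Θ) [IsProbabilityMeasure ν] {v : Θ → I → E}
    (hv : ∀ i, Measurable fun θ => v θ i) (M : ℕ) :
    (Measure.pi fun _ : Fin M => law ν v) =
      law (Measure.pi fun _ : Fin M => ν) fun θ (i : Fin M → I) k => v (θ k) (i k) := by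
  have := law_prob ν hv
  refine Measure.pi_eq fun s _ => ?_
  have h : ∀ i : Fin M → I, ((Measure.pi fun _ : Fin M => ν).map fun θ k => v (θ k) (i k)) =
      Measure.pi fun k => ν.map fun θ => v θ (i k) := fun i =>
    Measure.pi_map_pi (f := fun k θ => v θ (i k)) fun k => (hv (i k)).aemeasurable
  simp only [law, h, Measure.smul_apply, Measure.finsetSum_apply, Measure.pi_pi, smul_eq_mul,
    prod_mul_distrib, prod_const, card_univ, Fintype.card_fin, Fintype.card_fun, Nat.cast_pow,
    ENNReal.inv_pow]
  rw [prod_univ_sum, Fintype.piFinset_univ]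

/-- the compound Poisson integral as an iterated integral -/
theorem integral_cP_law {ν : Measure Θ} [IsProbabilityMeasure ν] {v : Θ → I → E}
    (hv : ∀ i, Measurable fun θ => v θ i) (hi : ∀ i, Integrable (fun θ => v θ i) ν) (a : ℝ≥0)
    {Γ : E → ℝ} (hΓ : Gr Γ) :
    ∫ u, Γ u ∂(cP (a • law ν v)) = ∫ M, (∫ θ, (𝔼 i : Fin M → I, Γ (∑ k, v (θ k) (i k)))
      ∂(Measure.pi fun _ : Fin M => ν)) ∂(poissonMeasure a) := by
  have := law_prob ν hv
  have h1 : Integrable id (law ν v) := integrable_law hv stronglyMeasurable_id hi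
  have h2 : Integrable Γ (cP (a • law ν v)) := hΓ.integrable (cP_integrable h1.smul_measure_nnreal)
  rw [integral_poissonMeasure, cP, integral_sum_measure h2]
  refine tsum_congr fun M => ?_
  have hm : ∀ i : Fin M → I, Measurable fun (θ : Fin M → Θ) k => v (θ k) (i k) := fun i =>
    measurable_pi_lambda _ fun k => (hv (i k)).comp (measurable_pi_apply k)
  have h3 : ∀ i : Fin M → I, Integrable (fun θ : Fin M → Θ => Γ (∑ k, v (θ k) (i k)))
      (Measure.pi fun _ => ν) := fun i => by
    obtain ⟨hm', C, hC⟩ := hΓ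
    have h4 : Integrable (fun θ : Fin M → Θ => ∑ k, v (θ k) (i k)) (Measure.pi fun _ => ν) :=
      integrable_finsetSum _ fun k _ =>
        integrable_comp_eval (μ := fun _ : Fin M => ν) (i := k) (hi (i k))
    exact (((integrable_const 1).add h4.norm).const_mul C).mono'
      (hm'.comp ((cp_meas M).comp (hm i))).aestronglyMeasurable
      (Filter.Eventually.of_forall fun θ => hC _)
  rw [cp_term _ hΓ.1.aestronglyMeasurable, cp_pi_smul, integral_smul_nnreal_measure,
    cp_pi_law ν hv, integral_law (Γ := fun w : Fin M → E => Γ (∑ k, w k)) hm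
      (hΓ.1.comp (cp_meas M)) h3]
  simp only [expect_eq_sum_div_card, integral_div]
  rw [integral_finsetSum _ fun i _ => h3 i]
  simp only [measureReal_nnreal_smul_apply, probReal_univ, mul_one, NNReal.smul_def,
    NNReal.coe_pow, smul_eq_mul]
  ring

end Vale.Agent.P168
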