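import Vale.Agent.P168.Avg

/-! The recursion on finite cascades. -/

namespace Vale.Agent.P168

open Finset

variable {S S' : Type} [Fintype S] [Fintype S']

theorem casc_mu_ge (r d : ℕ) : 1 / ((r : ℝ) + 1) ≤ mu r d := by
  have h : ((min ((d + 1) / 2) r : ℕ) : ℝ) ≤ r := by exact_mod_cast min_le_right _ _
  unfold mu
  rw [le_sub_iff_add_le, ← add_div, div_le_one (by positivity)]
  linarith
theorem mu_pos (r d : ℕ) : 0 < mu r d := lt_of_lt_of_le (by positivity) (casc_mu_ge r d)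
theorem mu_le_one (r d : ℕ) : mu r d ≤ 1 := sub_le_self _ (by positivity)
theorem mu_ge (r d : ℕ) : 1 / ((r : ℝ) + 1) ≤ mu r d := casc_mu_ge r d
theorem mu_zero (r : ℕ) : mu r 0 = 1 := by simp [mu]
theorem mu_succ_le (r d : ℕ) : mu r (d + 1) ≤ mu r d := by
  unfold mu
  gcongr
  omega
theorem mu_even (r e : ℕ) : mu r (2 * e + 2) = mu r (2 * e + 1) := by
  unfold mu
  rw [show (2 * e + 2 + 1) / 2 = (2 * e + 1 + 1) / 2 by omega]
theorem mu_sub_le (r d : ℕ) : mu r d - mu r (d + 1) ≤ 1 / ((r : ℝ) + 1) := by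
  have h : ((min ((d + 1 + 1) / 2) r : ℕ) : ℝ) ≤ (min ((d + 1) / 2) r : ℕ) + 1 := by
    exact_mod_cast (by omega : min ((d + 1 + 1) / 2) r ≤ min ((d + 1) / 2) r + 1)
  unfold mu
  rw [sub_sub_sub_cancel_left, ← sub_div]
  gcongr
  linarith
theorem mu_top (r : ℕ) : mu r (2 * r) = 1 / ((r : ℝ) + 1) := by
  unfold mu
  rw [show min ((2 * r + 1) / 2) r = r by omega]
  field_simp
  ring
theorem mu_odd (r e : ℕ) (he : e < r) : mu r (2 * e + 1) = 1 - ((e : ℝ) + 1) / ((r : ℝ) + 1) := by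
  unfold mu
  rw [show min ((2 * e + 1 + 1) / 2) r = e + 1 by omega, Nat.cast_add, Nat.cast_one]

theorem Rec_succ (κ : ℕ → S → S → ℝ) (μ : ℕ → ℝ) (L : S → ℝ) (d : ℕ) (s : S) :
    Rec κ μ L (d + 1) s =
      (μ d)⁻¹ * Real.log (Ex (κ d) (fun t => Real.exp (μ d * Rec κ μ L d t)) s) := rfl

theorem exp_mul_Rec_succ {κ : ℕ → S → S → ℝ} {μ : ℕ → ℝ} (L : S → ℝ) {d : ℕ} (hκ : IsK (κ d))
    (hμ : μ d ≠ 0) (s : S) :
    Real.exp (μ d * Rec κ μ L (d + 1) s) =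
      Ex (κ d) (fun t => Real.exp (μ d * Rec κ μ L d t)) s := by
  rw [Rec_succ, mul_inv_cancel_left₀ hμ, Real.exp_log (hκ.Ex_pos (fun t => Real.exp_pos _) s)]

theorem Rec_congr {κ κ' : ℕ → S → S → ℝ} {μ μ' : ℕ → ℝ} (L : S → ℝ) (d : ℕ)
    (hκ : ∀ e, e < d → κ e = κ' e) (hμ : ∀ e, e < d → μ e = μ' e) :
    Rec κ μ L d = Rec κ' μ' L d := by
  induction d with
  | zero => rfl
  | succ d ih =>
    funext s
    rw [Rec_succ, Rec_succ, ih (fun e he => hκ e (by omega)) (fun e he => hμ e (by omega)),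
      hκ d (by omega), hμ d (by omega)]

theorem Rec_mor {κ : ℕ → S → S → ℝ} {κ' : ℕ → S' → S' → ℝ} {φ : S' → S} (μ : ℕ → ℝ)
    (L : S → ℝ) (d : ℕ) (h : ∀ e, e < d → IsMor φ (κ' e) (κ e)) (s : S') :
    Rec κ' μ (fun t => L (φ t)) d s = Rec κ μ L d (φ s) := by
  induction d generalizing s with
  | zero => rfl
  | succ d ih =>
    rw [Rec_succ, Rec_succ, ← h d (by omega)]
    simp only [ih fun e he => h e (by omega)]

theorem casc_exp_succ {κ : ℕ → S → S → ℝ} (μ : ℕ → ℝ) (L : S → ℝ) {d : ℕ} (hκ : IsK (κ d))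
    (s : S) : Real.exp (μ d * Rec κ μ L (d + 1) s) =
      Ex (κ d) (fun t => Real.exp (μ d * Rec κ μ L d t)) s := by
  by_cases h : μ d = 0
  · simp only [h, zero_mul, hκ.Ex_const]
  · exact exp_mul_Rec_succ L hκ h s

theorem casc_Ex_tilt {κ : ℕ → S → S → ℝ} (μ : ℕ → ℝ) (L : S → ℝ) (d : ℕ) (f : S → ℝ) (s : S) :
    Ex (tilt κ μ L d) f s =
      Ex (κ d) (fun t => Real.exp (μ d * Rec κ μ L d t) * f t) s /
        Real.exp (μ d * Rec κ μ L (d + 1) s) := by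
  simp only [Ex, tilt, sum_div, mul_sub, Real.exp_sub]
  exact sum_congr rfl fun t _ => by ring

theorem isK_tilt {κ : ℕ → S → S → ℝ} (μ : ℕ → ℝ) (L : S → ℝ) {d : ℕ} (h : IsK (κ d)) :
    IsK (tilt κ μ L d) := by
  refine ⟨fun s t => mul_nonneg (h.1 s t) (Real.exp_pos _).le, fun s => ?_⟩
  have h1 := casc_Ex_tilt (κ := κ) μ L d (fun _ => 1) s
  simp only [mul_one] at h1
  rw [← casc_exp_succ μ L h, div_self (Real.exp_pos _).ne'] at h1
  simpa only [Ex, mul_one] using h1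

theorem Ex_tilt {κ : ℕ → S → S → ℝ} (μ : ℕ → ℝ) (L : S → ℝ) (d : ℕ) (f : S → ℝ) (s : S) :
    Ex (tilt κ μ L d) f s =
      Ex (κ d) (fun t => Real.exp (μ d * Rec κ μ L d t) * f t) s /
        Real.exp (μ d * Rec κ μ L (d + 1) s) := casc_Ex_tilt μ L d f s

theorem tilt_mor {κ : ℕ → S → S → ℝ} {κ' : ℕ → S' → S' → ℝ} {φ : S' → S} (μ : ℕ → ℝ)
    (L : S → ℝ) (d : ℕ) (h : ∀ e, e ≤ d → IsMor φ (κ' e) (κ e)) :
    IsMor φ (tilt κ' μ (fun t => L (φ t)) d) (tilt κ μ L d) := fun f s => by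
  rw [Ex_tilt, Ex_tilt, Rec_mor μ L (d + 1) fun e he => h e (by omega), ← h d le_rfl]
  simp only [Rec_mor μ L d fun e he => h e he.le]

theorem Rec_tilt {κ : ℕ → S → S → ℝ} (hκ : ∀ d, IsK (κ d)) (μ : ℕ → ℝ) (L L' : S → ℝ) (d : ℕ)
    (s : S) :
    Rec κ μ (fun t => L t + L' t) d s = Rec κ μ L d s + Rec (tilt κ μ L) μ L' d s := by
  induction d generalizing s with
  | zero => rfl
  | succ d ih =>
    by_cases h : μ d = 0
    · simp [Rec_succ, h]
    rw [Rec_succ (tilt κ μ L), Ex_tilt, Real.log_div ((hκ d).Ex_pos (fun t => by positivity) s).ne'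
      (Real.exp_pos _).ne', Real.log_exp, mul_sub, inv_mul_cancel_left₀ h, add_sub_cancel,
      Rec_succ]
    simp only [ih, mul_add, Real.exp_add]

theorem tilt_prodK_fst {κ : ℕ → S → S → ℝ} {κ' : ℕ → S' → S' → ℝ} (hκ' : ∀ d, IsK (κ' d))
    (μ : ℕ → ℝ) (L : S → ℝ) :
    tilt (prodK κ κ') μ (fun x => L x.1) = prodK (tilt κ μ L) κ' := by
  funext d s t
  simp only [tilt, prodK, Rec_mor μ L _ fun e _ => isMor_fst κ (hκ' e)]
  ring

theorem Rec_const {κ : ℕ → S → S → ℝ} (hκ : ∀ d, IsK (κ d)) {μ : ℕ → ℝ} (c : ℝ) (d : ℕ)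
    (hμ : ∀ e, e < d → μ e ≠ 0) (s : S) : Rec κ μ (fun _ => c) d s = c := by
  induction d generalizing s with
  | zero => rfl
  | succ d ih =>
    rw [Rec_succ]
    simp only [ih fun e he => hμ e (by omega)]
    rw [(hκ d).Ex_const, Real.log_exp, inv_mul_cancel_left₀ (hμ d (by omega))]

theorem Rec_add_const {κ : ℕ → S → S → ℝ} (hκ : ∀ d, IsK (κ d)) {μ : ℕ → ℝ} (L : S → ℝ) (c : ℝ)
    (d : ℕ) (hμ : ∀ e, e < d → μ e ≠ 0) (s : S) :
    Rec κ μ (fun t => L t + c) d s = Rec κ μ L d s + c := by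
  rw [Rec_tilt hκ, Rec_const (fun d => isK_tilt μ L (hκ d)) c d hμ]

theorem Rec_mono {κ : ℕ → S → S → ℝ} (hκ : ∀ d, IsK (κ d)) {μ : ℕ → ℝ} {L L' : S → ℝ} (d : ℕ)
    (hμ : ∀ e, e < d → 0 < μ e) (h : ∀ t, L t ≤ L' t) (s : S) :
    Rec κ μ L d s ≤ Rec κ μ L' d s := by
  induction d generalizing s with
  | zero => exact h s
  | succ d ih =>
    have h0 := hμ d (by omega)
    refine mul_le_mul_of_nonneg_left (Real.log_le_log ((hκ d).Ex_pos (fun t => Real.exp_pos _) s)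
      ((hκ d).Ex_mono (fun t => Real.exp_le_exp.mpr ?_) s)) (inv_nonneg.mpr h0.le)
    exact mul_le_mul_of_nonneg_left (ih (fun e he => hμ e (by omega)) t) h0.le

theorem abs_Rec_sub_le {κ : ℕ → S → S → ℝ} (hκ : ∀ d, IsK (κ d)) {μ : ℕ → ℝ} {L L' : S → ℝ}
    {B : ℝ} (d : ℕ) (hμ : ∀ e, e < d → 0 < μ e) (h : ∀ t, |L t - L' t| ≤ B) (s : S) :
    |Rec κ μ L d s - Rec κ μ L' d s| ≤ B := by
  have h1 := Rec_mono hκ d hμ (L := L) (L' := fun t => L' t + B)
    (fun t => by linarith [(abs_le.mp (h t)).2]) s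
  have h2 := Rec_mono hκ d hμ (L := L') (L' := fun t => L t + B)
    (fun t => by linarith [(abs_le.mp (h t)).1]) s
  rw [Rec_add_const hκ _ _ _ fun e he => (hμ e he).ne'] at h1 h2
  exact abs_le.mpr ⟨by linarith, by linarith⟩

theorem abs_Rec_le {κ : ℕ → S → S → ℝ} (hκ : ∀ d, IsK (κ d)) {μ : ℕ → ℝ} {L : S → ℝ}
    {B : ℝ} (d : ℕ) (hμ : ∀ e, e < d → 0 < μ e) (h : ∀ t, |L t| ≤ B) (s : S) :
    |Rec κ μ L d s| ≤ B := by
  have h1 := abs_Rec_sub_le hκ d hμ (L' := fun _ => 0) (fun t => by simpa using h t) s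
  rwa [Rec_const hκ 0 d fun e he => (hμ e he).ne', sub_zero] at h1

theorem Rec_prodK {κ : ℕ → S → S → ℝ} {κ' : ℕ → S' → S' → ℝ} (hκ : ∀ d, IsK (κ d))
    (hκ' : ∀ d, IsK (κ' d)) (μ : ℕ → ℝ) (L : S → ℝ) (L' : S' → ℝ) (d : ℕ) (s : S × S') :
    Rec (prodK κ κ') μ (fun x => L x.1 + L' x.2) d s = Rec κ μ L d s.1 + Rec κ' μ L' d s.2 := by
  induction d generalizing s with
  | zero => rfl
  | succ d ih =>
    rw [Rec_succ, Rec_succ, Rec_succ, ← mul_add,
      ← Real.log_mul ((hκ d).Ex_pos (fun t => Real.exp_pos _) _).ne'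
        ((hκ' d).Ex_pos (fun t => Real.exp_pos _) _).ne', ← Ex_prodK_mul]
    simp only [ih, mul_add, Real.exp_add]

theorem Rec_shift (κ : ℕ → S → S → ℝ) (μ : ℕ → ℝ) (L : S → ℝ) (k d : ℕ) :
    Rec κ μ L (k + d) = Rec (fun e => κ (k + e)) (fun e => μ (k + e)) (Rec κ μ L k) d := by
  induction d with
  | zero => rfl
  | succ d ih =>
    funext s
    rw [← add_assoc, Rec_succ, Rec_succ, ih]

/-- The recursion only sees the leaves that can be reached. -/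
theorem Rec_local {κ : ℕ → S → S → ℝ} (μ : ℕ → ℝ) {L L' : S → ℝ} (P : ℕ → S → Prop) (d : ℕ)
    (hP : ∀ e, e < d → ∀ s t, P (e + 1) s → κ e s t ≠ 0 → P e t)
    (h : ∀ t, P 0 t → L t = L' t) (s : S) (hs : P d s) : Rec κ μ L d s = Rec κ μ L' d s := by
  induction d generalizing s with
  | zero => exact h s hs
  | succ d ih =>
    rw [Rec_succ, Rec_succ]
    congr 2
    refine sum_congr rfl fun t _ => ?_
    by_cases h0 : κ d s t = 0
    · rw [h0, zero_mul, zero_mul]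
    · simp only
      rw [ih (fun e he => hP e (by omega)) t (hP d (by omega) s t hs h0)]

theorem Rec_two {κ : ℕ → S → S → ℝ} {μ : ℕ → ℝ} (L : S → ℝ) (d : ℕ) (hκ : IsK (κ d))
    (hμ : μ (d + 1) = μ d) (h0 : μ d ≠ 0) (s : S) :
    Rec κ μ L (d + 2) s = (μ d)⁻¹ * Real.log (Ex (compK (κ (d + 1)) (κ d))
      (fun t => Real.exp (μ d * Rec κ μ L d t)) s) := by
  rw [Rec_succ, hμ, Ex_compK, funext (exp_mul_Rec_succ L hκ h0)]

theorem Ex_tilt_le {κ : ℕ → S → S → ℝ} (hκ : ∀ d, IsK (κ d)) {μ : ℕ → ℝ}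
    (hμ : ∀ e, 0 < μ e ∧ μ e ≤ 1) {L L' : S → ℝ} {B : ℝ} (h : ∀ t, |L t - L' t| ≤ B) (d : ℕ)
    {f : S → ℝ} (hf : ∀ t, 0 ≤ f t) (s : S) :
    Ex (tilt κ μ L d) f s ≤ Real.exp (2 * B) * Ex (tilt κ μ L' d) f s := by
  rw [← Ex_mul_left]
  refine sum_le_sum fun t _ => ?_
  have h1 := abs_le.mp (abs_Rec_sub_le hκ d (fun e _ => (hμ e).1) h t)
  have h2 := abs_le.mp (abs_Rec_sub_le hκ (d + 1) (fun e _ => (hμ e).1) h s)
  have hB : 0 ≤ B := (abs_nonneg _).trans (h s)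
  simp only [tilt]
  rw [← mul_assoc, mul_assoc (κ d s t) _ (Real.exp (2 * B)), ← Real.exp_add]
  refine mul_le_mul_of_nonneg_right (mul_le_mul_of_nonneg_left (Real.exp_le_exp.mpr ?_)
    ((hκ d).1 s t)) (hf t)
  nlinarith [(hμ d).1, (hμ d).2, h1.2, h2.1]

theorem Pr_tilt_le {κ : ℕ → S → S → ℝ} (hκ : ∀ d, IsK (κ d)) {μ : ℕ → ℝ}
    (hμ : ∀ e, 0 < μ e ∧ μ e ≤ 1) {L L' : S → ℝ} {B : ℝ} (h : ∀ t, |L t - L' t| ≤ B) (d n : ℕ)
    {f : S → ℝ} (hf : ∀ t, 0 ≤ f t) (s : S) :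
    Pr (tilt κ μ L) d n f s ≤ Real.exp (2 * B * n) * Pr (tilt κ μ L') d n f s := by
  induction n generalizing s with
  | zero => simp [Pr]
  | succ n ih =>
    refine ((isK_tilt μ L (hκ _)).Ex_mono ih s).trans ?_
    rw [Ex_mul_left, Nat.cast_succ, mul_add, mul_one, Real.exp_add, mul_assoc (Real.exp _)]
    exact mul_le_mul_of_nonneg_left (Ex_tilt_le hκ hμ h _
      (Pr_nonneg (fun d => isK_tilt μ L' (hκ d)) d n hf) s) (Real.exp_pos _).le

theorem casc_exp_aux {m B x : ℝ} (hm : 0 < m) (hm1 : m ≤ 1) (hx : |x| ≤ B) :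
    Real.exp (m * x) - 1 - m * x ≤ m * (m * (B ^ 2 * Real.exp B)) := by
  have hB : 0 ≤ B := (abs_nonneg _).trans hx
  have h1 : (m * x) ^ 2 ≤ m * (m * B ^ 2) := by
    rw [mul_pow, ← mul_assoc, ← sq, ← sq_abs x]
    gcongr
  have h2 : m * x ≤ B := by nlinarith [(abs_le.mp hx).2, mul_nonneg (sub_nonneg.mpr hm1) hB]
  generalize m * x = u at h1 h2
  have h3 : Real.exp u - 1 ≤ u * Real.exp u := by
    have := mul_le_mul_of_nonneg_right (Real.add_one_le_exp (-u)) (Real.exp_pos u).le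
    rw [← Real.exp_add, neg_add_cancel, Real.exp_zero] at this
    linarith
  have h4 := Real.add_one_le_exp u
  have h5 : Real.exp u - 1 - u ≤ u ^ 2 * Real.exp B := by
    rcases le_total 0 u with h | h
    · nlinarith [mul_le_mul_of_nonneg_left h3 h,
        mul_le_mul_of_nonneg_left (Real.exp_le_exp.mpr h2) (sq_nonneg u)]
    · nlinarith [mul_le_mul_of_nonpos_left h4 h,
        mul_le_mul_of_nonneg_left (Real.one_le_exp hB) (sq_nonneg u)]
  nlinarith [mul_le_mul_of_nonneg_right h1 (Real.exp_pos B).le]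

theorem casc_exp_le {m B x : ℝ} (hm : 0 < m) (hm1 : m ≤ 1) (hx : |x| ≤ 2 * B) :
    Real.exp (m * x) - 1 - m * x ≤ m * (m * (4 * B ^ 2 * Real.exp (2 * B))) :=
  (casc_exp_aux hm hm1 hx).trans_eq (by ring)

/-- A step with a small parameter is close to a plain expectation. -/
theorem abs_step_sub_Ex_le {κ : S → S → ℝ} (hκ : IsK κ) {m B : ℝ} (hm : 0 < m) (hm1 : m ≤ 1)
    {X : S → ℝ} (hX : ∀ t, |X t| ≤ B) (s : S) :
    |m⁻¹ * Real.log (Ex κ (fun t => Real.exp (m * X t)) s) - Ex κ X s| ≤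
      m * (4 * B ^ 2 * Real.exp (2 * B)) := by
  have hB : 0 ≤ B := (abs_nonneg _).trans (hX s)
  have ha := hκ.abs_Ex_le hX s
  set a := Ex κ X s with ha'
  have hY : ∀ t, |X t - a| ≤ 2 * B := fun t => (abs_sub _ _).trans (by linarith [hX t])
  have e0 : Ex κ (fun t => m * (X t - a)) s = 0 := by
    rw [Ex_mul_left, Ex_sub, hκ.Ex_const, sub_self, mul_zero]
  have h1 := hκ.Ex_mono (f := fun t => m * (X t - a) + 1)
    (fun t => Real.add_one_le_exp (m * (X t - a))) s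
  have h2 := hκ.Ex_mono (f := fun t => Real.exp (m * (X t - a)))
    (g := fun t => m * (X t - a) + (1 + m * (m * (4 * B ^ 2 * Real.exp (2 * B))))) (fun t => by
      have := casc_exp_le hm hm1 (hY t)
      linarith) s
  rw [Ex_add, e0, hκ.Ex_const, zero_add] at h1 h2
  have e1 : Ex κ (fun t => Real.exp (m * X t)) s =
      Real.exp (m * a) * Ex κ (fun t => Real.exp (m * (X t - a))) s := by
    rw [← Ex_mul_left]
    simp only [← Real.exp_add, mul_sub, add_sub_cancel]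
  have h3 := Real.log_nonneg h1
  have h4 := Real.log_le_sub_one_of_pos (zero_lt_one.trans_le h1)
  rw [e1, Real.log_mul (Real.exp_pos _).ne' (zero_lt_one.trans_le h1).ne', Real.log_exp, mul_add,
    inv_mul_cancel_left₀ hm.ne', add_sub_cancel_left,
    abs_of_nonneg (mul_nonneg (inv_nonneg.mpr hm.le) h3), inv_mul_le_iff₀ hm]
  linarith

theorem abs_Nt_add_le {m B x : ℝ} (hm : 0 < m) (hm1 : m ≤ 1) (hx : |x| ≤ B) :
    |(1 - Real.exp (m * x)) / m + x| ≤ m * (B ^ 2 * Real.exp B) := by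
  have h1 := Real.add_one_le_exp (m * x)
  have h2 := casc_exp_aux hm hm1 hx
  have e : (1 - Real.exp (m * x)) / m + x = -((Real.exp (m * x) - 1 - m * x) / m) := by
    field_simp
    ring
  rw [e, abs_neg, abs_of_nonneg (div_nonneg (by linarith) hm.le), div_le_iff₀' hm]
  linarith

/-! ### The finite trial functional -/

section TfinL

variable {J J' : Type} [Fintype J] [DecidableEq J] [Fintype J'] [DecidableEq J'] {m : Msg S}

theorem casc_Epi_inj {q : S → ℝ} (hq : IsPr q) (e : J' → J) (he : Function.Injective e)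
    (G : (J' → S) → ℝ) : Epi q (fun t : J → S => G fun j => t (e j)) = Epi q G := by
  obtain ⟨a₀, -, -⟩ := exists_ne_zero_of_sum_ne_zero (s := univ) (f := q)
    (by rw [hq.2]; exact one_ne_zero)
  exact isMor_piK_comp (κ := fun _ _ t => q t) (d := 0) ⟨fun _ => hq.1, fun _ => hq.2⟩ e he G
    fun _ => a₀

theorem Tfin_const (hm : m.Good) (a : ℝ) : Tfin m (fun _ : J → ℝ => a) = Real.log a := by
  refine Eq.trans ?_ (Epi_const (ι := J) ⟨hm.2.1, hm.2.2.1⟩ (Real.log a))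
  refine sum_congr rfl fun t _ => ?_
  rw [Rec_const (fun d => isK_piK J (hm.1 d)) _ _ fun e he => (hm.2.2.2.2.1 e he).1.ne']

theorem Tfin_comp_inj (hm : m.Good) (e : J' → J) (he : Function.Injective e)
    (F : (J' → ℝ) → ℝ) : Tfin m (fun y : J → ℝ => F (fun j => y (e j))) = Tfin m F := by
  refine Eq.trans (sum_congr rfl fun t _ => ?_) (casc_Epi_inj ⟨hm.2.1, hm.2.2.1⟩ e he _)
  beta_reduce
  rw [← Rec_mor _ _ _ fun d _ => isMor_piK_comp (hm.1 d) e he]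

theorem Tfin_congr (hm : m.Good) {F G : (J → ℝ) → ℝ} (h : ∀ y, Cube y → F y = G y) :
    Tfin m F = Tfin m G := by
  unfold Tfin
  simp only [fun t : J → S => h (fun j => m.xv (t j)) fun j => hm.2.2.2.1 _]

theorem Tfin_mul_sum (hm : m.Good) (F : (J → ℝ) → ℝ) (G : (J' → ℝ) → ℝ)
    (hF : ∀ y, Cube y → 0 < F y) (hG : ∀ y, Cube y → 0 < G y) :
    Tfin m (fun y : J ⊕ J' → ℝ => F (fun j => y (Sum.inl j)) * G (fun j => y (Sum.inr j))) =
      Tfin m F + Tfin m G := by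
  have hq : IsPr m.π := ⟨hm.2.1, hm.2.2.1⟩
  refine Eq.trans ?_ ((Epi_add _ _ _).trans (congrArg₂ (· + ·)
    (casc_Epi_inj hq Sum.inl Sum.inl_injective _) (casc_Epi_inj hq Sum.inr Sum.inr_injective _)))
  refine sum_congr rfl fun t _ => ?_
  congr 1
  have h1 := Rec_mor m.μ (fun x : (J → S) × (J' → S) => Real.log (F fun j => m.xv (x.1 j)) +
    Real.log (G fun j => m.xv (x.2 j))) m.r (fun d _ => isMor_of_equiv
      (κ := prodK (piK J m.κ) (piK J' m.κ) d) (κ' := piK (J ⊕ J') m.κ d)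
      (Equiv.sumArrowEquivProdArrow J J' S) fun s t => Fintype.prod_sum_type _) t
  rw [Rec_prodK (fun d => isK_piK J (hm.1 d)) (fun d => isK_piK J' (hm.1 d)) m.μ
    (fun x => Real.log (F fun j => m.xv (x j))) fun x => Real.log (G fun j => m.xv (x j))] at h1
  refine Eq.trans ?_ h1
  congr 1
  funext u
  exact Real.log_mul (hF _ fun j => hm.2.2.2.1 _).ne' (hG _ fun j => hm.2.2.2.1 _).ne'

theorem casc_Tfin_sep (hm : m.Good) (p : J → Prop) [DecidablePred p] (F G : (J → ℝ) → ℝ)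
    (hF : ∀ y, Cube y → 0 < F y) (hG : ∀ y, Cube y → 0 < G y)
    (lF : ∀ y y', (∀ j, p j → y j = y' j) → F y = F y')
    (lG : ∀ y y', (∀ j, ¬ p j → y j = y' j) → G y = G y') :
    Tfin m (fun y => F y * G y) = Tfin m F + Tfin m G := by
  let F1 : ({j // p j} → ℝ) → ℝ := fun z => F fun j => if h : p j then z ⟨j, h⟩ else 0
  let G1 : ({j // ¬ p j} → ℝ) → ℝ := fun z => G fun j => if h : ¬ p j then z ⟨j, h⟩ else 0
  have e1 : F = fun y => F1 fun j => y j.1 := funext fun y => lF _ _ fun j hj => by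
    rw [dif_pos hj]
  have e2 : G = fun y => G1 fun j => y j.1 := funext fun y => lG _ _ fun j hj => by
    rw [dif_pos hj]
  have h1 : ∀ z, Cube z → 0 < F1 z := fun z hz => hF _ fun j => by
    split_ifs
    · exact hz _
    · simp
  have h2 : ∀ z, Cube z → 0 < G1 z := fun z hz => hG _ fun j => by
    split_ifs
    · simp
    · exact hz _
  rw [e1, e2, Tfin_comp_inj hm _ Subtype.val_injective, Tfin_comp_inj hm _ Subtype.val_injective,
    ← Tfin_mul_sum hm F1 G1 h1 h2, ← Tfin_comp_inj hm _ (Equiv.sumCompl p).injective]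
  rfl

/-- Additivity over factors that use disjoint sets of messages. -/
theorem Tfin_prod (hm : m.Good) {α : Type} [Fintype α] [DecidableEq α] (π : J → α)
    (F : α → (J → ℝ) → ℝ) (hF : ∀ a y, Cube y → 0 < F a y)
    (hloc : ∀ a y y', (∀ j, π j = a → y j = y' j) → F a y = F a y') :
    Tfin m (fun y => ∏ a, F a y) = ∑ a, Tfin m (F a) := by
  have key : ∀ A : Finset α, Tfin m (fun y => ∏ a ∈ A, F a y) = ∑ a ∈ A, Tfin m (F a) := by
    intro A
    induction A using Finset.induction_on with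
    | empty => simpa using Tfin_const (J := J) hm 1
    | insert a A ha ih =>
      simp only [prod_insert ha, sum_insert ha]
      rw [← ih]
      refine casc_Tfin_sep hm (fun j => π j = a) _ _ (hF a)
        (fun y hy => prod_pos fun b _ => hF b y hy) (hloc a) fun y y' h => ?_
      exact prod_congr rfl fun b hb => hloc b y y' fun j hj => h j fun e => ha (e ▸ hj ▸ hb)
  exact key univ

theorem abs_Tfin_sub_le (hm : m.Good) {F G : (J → ℝ) → ℝ} {b : ℝ}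
    (h : ∀ y, Cube y → |Real.log (F y) - Real.log (G y)| ≤ b) : |Tfin m F - Tfin m G| ≤ b := by
  refine le_of_eq_of_le (congrArg _ (Epi_sub _ _ _).symm) (abs_Epi_le ⟨hm.2.1, hm.2.2.1⟩ fun t => ?_)
  exact abs_Rec_sub_le (fun d => isK_piK J (hm.1 d)) _ (fun e he => (hm.2.2.2.2.1 e he).1)
    (fun t => h _ fun j => hm.2.2.2.1 _) t

theorem abs_Tfin_le (hm : m.Good) {F : (J → ℝ) → ℝ} {b : ℝ}
    (h : ∀ y, Cube y → |Real.log (F y)| ≤ b) : |Tfin m F| ≤ b := by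
  refine abs_Epi_le ⟨hm.2.1, hm.2.2.1⟩ fun t => ?_
  exact abs_Rec_le (fun d => isK_piK J (hm.1 d)) _ (fun e he => (hm.2.2.2.2.1 e he).1)
    (fun t => h _ fun j => hm.2.2.2.1 _) t

end TfinL

end Vale.Agent.P168
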