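import Vale.Agent.P168.Poi
import Vale.Agent.P168.Merge

/-! Adding one site. -/

namespace Vale.Agent.P168

open Finset Filter

variable {Θ : Type} [Fintype Θ] {K : ℕ}

theorem isPr_qN {q : Θ → ℝ} (hq : IsPr q) (K : ℕ) {N : ℕ} (hN : 1 ≤ N) : IsPr (qN q K N) := by
  have : (N : ℝ) ≠ 0 := by positivity
  refine ⟨fun c => div_nonneg (hq.1 _) (by positivity), ?_⟩
  simp only [qN, Fintype.sum_prod_type, sum_const, card_univ, Fintype.card_fun, Fintype.card_fin,
    nsmul_eq_mul, Nat.cast_pow]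
  rw [← hq.2]
  exact sum_congr rfl fun a _ => by field_simp

theorem gam0_nonneg (K : ℕ) {lam : ℝ} (hlam : 0 ≤ lam) (N : ℕ) : 0 ≤ gam0 K lam N := by
  unfold gam0
  positivity

omit [Fintype Θ] in
theorem Ham_perm {N : ℕ} (th : Θ → Cl K) {l l' : List (Θ × (Fin K → Fin N))} (h : l.Perm l') :
    Ham th l = Ham th l' := funext fun _ => (h.map _).sum_eq

lemma cavU_abs_th (th : Θ → Cl K) (a : Θ) (σ : Fin K → Bool) : |th a σ| ≤ ‖th‖ :=
  (norm_le_pi_norm (th a) σ).trans (norm_le_pi_norm th a)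

theorem abs_Ham_le {N : ℕ} (th : Θ → Cl K) (l : List (Θ × (Fin K → Fin N))) (s : Fin N → Bool) :
    |Ham th l s| ≤ ‖th‖ * l.length := by
  induction l with
  | nil => simp [Ham]
  | cons c l ih =>
    rw [show Ham th (c :: l) s = (th c.1 fun j => s (c.2 j)) + Ham th l s from rfl,
      List.length_cons]
    push_cast
    linarith [abs_add_le (th c.1 fun j => s (c.2 j)) (Ham th l s),
      cavU_abs_th th c.1 fun j => s (c.2 j)]

theorem abs_fld_le {N : ℕ} (hv : Θ → ℝ) (ω : Fin N → Θ) (s : Fin N → Bool) :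
    |fld hv ω s| ≤ ‖hv‖ * N := by
  refine (abs_sum_le_sum_abs _ _).trans ((sum_le_card_nsmul _ _ ‖hv‖ fun v _ => ?_).trans_eq ?_)
  · rw [abs_mul, abs_spin, mul_one]
    exact norm_le_pi_norm hv (ω v)
  · simp [mul_comm]

/-- `A` is `1`-Lipschitz for the sup norm. -/
def Lip1 {N : ℕ} (A : ((Fin N → Bool) → ℝ) → ℝ) : Prop :=
  ∀ (H H' : (Fin N → Bool) → ℝ) (b : ℝ), (∀ s, |H s - H' s| ≤ b) → |A H - A H'| ≤ b

lemma cavU_linG_of_step {C : Type} {G : List C → ℝ} {b : ℝ}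
    (h : ∀ l c, |G (c :: l) - G l| ≤ b) : LinG G := by
  refine ⟨|G []|, b, fun l => ?_⟩
  induction l with
  | nil => simp
  | cons c l ih =>
    rw [List.length_cons]
    push_cast
    linarith [abs_sub_abs_le_abs_sub (G (c :: l)) (G l), h l c]

lemma cavU_step {N : ℕ} {A : ((Fin N → Bool) → ℝ) → ℝ} (hA : Lip1 A) (th : Θ → Cl K)
    (H : (Fin N → Bool) → ℝ) (l : List (Θ × (Fin K → Fin N))) (c : Θ × (Fin K → Fin N)) :
    |A (fun s => Ham th (c :: l) s + H s) - A (fun s => Ham th l s + H s)| ≤ ‖th‖ :=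
  hA _ _ _ fun s => by simpa [Ham] using cavU_abs_th th c.1 _

theorem Lip1.linG {N : ℕ} {A : ((Fin N → Bool) → ℝ) → ℝ} (hA : Lip1 A) (th : Θ → Cl K)
    (H : (Fin N → Bool) → ℝ) : LinG (fun l => A (fun s => Ham th l s + H s)) := cavU_linG_of_step (cavU_step hA th H)

/-- Comparison of two intensities. -/
lemma cavU_abs_PP_le {C : Type} [Fintype C] {ν ν' : C → ℝ} (h' : ∀ c, 0 ≤ ν' c)
    (h : ∀ c, ν' c ≤ ν c) {G : List C → ℝ} (hP : PermInv G) {b : ℝ}
    (hb : ∀ l c, |G (c :: l) - G l| ≤ b) :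
    |PP ν G - PP ν' G| ≤ b * (∑ c, ν c - ∑ c, ν' c) := by
  have := abs_PP_add_sub_le h' (fun c => sub_nonneg.2 (h c)) (cavU_linG_of_step hb) hP hb
  simpa only [add_sub_cancel, sum_sub_distrib] using this

lemma cavU_abs_mix {q : Θ → ℝ} (hq : IsPr q) {X Y : Θ → ℝ} {b : ℝ} (h : ∀ a, |X a - Y a| ≤ b) :
    |∑ a, q a * X a - ∑ a, q a * Y a| ≤ b := by
  rw [← sum_sub_distrib]
  refine (abs_sum_le_sum_abs _ _).trans ((sum_le_sum (g := fun a => q a * b) fun a _ => ?_).trans_eq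
    (by rw [← sum_mul, hq.2, one_mul]))
  rw [← mul_sub, abs_mul, abs_of_nonneg (hq.1 a)]
  exact mul_le_mul_of_nonneg_left (h a) (hq.1 a)

/-- Clauses attached to the new site. -/
abbrev cavU_D (Θ : Type) (K N : ℕ) : Type := Θ × (Fin K × (Fin K → Fin N))

noncomputable def cavU_qD (q : Θ → ℝ) (K N : ℕ) : cavU_D Θ K N → ℝ :=
  fun c => q c.1 / (Fintype.card (Fin K × (Fin K → Fin N)) : ℝ)

lemma cavU_isPr_qD {q : Θ → ℝ} (hq : IsPr q) (hK : 1 ≤ K) {N : ℕ} (hN : 1 ≤ N) :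
    IsPr (cavU_qD q K N) := by
  have : (Fintype.card (Fin K × (Fin K → Fin N)) : ℝ) ≠ 0 := by
    simp only [Fintype.card_prod, Fintype.card_fun, Fintype.card_fin]
    positivity
  refine ⟨fun c => div_nonneg (hq.1 _) (by positivity), ?_⟩
  rw [Fintype.sum_prod_type, ← hq.2]
  refine sum_congr rfl fun a _ => ?_
  simp only [cavU_qD, sum_const, card_univ, nsmul_eq_mul]
  field_simp

/-- Energy of the new spin `u`. -/
def cavU_en {N : ℕ} (th : Θ → Cl K) (h : ℝ) (l : List (cavU_D Θ K N)) (s : Fin N → Bool)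
    (u : Bool) : ℝ :=
  h * spin u + (l.map fun d => th d.1 fun j => if j = d.2.1 then u else s (d.2.2 j)).sum

noncomputable def cavU_W {N : ℕ} (A : ((Fin N → Bool) → ℝ) → ℝ) (th : Θ → Cl K) (h : ℝ)
    (H : (Fin N → Bool) → ℝ) (l : List (cavU_D Θ K N)) : ℝ :=
  A fun s => H s + Real.log (∑ u, Real.exp (cavU_en th h l s u))

omit [Fintype Θ] in
lemma cavU_W_perm {N : ℕ} (A : ((Fin N → Bool) → ℝ) → ℝ) (th : Θ → Cl K) (h : ℝ)
    (H : (Fin N → Bool) → ℝ) : PermInv (cavU_W A th h H) := fun l l' hl => by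
  simp only [cavU_W, cavU_en, fun f : cavU_D Θ K N → ℝ => (hl.map f).sum_eq]

lemma cavU_W_step {N : ℕ} {A : ((Fin N → Bool) → ℝ) → ℝ} (hA : Lip1 A) (th : Θ → Cl K) (h : ℝ)
    (H : (Fin N → Bool) → ℝ) (l : List (cavU_D Θ K N)) (c : cavU_D Θ K N) :
    |cavU_W A th h H (c :: l) - cavU_W A th h H l| ≤ ‖th‖ :=
  hA _ _ _ fun s => by
    rw [add_sub_add_left_eq_sub]
    exact abs_log_sum_exp_sub_le fun u => by simpa [cavU_en] using cavU_abs_th th c.1 _

lemma cavU_lip_PP {N : ℕ} {A : ((Fin N → Bool) → ℝ) → ℝ} (hA : Lip1 A) (th : Θ → Cl K) (h : ℝ)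
    {ν : cavU_D Θ K N → ℝ} (hν : ∀ c, 0 ≤ ν c) : Lip1 fun H => PP ν (cavU_W A th h H) := by
  intro H H' b hb
  simpa using abs_PP_sub_le hν (cavU_linG_of_step (cavU_W_step hA th h H))
    (cavU_linG_of_step (cavU_W_step hA th h H')) (a := b) (b := 0) fun l => by
      simpa [cavU_W] using hA _ _ b fun s => by simpa using hb s

/-- Splitting the data of the cavity clauses. -/
def cavU_equiv (M K N : ℕ) :
    (Fin M → Fin K) × (Fin M × Fin K → Fin N) ≃ (Fin M → Fin K × (Fin K → Fin N)) where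
  toFun p k := (p.1 k, fun j => p.2 (k, j))
  invFun f := (fun k => (f k).1, fun x => (f x.1).2 x.2)
  left_inv _ := rfl
  right_inv _ := rfl

lemma cavU_eq {N : ℕ} {A : ((Fin N → Bool) → ℝ) → ℝ} (hA : Lip1 A) (hN : 1 ≤ N)
    (hK : 1 ≤ K) {q : Θ → ℝ} (hq : IsPr q) (th : Θ → Cl K) (hv : Θ → ℝ) {lam : ℝ}
    (hlam : 0 ≤ lam) (H : (Fin N → Bool) → ℝ) :
    cavU q th hv lam A H =
      ∑ a, q a * PP (fun c => K * lam * cavU_qD q K N c) (cavU_W A th (hv a) H) := by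
  have : Nonempty (Fin K) := ⟨⟨0, hK⟩⟩
  have : Nonempty (Fin N) := ⟨⟨0, hN⟩⟩
  have hD := cavU_isPr_qD hq hK hN
  simp only [← PP_mul_left]
  rw [← PP_sum (fun c => mul_nonneg (by positivity) (hD.1 c)) _ fun a => ?_, PP_eq_poi hD]
  · refine tsum_congr fun M => ?_
    unfold cavU_qD
    rw [Epi_prod_unif]
    congr 2
    funext ω
    rw [avg_sum]
    refine sum_congr rfl fun a _ => ?_
    rw [avg_mul_left, ← avg_equiv (cavU_equiv M K N), avg_prod]
    simp only [cavU_W, cavU_en, YU, cavU_equiv, List.map_ofFn, List.sum_ofFn, Real.exp_add,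
      Real.exp_sum, Function.comp, Equiv.coe_fn_mk]
  · refine cavU_linG_of_step (b := q a * ‖th‖) fun l c => ?_
    rw [← mul_sub, abs_mul, abs_of_nonneg (hq.1 a)]
    exact mul_le_mul_of_nonneg_left (cavU_W_step hA th _ H l c) (hq.1 a)

omit [Fintype Θ] in
lemma cavU_qN_eq (q : Θ → ℝ) (K N : ℕ) :
    qN q K N = fun c => q c.1 / (Fintype.card (Fin K → Fin N) : ℝ) := by
  funext c
  simp [qN]

lemma cavU_cavV_eq {N : ℕ} (A : ((Fin N → Bool) → ℝ) → ℝ) (hN : 1 ≤ N) {q : Θ → ℝ}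
    (hq : IsPr q) (th : Θ → Cl K) (lam : ℝ) (H : (Fin N → Bool) → ℝ) :
    cavV q th lam A H =
      PP (fun c => (K - 1) * lam * qN q K N c) fun l => A fun s => Ham th l s + H s := by
  have : Nonempty (Fin N) := ⟨⟨0, hN⟩⟩
  rw [PP_eq_poi (isPr_qN hq K hN)]
  refine tsum_congr fun M => ?_
  rw [cavU_qN_eq, Epi_prod_unif]
  congr 2
  funext ω
  rw [← avg_equiv (Equiv.curry (Fin M) (Fin K) (Fin N))]
  simp only [YV, Ham, List.map_ofFn, List.sum_ofFn, ← Real.exp_sum, Real.log_exp, Function.comp,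
    Equiv.curry_apply, Function.curry, add_comm]

theorem Lip1.cavU {N : ℕ} {A : ((Fin N → Bool) → ℝ) → ℝ} (hA : Lip1 A) (hN : 1 ≤ N)
    (hK : 1 ≤ K) {q : Θ → ℝ} (hq : IsPr q) (th : Θ → Cl K) (hv : Θ → ℝ) {lam : ℝ}
    (hlam : 0 ≤ lam) : Lip1 (cavU q th hv lam A) := by
  intro H H' b hb
  rw [cavU_eq hA hN hK hq th hv hlam, cavU_eq hA hN hK hq th hv hlam]
  refine cavU_abs_mix hq fun a => cavU_lip_PP hA th _ (fun c => ?_) H H' b hb
  exact mul_nonneg (by positivity) ((cavU_isPr_qD hq hK hN).1 c)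

theorem Lip1.cavV {N : ℕ} {A : ((Fin N → Bool) → ℝ) → ℝ} (hA : Lip1 A) (hN : 1 ≤ N)
    (hK : 1 ≤ K) {q : Θ → ℝ} (hq : IsPr q) (th : Θ → Cl K) {lam : ℝ}
    (hlam : 0 ≤ lam) : Lip1 (cavV q th lam A) := by
  intro H H' b hb
  have hK' : (1 : ℝ) ≤ K := by exact_mod_cast hK
  rw [cavU_cavV_eq A hN hq, cavU_cavV_eq A hN hq]
  simpa using abs_PP_sub_le (fun c => mul_nonneg (mul_nonneg (sub_nonneg.2 hK') hlam)
    ((isPr_qN hq K hN).1 c)) (hA.linG th H) (hA.linG th H') (a := b) (b := 0) fun l => by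
      simpa using hA _ _ b fun s => by simpa using hb s

/-- Image of a weight. -/
noncomputable def cavU_push {C C' : Type} [Fintype C'] (e : C' → C) (ν : C' → ℝ) : C → ℝ := by
  classical exact fun c => ∑ c' ∈ univ.filter fun c' => e c' = c, ν c'

lemma cavU_push_sum {C C' : Type} [Fintype C] [Fintype C'] (e : C' → C) (ν : C' → ℝ)
    (F : C → ℝ) : ∑ c, cavU_push e ν c * F c = ∑ c', ν c' * F (e c') := by
  classical
  simp only [cavU_push, sum_filter, sum_mul, ite_mul, zero_mul]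
  rw [sum_comm]
  simp

lemma cavU_push_nonneg {C C' : Type} [Fintype C'] (e : C' → C) {ν : C' → ℝ} (h : ∀ c, 0 ≤ ν c)
    (c : C) : 0 ≤ cavU_push e ν c := sum_nonneg fun _ _ => h _

lemma cavU_push_zero {C C' : Type} [Fintype C'] (e : C' → C) (ν : C' → ℝ) {c : C}
    (h : ∀ c', e c' ≠ c) : cavU_push e ν c = 0 :=
  sum_eq_zero fun c' hc => absurd (by simpa using hc) (h c')

lemma cavU_push_le {C C' X : Type} [Fintype C'] [Fintype X] (e : C' → C) (ν : C' → ℝ) (c : C)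
    (φ : C' → X) (hφ : ∀ x y, e x = c → e y = c → φ x = φ y → x = y) {B : ℝ} (hB : 0 ≤ B)
    (h : ∀ x, e x = c → ν x ≤ B) : cavU_push e ν c ≤ Fintype.card X * B := by
  classical
  refine (sum_le_card_nsmul _ _ B fun x hx => h x (by simpa using hx)).trans ?_
  rw [nsmul_eq_mul]
  refine mul_le_mul_of_nonneg_right (Nat.cast_le.2 (card_le_card_of_injOn φ (fun _ _ => by simp)
    fun x hx y hy hxy => hφ x y (by simpa using hx) (by simpa using hy) hxy)) hB

def cavU_e0 {N : ℕ} (c : Θ × (Fin K → Fin N)) : Θ × (Fin K → Fin (N + 1)) :=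
  (c.1, fun j => (c.2 j).castSucc)

def cavU_e1 {N : ℕ} (c : cavU_D Θ K N) : Θ × (Fin K → Fin (N + 1)) :=
  (c.1, fun j => if j = c.2.1 then Fin.last N else (c.2.2 j).castSucc)

lemma cavU_dom {q : Θ → ℝ} (hq : IsPr q) (hK : 1 ≤ K) {lam : ℝ} (hlam : 0 ≤ lam) {N : ℕ}
    (hN : 1 ≤ N) (c : Θ × (Fin K → Fin (N + 1))) :
    cavU_push cavU_e0 (fun c => gam0 K lam N * qN q K N c) c +
      cavU_push cavU_e1 (fun c => K * lam * ((N : ℝ) / ((N : ℝ) + 1)) ^ (K - 1) *
        cavU_qD q K N c) c ≤ lam * ((N + 1 : ℕ) : ℝ) * qN q K (N + 1) c := by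
  have hN' : (N : ℝ) ≠ 0 := by positivity
  have hK' : (K : ℝ) ≠ 0 := by positivity
  have hc := hq.1 c.1
  by_cases h : ∃ j, c.2 j = Fin.last N
  · obtain ⟨j, hj⟩ := h
    rw [cavU_push_zero _ _ fun c' hc' => Fin.castSucc_ne_last (c'.2 j) (by rw [← hj, ← hc']; rfl),
      zero_add]
    refine (cavU_push_le _ _ c (fun x => x.2.2 x.2.1) ?_ (B := K * lam *
      ((N : ℝ) / ((N : ℝ) + 1)) ^ (K - 1) * (q c.1 / (K * N ^ K))) (by positivity)
      fun x hx => by simp [cavU_qD, ← hx, cavU_e1]).trans_eq ?_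
    · rintro ⟨a, l, i⟩ ⟨a', l', i'⟩ hx hy hxy
      obtain ⟨rfl, h2⟩ := Prod.mk.inj (hx.trans hy.symm)
      obtain rfl : l = l' := by
        by_contra hl
        have := congrFun h2 l
        simp only [if_true, if_neg hl] at this
        exact Fin.castSucc_ne_last _ this.symm
      congr 2
      funext k
      by_cases hk : k = l
      · subst hk
        exact hxy
      · simpa [hk] using congrFun h2 k
    · obtain ⟨k, rfl⟩ : ∃ k, K = k + 1 := ⟨K - 1, by omega⟩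
      simp only [qN, Fintype.card_fin, Nat.add_sub_cancel, div_pow]
      push_cast
      field_simp
      ring
  · rw [cavU_push_zero cavU_e1 _ fun c' hc' => h ⟨c'.2.1, by simp [← hc', cavU_e1]⟩, add_zero]
    refine (cavU_push_le _ _ c (fun _ => ()) ?_ (B := gam0 K lam N * (q c.1 / N ^ K))
      (mul_nonneg (gam0_nonneg K hlam N) (by positivity))
      fun x hx => by simp [qN, ← hx, cavU_e0]).trans_eq ?_
    · rintro ⟨a, i⟩ ⟨a', i'⟩ hx hy -
      obtain ⟨rfl, h2⟩ := Prod.mk.inj (hx.trans hy.symm)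
      congr 1
      funext k
      simpa using congrFun h2 k
    · simp only [qN, gam0, Fintype.card_unit, div_pow]
      push_cast
      field_simp

omit [Fintype Θ] in
lemma cavU_log {N : ℕ} (th : Θ → Cl K) (hv : Θ → ℝ) (ω : Fin N → Θ) (a : Θ)
    (l₀ : List (Θ × (Fin K → Fin N))) (l₁ : List (cavU_D Θ K N)) (s : Fin N → Bool) :
    Real.log (∑ u : Bool, Real.exp
      (Ham th (l₀.map cavU_e0 ++ l₁.map cavU_e1) (Fin.snoc (α := fun _ => Bool) s u) +
        fld hv (Fin.snoc (α := fun _ => Θ) ω a) (Fin.snoc (α := fun _ => Bool) s u))) =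
      Ham th l₀ s + fld hv ω s + Real.log (∑ u, Real.exp (cavU_en th (hv a) l₁ s u)) := by
  have e : ∀ u : Bool, Ham th (l₀.map cavU_e0 ++ l₁.map cavU_e1)
      (Fin.snoc (α := fun _ => Bool) s u) +
        fld hv (Fin.snoc (α := fun _ => Θ) ω a) (Fin.snoc (α := fun _ => Bool) s u) =
      Ham th l₀ s + fld hv ω s + cavU_en th (hv a) l₁ s u := fun u => by
    simp only [Ham, fld, cavU_en, List.map_append, List.sum_append, List.map_map,
      Function.comp_def, cavU_e0, cavU_e1, Fin.sum_univ_castSucc, Fin.snoc_castSucc,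
      Fin.snoc_last, apply_ite (Fin.snoc (α := fun _ => Bool) s u)]
    ring
  simp only [e, Real.exp_add _ (cavU_en th (hv a) l₁ s _), ← mul_sum]
  rw [Real.log_mul (Real.exp_pos _).ne' (sum_pos (fun _ _ => Real.exp_pos _) univ_nonempty).ne',
    Real.log_exp]

lemma cavU_main {q : Θ → ℝ} (hq : IsPr q) (hK : 1 ≤ K) (th : Θ → Cl K) (hv : Θ → ℝ) {lam : ℝ}
    (hlam : 0 ≤ lam) {N : ℕ} (hN : 1 ≤ N) {A : ((Fin N → Bool) → ℝ) → ℝ}
    {A' : ((Fin (N + 1) → Bool) → ℝ) → ℝ} {δ : ℝ} (hA : Lip1 A) (hA' : Lip1 A')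
    (hδ : ∀ H : (Fin (N + 1) → Bool) → ℝ, |A' H - A (fun s => Real.log (∑ u : Bool,
      Real.exp (H (Fin.snoc (α := fun _ => Bool) s u))))| ≤ δ) (ω : Fin N → Θ) (a : Θ) :
    |PP (fun c => lam * ((N + 1 : ℕ) : ℝ) * qN q K (N + 1) c)
        (fun l => A' fun s => Ham th l s + fld hv (Fin.snoc (α := fun _ => Θ) ω a) s) -
      PP (fun c => gam0 K lam N * qN q K N c) fun l => PP (fun c => K * lam * cavU_qD q K N c)
        (cavU_W A th (hv a) fun s => Ham th l s + fld hv ω s)| ≤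
      δ + ‖th‖ * (lam * ∑ j ∈ range K, ((N : ℝ) / ((N : ℝ) + 1)) ^ j + K * lam -
        2 * (K * lam * ((N : ℝ) / ((N : ℝ) + 1)) ^ (K - 1))) := by
  set x : ℝ := (N : ℝ) / ((N : ℝ) + 1) with hx
  have hx0 : 0 ≤ x := by positivity
  have hx1 : x ≤ 1 := div_le_one_of_le₀ (by linarith) (by positivity)
  have hD := cavU_isPr_qD hq hK hN
  have h0 : ∀ c, 0 ≤ gam0 K lam N * qN q K N c := fun c =>
    mul_nonneg (gam0_nonneg K hlam N) ((isPr_qN hq K hN).1 c)
  have h1 : ∀ c, 0 ≤ K * lam * x ^ (K - 1) * cavU_qD q K N c := fun c =>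
    mul_nonneg (by positivity) (hD.1 c)
  set G : List (Θ × (Fin K → Fin (N + 1))) → ℝ :=
    fun l => A' fun s => Ham th l s + fld hv (Fin.snoc (α := fun _ => Θ) ω a) s with hG
  have hP : PermInv G := fun l l' h => by simp only [hG, Ham_perm th h]
  have hGl : LinG G := hA'.linG th _
  have k1 := cavU_abs_PP_le (fun c => add_nonneg (cavU_push_nonneg _ h0 c)
    (cavU_push_nonneg _ h1 c)) (cavU_dom hq hK hlam hN) hP (cavU_step hA' th _)
  have m0 := cavU_push_sum cavU_e0 (fun c => gam0 K lam N * qN q K N c) fun _ => 1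
  have m1 := cavU_push_sum cavU_e1 (fun c => K * lam * x ^ (K - 1) * cavU_qD q K N c) fun _ => 1
  simp only [mul_one, ← mul_sum, (isPr_qN hq K hN).2, hD.2] at m0 m1
  rw [PP_add (cavU_push_nonneg _ h0) (cavU_push_nonneg _ h1) hGl hP, sum_add_distrib, m0, m1,
    ← mul_sum, (isPr_qN hq K (Nat.le_add_left 1 N)).2, mul_one,
    PP_map cavU_e0 (cavU_push_sum _ _)] at k1
  have k2 := abs_PP_sub_le h0 ((hGl.inner (cavU_push_nonneg cavU_e1 h1)).comp_map cavU_e0)
    ((cavU_lip_PP hA th (hv a) (ν := fun c => K * lam * cavU_qD q K N c)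
      fun c => mul_nonneg (by positivity) (hD.1 c)).linG th (fld hv ω))
    (a := δ + ‖th‖ * (K * lam - K * lam * x ^ (K - 1))) (b := 0) fun l₀ => by
      have j1 := abs_PP_sub_le h1 ((hGl.append_left (l₀.map cavU_e0)).comp_map cavU_e1)
        (cavU_linG_of_step (cavU_W_step hA th (hv a) fun s => Ham th l₀ s + fld hv ω s))
        (a := δ) (b := 0) fun l₁ => by
          have := hδ fun s => Ham th (l₀.map cavU_e0 ++ l₁.map cavU_e1) s +
            fld hv (Fin.snoc (α := fun _ => Θ) ω a) s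
          simp only [cavU_log] at this
          simpa [cavU_W] using this
      have j2 := cavU_abs_PP_le (ν := fun c => K * lam * cavU_qD q K N c) h1
        (fun c => mul_le_mul_of_nonneg_right
          (mul_le_of_le_one_right (by positivity) (pow_le_one₀ hx0 hx1)) (hD.1 c))
        (cavU_W_perm A th (hv a) fun s => Ham th l₀ s + fld hv ω s) (cavU_W_step hA th _ _)
      simp only [← mul_sum, hD.2, mul_one] at j2
      rw [PP_map cavU_e1 (cavU_push_sum _ _)]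
      rw [abs_sub_comm] at j2
      exact (abs_sub_le _ _ _).trans (by linarith)
  have e : lam * ((N + 1 : ℕ) : ℝ) - gam0 K lam N = lam * ∑ j ∈ range K, x ^ j := by
    have e1 := mul_neg_geom_sum x K
    have e2 : ((N : ℝ) + 1) * (1 - x) = 1 := by
      rw [hx]
      field_simp
      ring
    rw [gam0, ← hx]
    push_cast
    linear_combination (-lam * (N + 1)) * e1 + lam * (∑ j ∈ range K, x ^ j) * e2
  refine (abs_sub_le _ _ _).trans ((add_le_add k1 k2).trans_eq ?_)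
  rw [← e]
  ring

/-- The `(N+1)`-system in terms of the cavity system. -/
theorem cavity_U {q : Θ → ℝ} (hq : IsPr q) (hK : 1 ≤ K) (th : Θ → Cl K) (hv : Θ → ℝ) {lam : ℝ}
    (hlam : 0 ≤ lam) :
    ∃ η : ℕ → ℝ, Tendsto η atTop (nhds 0) ∧ ∀ (N : ℕ), 1 ≤ N →
      ∀ (A : ((Fin N → Bool) → ℝ) → ℝ) (A' : ((Fin (N + 1) → Bool) → ℝ) → ℝ) (δ : ℝ),
        Lip1 A → Lip1 A' →
        (∀ H : (Fin (N + 1) → Bool) → ℝ, |A' H - A (fun s => Real.log (∑ u : Bool,
          Real.exp (H (Fin.snoc (α := fun _ => Bool) s u))))| ≤ δ) →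
        |EH q th hv (N + 1) (lam * ((N + 1 : ℕ) : ℝ)) A' -
          EH q th hv N (gam0 K lam N) (cavU q th hv lam A)| ≤ δ + η N := by
  have hx : Tendsto (fun N : ℕ => (N : ℝ) / ((N : ℝ) + 1)) atTop (nhds 1) :=
    tendsto_natCast_div_add_atTop 1
  refine ⟨fun N => ‖th‖ * (lam * ∑ j ∈ range K, ((N : ℝ) / ((N : ℝ) + 1)) ^ j + K * lam -
    2 * (K * lam * ((N : ℝ) / ((N : ℝ) + 1)) ^ (K - 1))), ?_, fun N hN A A' δ hA hA' hδ => ?_⟩
  · have hc : Continuous fun x : ℝ =>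
        ‖th‖ * (lam * ∑ j ∈ range K, x ^ j + K * lam - 2 * (K * lam * x ^ (K - 1))) := by
      fun_prop
    have := (hc.tendsto 1).comp hx
    simp only [one_pow, sum_const, card_range, nsmul_eq_mul, mul_one] at this
    rwa [show ‖th‖ * (lam * K + K * lam - 2 * (K * lam)) = 0 by ring] at this
  have hD := cavU_isPr_qD hq hK hN
  have h0 : ∀ c, 0 ≤ gam0 K lam N * qN q K N c := fun c =>
    mul_nonneg (gam0_nonneg K hlam N) ((isPr_qN hq K hN).1 c)
  have hL : ∀ a, Lip1 fun H => PP (fun c => K * lam * cavU_qD q K N c) (cavU_W A th (hv a) H) :=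
    fun a => cavU_lip_PP hA th _ fun c => mul_nonneg (by positivity) (hD.1 c)
  rw [EH, Epi_snoc, EH, ← Epi_sub]
  refine abs_Epi_le hq fun ω => ?_
  simp only [cavU_eq hA hN hK hq th hv hlam]
  rw [PP_sum h0 _ fun a => ?_]
  · simp only [PP_mul_left]
    exact cavU_abs_mix hq fun a => cavU_main hq hK th hv hlam hN hA hA' hδ ω a
  · refine cavU_linG_of_step (b := q a * ‖th‖) fun l c => ?_
    rw [← mul_sub, abs_mul, abs_of_nonneg (hq.1 a)]
    exact mul_le_mul_of_nonneg_left (cavU_step (hL a) th _ l c) (hq.1 a)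

end Vale.Agent.P168
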