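import Vale.Agent.P168.Defs

namespace Vale.Agent.P168

open Finset Matrix
open scoped BigOperators

/-! ## Finite kernels and the Guerra recursion -/

/-- row-stochastic matrices -/
def Sto {S : Type} [Fintype S] (κ : Matrix S S ℝ) : Prop :=
  (∀ s t, 0 ≤ κ s t) ∧ ∀ s, ∑ t, κ s t = 1

/-- nonnegative matrices with positive row sums -/
def PosK {S : Type} [Fintype S] (κ : Matrix S S ℝ) : Prop :=
  (∀ s t, 0 ≤ κ s t) ∧ ∀ s, 0 < ∑ t, κ s t

/-- probability vectors -/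
def Prob {S : Type} [Fintype S] (w : S → ℝ) : Prop := (∀ s, 0 ≤ w s) ∧ ∑ s, w s = 1

/-- one step of the recursion, in logarithmic form -/
noncomputable def lse {S : Type} [Fintype S] (κ : Matrix S S ℝ) (a : ℝ) (X : S → ℝ) : S → ℝ :=
  fun s => Real.log (∑ t, κ s t * Real.exp (a * X t)) / a

/-- the tilted kernel -/
noncomputable def tilt {S : Type} [Fintype S] (κ : Matrix S S ℝ) (a : ℝ) (X : S → ℝ) :
    Matrix S S ℝ :=
  fun s t => κ s t * Real.exp (a * X t) / ∑ u, κ s u * Real.exp (a * X u)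

/-- two-step chains: from an o-node of height `d+1` the step `A d` leads to an e-node of height `d`,
and the step `B d` leads to an o-node of height `d`; `a d`, `b d` are the exponents -/
structure Ch (S : Type) where
  A : ℕ → Matrix S S ℝ
  B : ℕ → Matrix S S ℝ
  a : ℕ → ℝ
  b : ℕ → ℝ

variable {S : Type} [Fintype S]

/-- values at o-nodes -/
noncomputable def XO (c : Ch S) (X : S → ℝ) : ℕ → S → ℝ
  | 0 => X
  | d + 1 => lse (c.A d) (c.a d) (lse (c.B d) (c.b d) (XO c X d))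

/-- values at e-nodes -/
noncomputable def XE (c : Ch S) (X : S → ℝ) (d : ℕ) : S → ℝ := lse (c.B d) (c.b d) (XO c X d)

/-- the tilted chain -/
noncomputable def Ch.tl (c : Ch S) (X : S → ℝ) : Ch S :=
  ⟨fun d => tilt (c.A d) (c.a d) (XE c X d), fun d => tilt (c.B d) (c.b d) (XO c X d), c.a, c.b⟩

/-- all kernels below height `D` are stochastic -/
def Ch.Sto (c : Ch S) (D : ℕ) : Prop := ∀ d < D, P168.Sto (c.A d) ∧ P168.Sto (c.B d)

/-- all kernels below height `D` are nonnegative with positive row sums -/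
def Ch.Pos (c : Ch S) (D : ℕ) : Prop := ∀ d < D, PosK (c.A d) ∧ PosK (c.B d)

/-- strictly interlaced exponents, bounded below by `β` -/
structure Expo (a b : ℕ → ℝ) (D : ℕ) (β : ℝ) : Prop where
  b0 : b 0 = 1
  lt : ∀ d < D, b (d + 1) < a d ∧ a d < b d
  le : β ≤ b D
  pos : 0 < β

/-- weakly decreasing exponents, bounded below by `β` -/
structure Dec (b : ℕ → ℝ) (D : ℕ) (β : ℝ) : Prop where
  b0 : b 0 = 1
  anti : ∀ d < D, b (d + 1) ≤ b d
  le : β ≤ b D
  pos : 0 < β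

/-- `μ d` is the law of the o-node of height `d` -/
structure Path (c : Ch S) (D : ℕ) (μ : ℕ → S → ℝ) : Prop where
  top : Prob (μ D)
  step : ∀ d < D, μ d = (μ (d + 1) ᵥ* c.A d) ᵥ* c.B d

/-- law of the e-node of height `d` -/
noncomputable def me (c : Ch S) (μ : ℕ → S → ℝ) (d : ℕ) : S → ℝ := μ (d + 1) ᵥ* c.A d

/-- the path law started from `w` at height `D`, indexed by the number of steps down -/
noncomputable def dn (c : Ch S) (D : ℕ) (w : S → ℝ) : ℕ → S → ℝ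
  | 0 => w
  | j + 1 => (dn c D w j ᵥ* c.A (D - 1 - j)) ᵥ* c.B (D - 1 - j)

/-- the path law, indexed by the height -/
noncomputable def mo (c : Ch S) (D : ℕ) (w : S → ℝ) (d : ℕ) : S → ℝ := dn c D w (D - d)

/-- product chain -/
def Ch.prod {S' : Type} (c : Ch S) (c' : Ch S') : Ch (S × S') :=
  ⟨fun d s t => c.A d s.1 t.1 * c'.A d s.2 t.2, fun d s t => c.B d s.1 t.1 * c'.B d s.2 t.2,
    c.a, c.b⟩

/-- product kernel of independent copies -/
def piK (J : Type) [Fintype J] (κ : Matrix S S ℝ) : Matrix (J → S) (J → S) ℝ :=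
  fun s t => ∏ j, κ (s j) (t j)

/-- independent copies of a chain -/
def Ch.pi (J : Type) [Fintype J] (c : Ch S) : Ch (J → S) :=
  ⟨fun d => piK J (c.A d), fun d => piK J (c.B d), c.a, c.b⟩

/-- the power form of the recursion with the exponents `a d` replaced by `b (d+1)` -/
noncomputable def PO (c : Ch S) (y : S → ℝ) : ℕ → S → ℝ
  | 0 => y
  | d + 1 => c.A d *ᵥ fun β => (c.B d *ᵥ PO c y d) β ^ (c.b (d + 1) / c.b d)

/-- the same at e-nodes -/
noncomputable def PE (c : Ch S) (y : S → ℝ) (d : ℕ) : S → ℝ :=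
  fun β => (c.B d *ᵥ PO c y d) β ^ (c.b (d + 1) / c.b d)

/-- the chain with `a d` replaced by `b (d+1)` -/
def Ch.fl (c : Ch S) : Ch S := ⟨c.A, c.B, fun d => c.b (d + 1), c.b⟩

/-! ## Shapes -/

/-- trees of height `d` with arity at most `n` and leaf labels in `L` -/
def Sh (n : ℕ) (L : Type) : ℕ → Type
  | 0 => L
  | d + 1 => Σ c : Fin n, (Fin (c + 1) → Sh n L d)

instance Sh.fintype (n : ℕ) (L : Type) [h : Fintype L] : ∀ d, Fintype (Sh n L d)
  | 0 => h
  | d + 1 =>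
      letI := Sh.fintype n L d
      inferInstanceAs (Fintype (Σ c : Fin n, (Fin (c + 1) → Sh n L d)))

variable {n : ℕ} {L L' : Type}

/-- number of leaves -/
def lv : (d : ℕ) → Sh n L d → ℕ
  | 0, _ => 1
  | d + 1, t => ∑ q, lv d (t.2 q)

/-- relabelling -/
def Sh.map (f : L → L') : (d : ℕ) → Sh n L d → Sh n L' d
  | 0, t => f t
  | d + 1, t => ⟨t.1, fun q => Sh.map f d (t.2 q)⟩

/-- product of label weights over the leaves -/
def lw (Z : L → ℝ) : (d : ℕ) → Sh n L d → ℝ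
  | 0, t => Z t
  | d + 1, t => ∏ q, lw Z d (t.2 q)

/-- the unary lift -/
def Sh.up [NeZero n] (d : ℕ) (t : Sh n L d) : Sh n L (d + 1) := ⟨0, fun _ => t⟩

/-- actual evaluation: branching at e-nodes -/
noncomputable def act (c : Ch S) (z : L → S → ℝ) : (d : ℕ) → Sh n L d → S → ℝ
  | 0, t => z t
  | d + 1, t => c.A d *ᵥ fun β => ∏ q, (c.B d *ᵥ act c z d (t.2 q)) β

/-- actual evaluation at the e-node -/
noncomputable def eact (c : Ch S) (z : L → S → ℝ) (d : ℕ) (t : Sh n L (d + 1)) : S → ℝ :=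
  fun β => ∏ q, (c.B d *ᵥ act c z d (t.2 q)) β

/-- virtual evaluation: branching at o-nodes -/
noncomputable def vir (c : Ch S) (z : L → S → ℝ) : (d : ℕ) → Sh n L d → S → ℝ
  | 0, t => z t
  | d + 1, t => fun γ => ∏ q, (c.A d *ᵥ (c.B d *ᵥ vir c z d (t.2 q))) γ

/-- leading response of the actual shape `u` (observables `z`) to the probe of shape `t`
(observables `ξ`) -/
noncomputable def nu (c : Ch S) (ξ : L' → S → ℝ) (z : L → S → ℝ) :
    (d : ℕ) → Sh n L d → Sh n L' d → S → ℝ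
  | 0, u, t => fun s => ξ t s * z u s
  | d + 1, u, t => fun γ =>
      (c.b (d + 1) - ((t.1 : ℕ) + 1) * c.a d) * vir c ξ (d + 1) t γ * act c z (d + 1) u γ +
      ∑ q, (∏ q' ∈ univ.erase q, (c.A d *ᵥ (c.B d *ᵥ vir c ξ d (t.2 q'))) γ) *
        (c.A d *ᵥ fun β =>
          (c.a d - ((u.1 : ℕ) + 1) * c.b d) * (c.B d *ᵥ vir c ξ d (t.2 q)) β * eact c z d u β +
          ∑ r, (c.B d *ᵥ nu c ξ z d (u.2 r) (t.2 q)) β *
            ∏ r' ∈ univ.erase r, (c.B d *ᵥ act c z d (u.2 r')) β) γ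

/-- Sibuya weights: `sib θ c` is the coefficient of `x ^ (c+1)` in `1 - (1-x) ^ θ` -/
noncomputable def sib (θ : ℝ) : ℕ → ℝ
  | 0 => θ
  | c + 1 => sib θ c * ((c : ℝ) + 1 - θ) / ((c : ℝ) + 2)

/-- Galton-Watson weights of shapes -/
noncomputable def wt (b : ℕ → ℝ) : (d : ℕ) → Sh n L d → ℝ
  | 0, _ => 1
  | d + 1, t => sib (b (d + 1) / b d) t.1 * ∏ q, wt b d (t.2 q)

/-! ## Probes -/

/-- law of the signs with parameter `s` -/
noncomputable def sw {ι : Type} [Fintype ι] (s : ℝ) (ε : ι → Bool) : ℝ :=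
  (1 + s * ∏ q, sg (ε q)) / 2 ^ Fintype.card ι

/-- the tilt factor of a probe at an o-node, averaged over the sign draw -/
noncomputable def yO (c : Ch S) (lam : ℝ) (ξ : L' → S → ℝ) : (d : ℕ) → Sh n L' d → ℝ → S → ℝ
  | 0, t, s => fun γ => 1 + lam * s * ξ t γ
  | d + 1, t, s => fun γ => ∑ ε : Fin (t.1 + 1) → Bool, sw s ε *
      (c.A d *ᵥ fun β => 𝔼 q, (c.B d *ᵥ yO c lam ξ d (t.2 q) (sg (ε q))) β ^ (c.a d / c.b d)) γ ^
        (c.b (d + 1) / c.a d)

/-- tilt factor times the tilted evaluation of `u` -/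
noncomputable def nO (c : Ch S) (lam : ℝ) (ξ : L' → S → ℝ) (z : L → S → ℝ) :
    (d : ℕ) → Sh n L d → Sh n L' d → ℝ → S → ℝ
  | 0, u, t, s => fun γ => (1 + lam * s * ξ t γ) * z u γ
  | d + 1, u, t, s => fun γ => ∑ ε : Fin (t.1 + 1) → Bool, sw s ε *
      ((c.A d *ᵥ fun β => 𝔼 q, (c.B d *ᵥ yO c lam ξ d (t.2 q) (sg (ε q))) β ^ (c.a d / c.b d)) γ ^
        (c.b (d + 1) / c.a d - 1) *
      (c.A d *ᵥ fun β => 𝔼 q, (c.B d *ᵥ yO c lam ξ d (t.2 q) (sg (ε q))) β ^ (c.a d / c.b d) *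
        ∏ r, ((c.B d *ᵥ nO c lam ξ z d (u.2 r) (t.2 q) (sg (ε q))) β /
          (c.B d *ᵥ yO c lam ξ d (t.2 q) (sg (ε q))) β)) γ)

/-- falling factorial -/
def fall (x : ℝ) : ℕ → ℝ
  | 0 => 1
  | j + 1 => x * fall (x - 1) j

/-- normalising constant of a probe -/
noncomputable def nV (a b : ℕ → ℝ) : (d : ℕ) → Sh n L d → ℝ
  | 0, _ => 1
  | d + 1, t => fall (b (d + 1) / a d - 1) t.1 / a d *
      ∏ q, (a d * nV a b d (t.2 q) / ((t.1 : ℕ) + 1))

/-! ## Synchronisation functionals -/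

variable {I : Type} [Fintype I]

/-- observables with values in `[0,1]` -/
def Obs (z : I → Bool → S → ℝ) : Prop := ∀ i τ s, 0 ≤ z i τ s ∧ z i τ s ≤ 1

/-- spin indicators -/
def ind {S I : Type} (sp : S → I → Bool) (i : I) (τ : Bool) (s : S) : ℝ :=
  if sp s i = τ then 1 else 0

/-- tree moment at the e-node -/
noncomputable def ph (c : Ch S) (z : I → Bool → S → ℝ) (d : ℕ) (t : Sh n Bool d) (i : I) : S → ℝ :=
  c.B d *ᵥ act c (z i) d t

/-- squared martingale increment along the step `A d` -/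
noncomputable def inc (c : Ch S) (μ : ℕ → S → ℝ) (z : I → Bool → S → ℝ) (d : ℕ)
    (t : Sh n Bool d) : ℝ :=
  ∑ γ, μ (d + 1) γ * ∑ β, c.A d γ β * 𝔼 i, (ph c z d t i β - (c.A d *ᵥ ph c z d t i) γ) ^ 2

/-- accumulated increments below branching nodes -/
noncomputable def err (c : Ch S) (μ : ℕ → S → ℝ) (z : I → Bool → S → ℝ) :
    (d : ℕ) → Sh n Bool d → ℝ
  | 0, _ => 0
  | d + 1, t => ∑ q, (err c μ z d (t.2 q) + if (t.1 : ℕ) = 0 then 0 else inc c μ z d (t.2 q))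

/-- the same, counting also the increments at the top node -/
noncomputable def errp (c : Ch S) (μ : ℕ → S → ℝ) (z : I → Bool → S → ℝ) (d : ℕ)
    (t : Sh n Bool (d + 1)) : ℝ :=
  ∑ q, (err c μ z d (t.2 q) + inc c μ z d (t.2 q))

/-- size of the conditional covariance matrix at the e-node -/
noncomputable def ce (c : Ch S) (μ : ℕ → S → ℝ) (z : I → Bool → S → ℝ) (d : ℕ)
    (t : Sh n Bool d) : ℝ :=
  ∑ β, me c μ d β * 𝔼 i, 𝔼 i',
    |(c.B d *ᵥ act c (z i * z i') d t) β - ph c z d t i β * ph c z d t i' β|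

/-- size of the response matrix at the e-node -/
noncomputable def ga (c : Ch S) (μ : ℕ → S → ℝ) (z : I → Bool → S → ℝ) (d : ℕ)
    (t : Sh n Bool d) : ℝ :=
  ∑ β, me c μ d β * 𝔼 i, 𝔼 i', ((c.B d *ᵥ nu c (z i) (z i') d t t) β -
    c.b d * ph c z d t i' β * (c.B d *ᵥ vir c (z i) d t) β) ^ 2

/-- small response -/
def Resp (n : ℕ) (c : Ch S) (μ : ℕ → S → ℝ) (z : I → Bool → S → ℝ) (D : ℕ) (η : ℝ) : Prop :=
  ∀ d < D, ∀ t : Sh n Bool d, ga c μ z d t ≤ 1000 * inc c μ z d t + η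

/-- the approximate identity produced by the probes -/
def Hyp (n : ℕ) (c : Ch S) (μ : ℕ → S → ℝ) (z : I → Bool → S → ℝ) (D : ℕ) (lam η : ℝ) : Prop :=
  ∀ d < D, ∀ t : Sh n Bool d, ∀ s : ℝ, (s = -1 ∨ s = 0 ∨ s = 1) →
    ∑ γ, μ (d + 1) γ *
      |(∑ β, c.A d γ β * 𝔼 i, (c.B d *ᵥ yO c lam (z i) d t s) β ^ (c.a d / c.b d) *
          𝔼 i', ((c.B d *ᵥ nO c lam (z i) (z i') d t t s) β / (c.B d *ᵥ yO c lam (z i) d t s) β -
            (c.A d *ᵥ ph c z d t i') γ) ^ 2) -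
        (∑ β, c.A d γ β * 𝔼 i', (ph c z d t i' β - (c.A d *ᵥ ph c z d t i') γ) ^ 2) *
          ∑ β, c.A d γ β * 𝔼 i, (c.B d *ᵥ yO c lam (z i) d t s) β ^ (c.a d / c.b d)| ≤ η

/-! ## Finite trial data -/

/-- one-step recursion -/
noncomputable def frec (κ : ℕ → Matrix S S ℝ) (m : ℕ → ℝ) (X : S → ℝ) : ℕ → S → ℝ
  | 0 => X
  | d + 1 => lse (κ d) (m d) (frec κ m X d)

/-- finite trial data: level `d` is counted from the bottom -/
structure FD where
  Sm : Type
  [fin : Fintype Sm]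
  r : ℕ
  κ : ℕ → Matrix Sm Sm ℝ
  m : ℕ → ℝ
  w : Sm → ℝ
  x : Sm → ℝ

attribute [instance] FD.fin

/-- admissible finite trial data -/
structure FD.Ok (f : FD) : Prop where
  sto : ∀ d < f.r, Sto (f.κ d)
  prob : Prob f.w
  x_le : ∀ s, |f.x s| ≤ 1
  m_pos : ∀ d < f.r, 0 < f.m d
  m_lt : ∀ d < f.r, f.m d < 1
  m_anti : ∀ d, d + 1 < f.r → f.m (d + 1) < f.m d

/-- the finite version of `msgT` -/
noncomputable def FD.T (f : FD) (J : Type) [Fintype J] [DecidableEq J] (Y : (J → ℝ) → ℝ) : ℝ :=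
  ∑ s : J → f.Sm, (∏ j, f.w (s j)) *
    frec (fun d => piK J (f.κ d)) f.m (fun u => Real.log (Y fun j => f.x (u j))) f.r s

/-- multi-affine extension of `exp Φ` -/
noncomputable def ext {J : Type} [Fintype J] [DecidableEq J] (Φ : (J → Bool) → ℝ) (x : J → ℝ) : ℝ :=
  ∑ τ : J → Bool, Real.exp (Φ τ) * ∏ j, (1 + x j * sg (τ j)) / 2

/-- the finite trial data read off from a chain at the e-node `β` of height `d` -/
noncomputable def fdOf [DecidableEq S] [DecidableEq I] (c : Ch S) (sp : S → I → Bool) (d : ℕ)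
    (β : S) : FD where
  Sm := I × S
  r := d
  κ := fun e s t => if s.1 = t.1 then (c.B (e + 1) * c.A e) s.2 t.2 else 0
  m := fun e => c.b (e + 1)
  w := fun s => if s.2 = β then 1 / Fintype.card I else 0
  x := fun s => ∑ u, c.B 0 s.2 u * sg (sp u s.1)

/-- the grid of exponents -/
noncomputable def gb (k : ℕ) (d : ℕ) : ℝ := 1 - (d : ℝ) / k

/-- the grid of intermediate exponents -/
noncomputable def gA (k : ℕ) (δ : ℝ) (d : ℕ) : ℝ := gb k (d + 1) + δ

/-- configurations -/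
abbrev Cf (N : ℕ) : Type := Fin N → Bool

/-- log partition function -/
noncomputable def LZ {N : ℕ} (H : Cf N → ℝ) : ℝ := Real.log (∑ σ, Real.exp (H σ))

/-- summing out the last spin -/
noncomputable def red {N : ℕ} (H : Cf (N + 1) → ℝ) : Cf N → ℝ :=
  fun σ => Real.log (∑ ε : Bool, Real.exp (H (Fin.snoc σ ε)))

end Vale.Agent.P168
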