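import Vale.Agent.P168.Basic

namespace Vale.Agent.P168

open Finset Matrix MeasureTheory ProbabilityTheory
open scoped BigOperators NNReal

/-- the cube of messages -/
def Cube {J : Type} (x : J → ℝ) : Prop := ∀ j, |x j| ≤ 1

variable {J J' : Type} [Fintype J] [DecidableEq J] [Fintype J'] [DecidableEq J']

theorem ext_pos (Φ : (J → Bool) → ℝ) {x : J → ℝ} (hx : Cube x) : 0 < ext Φ x := by
  sorry

theorem log_ext_lip (Φ Φ' : (J → Bool) → ℝ) {x : J → ℝ} (hx : Cube x) :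
    |Real.log (ext Φ x) - Real.log (ext Φ' x)| ≤ ‖Φ - Φ'‖ := by
  sorry

theorem abs_log_ext_le (Φ : (J → Bool) → ℝ) {x : J → ℝ} (hx : Cube x) :
    |Real.log (ext Φ x)| ≤ ‖Φ‖ := by
  sorry

theorem FD.T_le_add {f : FD} (hf : f.Ok) {Y Y' : (J → ℝ) → ℝ} {c : ℝ}
    (h : ∀ x, Cube x → Real.log (Y x) ≤ Real.log (Y' x) + c) : f.T J Y ≤ f.T J Y' + c := by
  sorry

theorem FD.T_lip {f : FD} (hf : f.Ok) {Y Y' : (J → ℝ) → ℝ} {c : ℝ}
    (h : ∀ x, Cube x → |Real.log (Y x) - Real.log (Y' x)| ≤ c) : |f.T J Y - f.T J Y'| ≤ c := by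
  sorry

theorem FD.T_const {f : FD} (hf : f.Ok) (y : ℝ) : f.T J (fun _ => y) = Real.log y := by
  sorry

theorem FD.abs_T_le {f : FD} (hf : f.Ok) {Y : (J → ℝ) → ℝ} {c : ℝ}
    (h : ∀ x, Cube x → |Real.log (Y x)| ≤ c) : |f.T J Y| ≤ c := by
  sorry

theorem FD.T_ext_lip {f : FD} (hf : f.Ok) (Φ Φ' : (J → Bool) → ℝ) :
    |f.T J (ext Φ) - f.T J (ext Φ')| ≤ ‖Φ - Φ'‖ :=
  FD.T_lip hf fun _ hx => log_ext_lip Φ Φ' hx

theorem FD.abs_T_ext_le {f : FD} (hf : f.Ok) (Φ : (J → Bool) → ℝ) : |f.T J (ext Φ)| ≤ ‖Φ‖ :=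
  FD.abs_T_le hf fun _ hx => abs_log_ext_le Φ hx

/-- unused messages do not matter -/
theorem FD.T_inj {f : FD} (hf : f.Ok) (e : J ↪ J') (Y : (J → ℝ) → ℝ) :
    f.T J' (fun x => Y fun j => x (e j)) = f.T J Y := by
  sorry

/-- factors depending on disjoint sets of messages -/
theorem FD.T_prod {f : FD} (hf : f.Ok) {V : Type} [Fintype V] (g : J → V) (Y : V → (J → ℝ) → ℝ)
    (hpos : ∀ v x, Cube x → 0 < Y v x)
    (hdep : ∀ v x x', (∀ j, g j = v → x j = x' j) → Y v x = Y v x') :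
    f.T J (fun x => ∏ v, Y v x) = ∑ v, f.T J (Y v) := by
  sorry

/-- the spin form of `U` -/
noncomputable def phiU {K M : ℕ} (θ : Fin M → Cl K) (l : Fin M → Fin K) (h : ℝ)
    (τ : Fin M × Fin K → Bool) : ℝ :=
  Real.log (∑ ε : Bool, Real.exp (h * sg ε +
    ∑ k, θ k (Function.update (fun j => τ (k, j)) (l k) ε)))

/-- the spin form of `V` -/
noncomputable def phiV {K M : ℕ} (θ : Fin M → Cl K) (τ : Fin M × Fin K → Bool) : ℝ :=
  ∑ k, θ k fun j => τ (k, j)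

theorem cavU_eq {K M : ℕ} (θ : Fin M → Cl K) (l : Fin M → Fin K) (h : ℝ) :
    cavU θ l h = ext (phiU θ l h) := by
  sorry

theorem cavV_eq {K M : ℕ} (θ : Fin M → Cl K) : cavV θ = ext (phiV θ) := by
  sorry

theorem norm_phiU_le {K M : ℕ} (θ : Fin M → Cl K) (l : Fin M → Fin K) (h : ℝ) :
    ‖phiU θ l h‖ ≤ 1 + |h| + ∑ k, ‖θ k‖ := by
  sorry

theorem norm_phiV_le {K M : ℕ} (θ : Fin M → Cl K) : ‖phiV θ‖ ≤ ∑ k, ‖θ k‖ := by
  sorry

theorem continuous_phiU {K M : ℕ} (l : Fin M → Fin K) :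
    Continuous fun p : (Fin M → Cl K) × ℝ => phiU p.1 l p.2 := by
  sorry

theorem continuous_phiV {K M : ℕ} : Continuous fun θ : Fin M → Cl K => phiV θ := by
  sorry

/-- `T U` for an abstract functional -/
noncomputable def UT {K : ℕ} (ν : Measure (Cl K)) (μ : Measure ℝ) (lam : ℝ≥0)
    (T : (M : ℕ) → ((Fin M × Fin K → ℝ) → ℝ) → ℝ) : ℝ :=
  ∫ M, (∫ θ, (∫ h, (𝔼 l : Fin M → Fin K, T M (cavU θ l h)) ∂μ)
    ∂(Measure.pi fun _ : Fin M => ν)) ∂(poissonMeasure (K * lam))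

/-- `T V` for an abstract functional -/
noncomputable def VT {K : ℕ} (ν : Measure (Cl K)) (lam : ℝ≥0)
    (T : (M : ℕ) → ((Fin M × Fin K → ℝ) → ℝ) → ℝ) : ℝ :=
  ∫ M, (∫ θ, T M (cavV θ) ∂(Measure.pi fun _ : Fin M => ν)) ∂(poissonMeasure ((K - 1) * lam))

/-- the trial value of finite data -/
noncomputable def FD.val {K : ℕ} (f : FD) (ν : Measure (Cl K)) (μ : Measure ℝ) (lam : ℝ≥0) : ℝ :=
  UT ν μ lam (fun M => f.T (Fin M × Fin K)) - VT ν lam fun M => f.T (Fin M × Fin K)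

theorem TU_eq {K r : ℕ} (ν : Measure (Cl K)) (μ : Measure ℝ) (lam : ℝ≥0) (p : Trial r) :
    TU ν μ lam p = UT ν μ lam fun M => msgT p (Fin M × Fin K) := rfl

theorem TV_eq {K r : ℕ} (ν : Measure (Cl K)) (lam : ℝ≥0) (p : Trial r) :
    TV ν lam p = VT ν lam fun M => msgT p (Fin M × Fin K) := rfl

end Vale.Agent.P168
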