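import Vale.Agent.P168.Expand

namespace Vale.Agent.P168

open Finset Matrix
open scoped BigOperators

theorem lemA_conv {p x y : ℝ} (hp : p ≤ 0) (hx : 0 < x) (hy : 0 < y) :
    2 * ((x + y) / 2) ^ p ≤ x ^ p + y ^ p := by
  have hm : 0 < (x + y) / 2 := by positivity
  have h : ∀ u, 0 < u → ((x + y) / 2) ^ p * (1 + p * (u / ((x + y) / 2) - 1)) ≤ u ^ p := by
    intro u hu
    have h1 := Real.log_le_sub_one_of_pos (div_pos hu hm)
    have h2 := Real.add_one_le_exp (Real.log (u / ((x + y) / 2)) * p)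
    rw [← Real.rpow_def_of_pos (div_pos hu hm), Real.div_rpow hu.le hm.le,
      le_div_iff₀ (Real.rpow_pos_of_pos hm p)] at h2
    refine le_trans ?_ h2
    rw [mul_comm]
    exact mul_le_mul_of_nonneg_right (by nlinarith) (Real.rpow_pos_of_pos hm p).le
  refine le_of_eq_of_le ?_ (add_le_add (h x hx) (h y hy))
  field_simp
  ring

theorem lemA_conc {θ x y : ℝ} (h0 : 0 ≤ θ) (h1 : θ ≤ 1) (hx : 0 ≤ x) (hy : 0 ≤ y) :
    x ^ θ + y ^ θ ≤ 2 * ((x + y) / 2) ^ θ := by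
  have := (Real.concaveOn_rpow h0 h1).2 (Set.mem_Ici.2 hx) (Set.mem_Ici.2 hy)
    (show (0 : ℝ) ≤ 1 / 2 by norm_num) (show (0 : ℝ) ≤ 1 / 2 by norm_num) (by norm_num)
  simp only [smul_eq_mul] at this
  rw [show (x + y) / 2 = 1 / 2 * x + 1 / 2 * y by ring]
  linarith

theorem lemA_lip {p x y : ℝ} (h0 : -2 ≤ p) (h1 : p ≤ 0) (hx : |x - 1| ≤ 1 / 100)
    (hy : |y - 1| ≤ 1 / 100) : |x ^ p - y ^ p| ≤ 3 * |x - y| := by
  rw [abs_le] at hx hy
  refine (convex_Icc (99 / 100 : ℝ) (101 / 100)).norm_image_sub_le_of_norm_hasDerivWithin_le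
    (f := fun x : ℝ => x ^ p) (fun x hx => (Real.hasDerivAt_rpow_const
      (Or.inl (by linarith [hx.1] : 0 < x).ne')).hasDerivWithinAt) (fun u hu => ?_)
    ⟨by linarith [hy.1], by linarith [hy.2]⟩ ⟨by linarith [hx.1], by linarith [hx.2]⟩
  have h2 : u ^ (p - 1) ≤ (99 / 100 : ℝ) ^ (-(3 : ℕ) : ℝ) :=
    (Real.rpow_le_rpow_of_nonpos (by norm_num) hu.1 (by linarith)).trans
      (Real.rpow_le_rpow_of_exponent_ge (by norm_num) (by norm_num) (by push_cast; linarith))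
  rw [Real.rpow_neg (by norm_num), Real.rpow_natCast] at h2
  have h3 : 0 ≤ u ^ (p - 1) := Real.rpow_nonneg (by linarith [hu.1]) _
  rw [Real.norm_eq_abs, abs_mul, abs_of_nonpos h1, abs_of_nonneg h3]
  norm_num at h2
  nlinarith

theorem lemA_low {p x : ℝ} (h0 : -2 ≤ p) (h1 : p ≤ 0) (hx : |x - 1| ≤ 1 / 100) :
    98 / 100 ≤ x ^ p := by
  rw [abs_le] at hx
  have h2 : (101 / 100 : ℝ) ^ (-(2 : ℕ) : ℝ) ≤ x ^ p :=
    (Real.rpow_le_rpow_of_exponent_le (by norm_num) (by push_cast; linarith)).trans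
      (Real.rpow_le_rpow_of_nonpos (by linarith [hx.1]) (by linarith [hx.2]) h1)
  rw [Real.rpow_neg (by norm_num), Real.rpow_natCast] at h2
  norm_num at h2
  linarith

theorem lemA_sec {θ x y u v c : ℝ} (h0 : 0 ≤ θ) (h1 : θ ≤ 1) (hx : |x - 1| ≤ 1 / 100)
    (hy : |y - 1| ≤ 1 / 100) :
    ((u - v) / 2 - c * ((x - y) / 2)) ^ 2 ≤ x ^ θ * (u / x - c) ^ 2 + y ^ θ * (v / y - c) ^ 2 -
      2 * (((x + y) / 2) ^ θ * ((u + v) / 2 / ((x + y) / 2) - c) ^ 2) +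
      38 * (((u + v) / 2 - c * ((x + y) / 2)) ^ 2 * ((x - y) / 2) ^ 2) := by
  have hx0 : 0 < x := by linarith [(abs_le.1 hx).1]
  have hy0 : 0 < y := by linarith [(abs_le.1 hy).1]
  have e : ∀ x u : ℝ, 0 < x → x ^ θ * (u / x - c) ^ 2 = x ^ (θ - 2) * (u - c * x) ^ 2 := by
    intro x u hx
    rw [Real.rpow_sub hx, Real.rpow_two]
    field_simp
  rw [e x u hx0, e y v hy0, e _ _ (by positivity)]
  have a1 := lemA_conv (show θ - 2 ≤ 0 by linarith) hx0 hy0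
  have a2 := lemA_lip (show -2 ≤ θ - 2 by linarith) (by linarith) hx hy
  have a3 := lemA_low (show -2 ≤ θ - 2 by linarith) (by linarith) hx
  have a4 := lemA_low (show -2 ≤ θ - 2 by linarith) (by linarith) hy
  generalize x ^ (θ - 2) = f at *
  generalize y ^ (θ - 2) = g at *
  generalize ((x + y) / 2) ^ (θ - 2) = m at *
  obtain ⟨w0, hw0⟩ : ∃ w0, w0 = (u + v) / 2 - c * ((x + y) / 2) := ⟨_, rfl⟩
  obtain ⟨w1, hw1⟩ : ∃ w1, w1 = (u - v) / 2 - c * ((x - y) / 2) := ⟨_, rfl⟩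
  rw [show u - c * x = w0 + w1 by rw [hw0, hw1]; ring,
    show v - c * y = w0 - w1 by rw [hw0, hw1]; ring, ← hw0, ← hw1]
  have a5 : (f - g) ^ 2 ≤ 36 * ((x - y) / 2) ^ 2 := by
    have := pow_le_pow_left₀ (abs_nonneg _) a2 2
    rw [mul_pow, sq_abs, sq_abs] at this
    linarith
  have a6 := mul_le_mul_of_nonneg_left a1 (sq_nonneg w0)
  have a7 := mul_le_mul_of_nonneg_left (add_le_add a3 a4) (sq_nonneg w1)
  have a8 := mul_le_mul_of_nonneg_left a5 (sq_nonneg w0)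
  nlinarith [sq_nonneg (24 / 25 * w1 + w0 * (f - g)), mul_nonneg (sq_nonneg w0) (sq_nonneg (x - y))]

theorem lemA_pt {θ x y u v c L w N f e : ℝ} (h0 : 0 ≤ θ) (h1 : θ ≤ 1) (hx : |x - 1| ≤ 1 / 100)
    (hy : |y - 1| ≤ 1 / 100) (he : e ≤ 1 / 2) (hc : 0 ≤ c ∧ c ≤ 1) (hw : 0 ≤ w ∧ w ≤ 1)
    (b1 : |(x + y) / 2 - 1| ≤ e) (b2 : |(u + v) / 2 - f| ≤ e)
    (b3 : |(x - y) / 2 - L * w| ≤ e * |L|) (b4 : |(u - v) / 2 - L * N| ≤ e * |L|) :
    L ^ 2 * (N - f * w) ^ 2 ≤ 3 * (x ^ θ * (u / x - c) ^ 2 + y ^ θ * (v / y - c) ^ 2 -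
      2 * (((x + y) / 2) ^ θ * ((u + v) / 2 / ((x + y) / 2) - c) ^ 2)) +
      L ^ 2 * (1000 * (f - c) ^ 2 + 3000 * e ^ 2) := by
  have a1 := lemA_sec (u := u) (v := v) (c := c) h0 h1 hx hy
  generalize x ^ θ * (u / x - c) ^ 2 + y ^ θ * (v / y - c) ^ 2 -
    2 * (((x + y) / 2) ^ θ * ((u + v) / 2 / ((x + y) / 2) - c) ^ 2) = G at *
  generalize (x + y) / 2 = P0 at *
  generalize (x - y) / 2 = P1 at *
  generalize (u + v) / 2 = n0 at *
  generalize (u - v) / 2 = n1 at *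
  have he0 : 0 ≤ e := (abs_nonneg _).trans b1
  have hL := abs_nonneg L
  have sq : ∀ {a b : ℝ}, |a| ≤ b → a ^ 2 ≤ b ^ 2 := fun h => sq_le_sq' (abs_le.1 h).1 (abs_le.1 h).2
  have mc : ∀ {a b : ℝ}, |a| ≤ b → |c * a| ≤ b := fun h => by
    rw [abs_mul, abs_of_nonneg hc.1]
    exact (mul_le_of_le_one_left (abs_nonneg _) hc.2).trans h
  have c1 : |P1| ≤ 3 / 2 * |L| := by
    have := abs_add_le (P1 - L * w) (L * w)
    rw [sub_add_cancel, abs_mul, abs_of_nonneg hw.1] at this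
    nlinarith [mul_le_mul_of_nonneg_left hw.2 hL]
  have c2 : (n0 - f - c * (P0 - 1)) ^ 2 ≤ (e + e) ^ 2 :=
    sq ((abs_sub _ _).trans (add_le_add b2 (mc b1)))
  have c3 : (n1 - L * N - c * (P1 - L * w)) ^ 2 ≤ (e * |L| + e * |L|) ^ 2 :=
    sq ((abs_sub _ _).trans (add_le_add b4 (mc b3)))
  have c4 := sq c1
  rw [← add_mul, mul_pow, sq_abs] at c3
  rw [mul_pow, sq_abs] at c4
  have c5 : (n0 - c * P0) ^ 2 ≤ 2 * (f - c) ^ 2 + 8 * e ^ 2 := by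
    nlinarith [sq_nonneg (n0 - f - c * (P0 - 1) - (f - c))]
  have c6 := mul_le_mul c5 c4 (sq_nonneg _) (by positivity)
  have c7 : (L * w * (f - c)) ^ 2 ≤ L ^ 2 * (f - c) ^ 2 := by
    rw [mul_pow, mul_pow]
    exact mul_le_mul_of_nonneg_right (mul_le_of_le_one_right (sq_nonneg _)
      (pow_le_one₀ hw.1 hw.2)) (sq_nonneg _)
  have c8 : ∀ a b d : ℝ, (a - b - d) ^ 2 ≤ 3 * a ^ 2 + 3 * b ^ 2 + 3 * d ^ 2 := fun a b d => by
    nlinarith [sq_nonneg (a + b), sq_nonneg (a + d), sq_nonneg (b - d)]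
  have c9 := c8 (n1 - c * P1) (n1 - L * N - c * (P1 - L * w)) (L * w * (f - c))
  have c10 := mul_nonneg (sq_nonneg L) (sq_nonneg (f - c))
  have c11 := mul_nonneg (sq_nonneg L) (sq_nonneg e)
  nlinarith

theorem lemA_mv {S : Type} [Fintype S] (κ : Matrix S S ℝ) (f g h : S → ℝ) (x y : ℝ) (s : S) :
    (κ *ᵥ fun t => (f t + x * g t) / 2 - y * h t) s =
      ((κ *ᵥ f) s + x * (κ *ᵥ g) s) / 2 - y * (κ *ᵥ h) s := by
  simp only [mulVec_apply', mul_sum]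
  rw [← sum_add_distrib, sum_div, ← sum_sub_distrib]
  exact sum_congr rfl fun t _ => by ring

theorem lemA_half {S : Type} [Fintype S] (κ : Matrix S S ℝ) {f g h : S → ℝ}
    (e : ∀ t, h t = (f t + g t) / 2) (s : S) : (κ *ᵥ h) s = ((κ *ᵥ f) s + (κ *ᵥ g) s) / 2 := by
  simp only [mulVec_apply', e]
  rw [← sum_add_distrib, sum_div]
  exact sum_congr rfl fun t _ => by ring

theorem lemA_avg {S I : Type} [Fintype S] [Fintype I] [Nonempty I] {μ : S → ℝ} (hp : Prob μ)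
    {A : Matrix S S ℝ} (hA : Sto A) {G : S → I → I → ℝ} {p1 p2 p0 : S → I → ℝ}
    {r1 r2 r0 : S → S → I → I → ℝ} {w : S → S → I → ℝ} {Q e η : ℝ} (hw : ∀ γ x i, 0 ≤ w γ x i)
    (hc : ∀ x i, p1 x i + p2 x i ≤ 2 * p0 x i)
    (pt : ∀ γ x i i', Q * G x i i' ≤ 3 * (p1 x i * r1 γ x i i' + p2 x i * r2 γ x i i' -
      2 * (p0 x i * r0 γ x i i')) + Q * (1000 * w γ x i' + e))
    (H1 : ∑ γ, μ γ * |(∑ x, A γ x * 𝔼 i, p1 x i * 𝔼 i', r1 γ x i i') -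
      (∑ x, A γ x * 𝔼 i', w γ x i') * ∑ x, A γ x * 𝔼 i, p1 x i| ≤ η)
    (H2 : ∑ γ, μ γ * |(∑ x, A γ x * 𝔼 i, p2 x i * 𝔼 i', r2 γ x i i') -
      (∑ x, A γ x * 𝔼 i', w γ x i') * ∑ x, A γ x * 𝔼 i, p2 x i| ≤ η)
    (H0 : ∑ γ, μ γ * |(∑ x, A γ x * 𝔼 i, p0 x i * 𝔼 i', r0 γ x i i') -
      (∑ x, A γ x * 𝔼 i', w γ x i') * ∑ x, A γ x * 𝔼 i, p0 x i| ≤ η) :
    Q * ∑ γ, μ γ * ∑ x, A γ x * 𝔼 i, 𝔼 i', G x i i' ≤
      12 * η + Q * (1000 * ∑ γ, μ γ * ∑ x, A γ x * 𝔼 i', w γ x i' + e) := by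
  have key : ∀ γ, Q * ∑ x, A γ x * 𝔼 i, 𝔼 i', G x i i' ≤
      3 * |(∑ x, A γ x * 𝔼 i, p1 x i * 𝔼 i', r1 γ x i i') -
        (∑ x, A γ x * 𝔼 i', w γ x i') * ∑ x, A γ x * 𝔼 i, p1 x i| +
      3 * |(∑ x, A γ x * 𝔼 i, p2 x i * 𝔼 i', r2 γ x i i') -
        (∑ x, A γ x * 𝔼 i', w γ x i') * ∑ x, A γ x * 𝔼 i, p2 x i| +
      6 * |(∑ x, A γ x * 𝔼 i, p0 x i * 𝔼 i', r0 γ x i i') -
        (∑ x, A γ x * 𝔼 i', w γ x i') * ∑ x, A γ x * 𝔼 i, p0 x i| +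
      Q * (1000 * ∑ x, A γ x * 𝔼 i', w γ x i' + e) := fun γ => by
    have a1 := sum_le_sum fun x (_ : x ∈ univ) => mul_le_mul_of_nonneg_left
      (expect_le_expect fun i (_ : i ∈ univ) => expect_le_expect fun i' (_ : i' ∈ univ) =>
        pt γ x i i') (hA.1 γ x)
    have a2 := sum_le_sum fun x (_ : x ∈ univ) => mul_le_mul_of_nonneg_left
      (expect_le_expect fun i (_ : i ∈ univ) => hc x i) (hA.1 γ x)
    have a3 : 0 ≤ ∑ x, A γ x * 𝔼 i', w γ x i' :=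
      sum_nonneg fun x _ => mul_nonneg (hA.1 γ x) (expect_nonneg fun _ _ => hw _ _ _)
    simp only [expect_add_distrib, expect_sub_distrib, ← mul_expect, Fintype.expect_const,
      mul_add, mul_sub, sum_add_distrib, sum_sub_distrib, mul_left_comm (A γ _), ← mul_sum,
      ← sum_mul, hA.2, one_mul] at a1 a2
    have a4 := mul_le_mul_of_nonneg_left a2 a3
    have b1 := le_abs_self ((∑ x, A γ x * 𝔼 i, p1 x i * 𝔼 i', r1 γ x i i') -
        (∑ x, A γ x * 𝔼 i', w γ x i') * ∑ x, A γ x * 𝔼 i, p1 x i)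
    have b2 := le_abs_self ((∑ x, A γ x * 𝔼 i, p2 x i * 𝔼 i', r2 γ x i i') -
        (∑ x, A γ x * 𝔼 i', w γ x i') * ∑ x, A γ x * 𝔼 i, p2 x i)
    have b0 := neg_le_abs ((∑ x, A γ x * 𝔼 i, p0 x i * 𝔼 i', r0 γ x i i') -
        (∑ x, A γ x * 𝔼 i', w γ x i') * ∑ x, A γ x * 𝔼 i, p0 x i)
    linarith
  have a1 := sum_le_sum fun γ (_ : γ ∈ univ) => mul_le_mul_of_nonneg_left (key γ) (hp.1 γ)
  simp only [mul_add, sum_add_distrib, mul_left_comm (μ _), ← mul_sum, ← sum_mul, hp.2,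
    one_mul] at a1
  linarith

theorem lemA_one {n : ℕ} {a b : ℕ → ℝ} {D : ℕ} {β : ℝ} (he : Expo a b D β) {d : ℕ} (hd : d < D)
    (t : Sh n Bool d) : ∃ K : ℝ, ∀ {S I : Type} [Fintype S] [Fintype I]
      [Nonempty I] (c : Ch S) (μ : ℕ → S → ℝ) (z : I → Bool → S → ℝ), c.a = a → c.b = b →
      c.Sto D → Path c D μ → Obs z → ∀ lam η', 0 < lam → lam ≤ 1 / 100 → ∀ e, K * lam ≤ e →
      e ≤ 1 / 2 → Hyp n c μ z D lam η' → (lam ^ lv d t * nV a b d t) ^ 2 * ga c μ z d t ≤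
        12 * η' + (lam ^ lv d t * nV a b d t) ^ 2 * (1000 * inc c μ z d t + 3000 * e ^ 2) := by
  obtain ⟨Cy, hCy, hy⟩ := expand_y he hd.le t
  obtain ⟨Cn, hCn, hn⟩ := expand_n he hd.le t t
  have hV := abs_pos.2 (nV_ne_zero he hd.le t)
  refine ⟨1 + Cn + (Cy + Cn) / |nV a b d t|, ?_⟩
  intro S I _ _ _ c μ z ha hb hc hμ hz lam η' hl0 hl e hK he' hH
  subst ha hb
  have hl2 : lam ≤ 1 / 2 := by linarith
  have hq : 0 ≤ (Cy + Cn) / |nV c.a c.b d t| * lam := by positivity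
  have k1 : lam ≤ e := by nlinarith
  have k2 : Cn * lam ≤ e := by nlinarith
  have k3 : (Cy + Cn) * lam * lam ^ lv d t ≤ e * |lam ^ lv d t * nV c.a c.b d t| := by
    rw [abs_mul, abs_of_pos (pow_pos hl0 _), mul_comm (lam ^ _), ← mul_assoc]
    refine mul_le_mul_of_nonneg_right ?_ (pow_pos hl0 _).le
    rw [← div_le_iff₀ hV, mul_div_right_comm]
    nlinarith
  have k4 : 0 ≤ lam * lam ^ lv d t := by positivity
  have hB := (hc d hd).2
  have hA := (hc d hd).1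
  have hb0 := he.dec.b_pos hd.le
  have θ0 : 0 ≤ c.a d / c.b d := (div_pos (he.a_pos hd) hb0).le
  have θ1 : c.a d / c.b d ≤ 1 := (div_le_one hb0).2 (he.lt d hd).2.le
  generalize hL : lam ^ lv d t * nV c.a c.b d t = L at *
  have hP : ∀ i s, |s| ≤ 1 → ∀ x, |(c.B d *ᵥ yO c lam (z i) d t s) x - 1| ≤ lam := by
    intro i s hs x
    have h1 := hB.le_mulVec (fun γ => (yO_mem hc he hl0.le hl2 (hz i) hd.le t hs γ).1) x
    have h2 := hB.mulVec_le (fun γ => (yO_mem hc he hl0.le hl2 (hz i) hd.le t hs γ).2) x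
    rw [abs_le]
    constructor <;> linarith
  have y0 : ∀ i x, (c.B d *ᵥ yO c lam (z i) d t 0) x = ((c.B d *ᵥ yO c lam (z i) d t 1) x +
      (c.B d *ᵥ yO c lam (z i) d t (-1)) x) / 2 := fun i =>
    lemA_half _ fun γ => by rw [yO_affine, zero_mul, add_zero]
  have n0 : ∀ i i' x, (c.B d *ᵥ nO c lam (z i) (z i') d t t 0) x =
      ((c.B d *ᵥ nO c lam (z i) (z i') d t t 1) x +
        (c.B d *ᵥ nO c lam (z i) (z i') d t t (-1)) x) / 2 := fun i i' =>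
    lemA_half _ fun γ => by rw [nO_affine, zero_mul, add_zero]
  have pt : ∀ γ x i i', _ := fun γ x i i' => lemA_pt (L := L) (f := ph c z d t i' x)
    (u := (c.B d *ᵥ nO c lam (z i) (z i') d t t 1) x)
    (v := (c.B d *ᵥ nO c lam (z i) (z i') d t t (-1)) x)
    (N := (c.B d *ᵥ nu c (z i) (z i') d t t) x)
    (c := (c.A d *ᵥ ph c z d t i') γ) (w := c.b d * (c.B d *ᵥ vir c (z i) d t) x) θ0 θ1
    ((hP i 1 (by simp) x).trans hl) ((hP i (-1) (by simp) x).trans hl) he'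
    ⟨hA.le_mulVec (fun x => (Bact_mem hc (hz i') hd t x).1) γ,
      hA.mulVec_le (fun x => (Bact_mem hc (hz i') hd t x).2) γ⟩
    ⟨mul_nonneg hb0.le (hB.le_mulVec (fun x => (vir_mem hc (hz i) d hd.le t x).1) x),
      mul_le_one₀ (he.dec.b_le_one hd.le)
        (hB.le_mulVec (fun x => (vir_mem hc (hz i) d hd.le t x).1) x)
        (hB.mulVec_le (fun x => (vir_mem hc (hz i) d hd.le t x).2) x)⟩
    (by rw [← y0]; exact (hP i 0 (by simp) x).trans k1)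
    (by
      have := hB.abs_mulVec_le (fun γ =>
        (hn c rfl rfl hc _ _ (hz i) (hz i') lam hl0.le hl2 γ).1 0 (by simp)) x
      rw [← n0]
      refine le_of_eq_of_le ?_ (this.trans k2)
      simp only [ph, mulVec_apply', mul_sub, sum_sub_distrib])
    (by
      have := hB.abs_mulVec_le (hy c rfl rfl hc _ (hz i) lam hl0.le hl2) x
      have e1 := lemA_mv (c.B d) (yO c lam (z i) d t 1) (yO c lam (z i) d t (-1))
        (vir c (z i) d t) (-1) (L * c.b d) x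
      simp only [neg_one_mul, ← sub_eq_add_neg, mul_assoc] at e1
      rw [hL, e1] at this
      nlinarith)
    (by
      have := hB.abs_mulVec_le (fun γ =>
        (hn c rfl rfl hc _ _ (hz i) (hz i') lam hl0.le hl2 γ).2.2) x
      have e1 := lemA_mv (c.B d) (nO c lam (z i) (z i') d t t 1) (nO c lam (z i) (z i') d t t (-1))
        (nu c (z i) (z i') d t t) (-1) L x
      simp only [neg_one_mul, ← sub_eq_add_neg] at e1
      rw [hL, e1] at this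
      nlinarith)
  simp only [← y0, ← n0] at pt
  have := lemA_avg (hμ.prob hc hd) hA (fun _ _ _ => sq_nonneg _) (fun x i => by
    rw [y0]
    exact lemA_conc θ0 θ1 (by linarith [(abs_le.1 (hP i 1 (by simp) x)).1])
      (by linarith [(abs_le.1 (hP i (-1) (by simp) x)).1])) pt (hH d hd t 1 (by simp))
    (hH d hd t (-1) (by simp)) (hH d hd t 0 (by simp))
  refine le_of_eq_of_le ?_ this
  simp only [ga, Path.sum_me, mulVec_apply' (c.A d), mul_left_comm (ph c z d t _ _), mul_assoc]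

/-- the probe identity forces a small response -/
theorem resp_of_hyp (n : ℕ) {a b : ℕ → ℝ} {D : ℕ} {β η : ℝ} (he : Expo a b D β) (hη : 0 < η) :
    ∃ lam : ℝ, 0 < lam ∧ lam ≤ 1 / 2 ∧ ∃ η' : ℝ, 0 < η' ∧ ∀ {S I : Type} [Fintype S] [Fintype I]
      [Nonempty I] (c : Ch S) (μ : ℕ → S → ℝ) (z : I → Bool → S → ℝ), c.a = a → c.b = b →
      c.Sto D → Path c D μ → Obs z → Hyp n c μ z D lam η' → Resp n c μ z D η := by
  choose K hK using fun x : Σ d : Fin D, Sh n Bool d => lemA_one he x.1.2 x.2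
  obtain ⟨K0, hK0⟩ := Finite.exists_le K
  obtain ⟨e, he0, he1, he2⟩ : ∃ e : ℝ, 0 < e ∧ e ≤ 1 / 2 ∧ e ≤ η / 6000 :=
    ⟨min (1 / 2) (η / 6000), by positivity, min_le_left _ _, min_le_right _ _⟩
  obtain ⟨lam, hl0, hl1, hl2⟩ : ∃ lam : ℝ, 0 < lam ∧ lam ≤ 1 / 100 ∧ lam ≤ e / (|K0| + 1) :=
    ⟨min (1 / 100) (e / (|K0| + 1)), by positivity, min_le_left _ _, min_le_right _ _⟩
  obtain ⟨M, hM⟩ := Finite.exists_le fun x : Σ d : Fin D, Sh n Bool d =>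
    1 / (lam ^ lv x.1 x.2 * nV a b x.1 x.2) ^ 2
  refine ⟨lam, hl0, by linarith, η / (24 * (|M| + 1)), by positivity, ?_⟩
  intro S I _ _ _ c μ z ha hb hc hμ hz hH d hd t
  rw [le_div_iff₀ (by positivity)] at hl2
  have h1 := hK ⟨⟨d, hd⟩, t⟩ c μ z ha hb hc hμ hz lam _ hl0 hl1 e
    (by nlinarith [hK0 ⟨⟨d, hd⟩, t⟩, le_abs_self K0]) he1 hH
  have h2 := hM ⟨⟨d, hd⟩, t⟩
  have h3 : 0 < (lam ^ lv d t * nV a b d t) ^ 2 :=
    sq_pos_of_ne_zero (mul_ne_zero (pow_pos hl0 _).ne' (nV_ne_zero he hd.le t))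
  dsimp only at h1 h2
  generalize (lam ^ lv d t * nV a b d t) ^ 2 = Q at *
  rw [div_le_iff₀ h3] at h2
  have h4 : 12 * (η / (24 * (|M| + 1))) ≤ Q * (η / 2) := by
    rw [← mul_div_assoc, div_le_iff₀ (by positivity)]
    nlinarith [mul_le_mul_of_nonneg_right (le_abs_self M) h3.le, mul_pos h3 hη,
      mul_le_mul_of_nonneg_right h2 hη.le,
      mul_le_mul_of_nonneg_right (mul_le_mul_of_nonneg_right (le_abs_self M) h3.le) hη.le]
  refine le_of_mul_le_mul_left (h1.trans ?_) h3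
  have h5 : 3000 * e ^ 2 ≤ η / 2 := by nlinarith
  nlinarith [mul_le_mul_of_nonneg_left h5 h3.le]

end Vale.Agent.P168
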