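import Vale.Agent.P168.Probe

namespace Vale.Agent.P168

open Finset Matrix
open scoped BigOperators

theorem mecke_flip {J I C : Type} [Fintype J] [DecidableEq J] [Fintype I] [Nonempty I] [Fintype C]
    (j : J) (G : (J → Bool × I × C) → ℝ) :
    ∑ ω : J → Bool × I × C, (if (ω j).1 then 0 else
      𝔼 i, G (Function.update ω j (true, i, (ω j).2.2))) = ∑ ω, if (ω j).1 then G ω else 0 := by
  have h := Fintype.sum_bijective (fun x : (J → Bool × I × C) × I =>
      (Function.update x.1 j (!(x.1 j).1, x.2, (x.1 j).2.2), (x.1 j).2.1))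
    (Function.Involutive.bijective fun x => by simp)
    (fun x => if (x.1 j).1 then 0 else G (Function.update x.1 j (true, x.2, (x.1 j).2.2)))
    (fun x => if (x.1 j).1 then G x.1 else 0) fun x => by cases (x.1 j).1 <;> simp
  have hI : (Fintype.card I : ℝ) ≠ 0 := by exact_mod_cast Fintype.card_ne_zero
  rw [Fintype.sum_prod_type, Fintype.sum_prod_type] at h
  simp only [sum_const, card_univ, nsmul_eq_mul, ← mul_sum] at h
  refine mul_left_cancel₀ hI (Eq.trans ?_ h)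
  rw [mul_sum]
  refine sum_congr rfl fun ω _ => ?_
  cases (ω j).1
  · simp [Fintype.expect_eq_sum_div_card, mul_div_cancel₀ _ hI]
  · simp

theorem mecke_tilt {S : Type} [Fintype S] (κ : Matrix S S ℝ) (a : ℝ) (X g : S → ℝ) (γ : S) :
    (tilt κ a X *ᵥ g) γ = (κ *ᵥ fun t => Real.exp (a * X t) * g t) γ /
      ∑ u, κ γ u * Real.exp (a * X u) := by
  simp only [mulVec_apply', tilt, sum_div]
  exact sum_congr rfl fun t _ => by ring

theorem mecke_sq {S : Type} [Fintype S] {p : S → ℝ} (hp : Prob p) (x : S → ℝ) :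
    (∑ t, p t * x t) ^ 2 ≤ ∑ t, p t * x t ^ 2 := by
  have h := sum_nonneg fun t (_ : t ∈ univ) =>
    mul_nonneg (hp.1 t) (sq_nonneg (x t - ∑ t, p t * x t))
  simp only [sub_sq, mul_add, mul_sub, sum_add_distrib, sum_sub_distrib, ← sum_mul, hp.2,
    ← mul_assoc, mul_comm (p _) 2] at h
  simp only [mul_assoc, ← mul_sum] at h
  nlinarith

theorem mecke_alg {S : Type} [Fintype S] {p : S → ℝ} (hp : Prob p) {N F F1 f : S → ℝ} {s E : ℝ}
    (hs : 0 < s) (hN : ∀ t, N t ≤ s) (hF : ∀ t, 0 ≤ F t ∧ F t ≤ 3 / 2)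
    (hF1 : ∀ t, 0 ≤ F1 t ∧ F1 t ≤ 3 / 2) (hf : ∀ t, 0 ≤ f t ∧ f t ≤ 1) (hE : 1 ≤ E) (hE' : E ≤ 3)
    (h1 : ∑ t, p t * (N t * f t) = E * ∑ t, p t * ((s - N t) * F t))
    (h2 : ∑ t, p t * N t = E * ∑ t, p t * ((s - N t) * F1 t)) :
    |∑ t, p t * F t - (∑ t, p t * f t) * ∑ t, p t * F1 t| ≤
      15 / s * ∑ t, p t * |N t - ∑ u, p u * N u| := by
  have v0 : 0 ≤ ∑ t, p t * f t := sum_nonneg fun t _ => mul_nonneg (hp.1 t) (hf t).1
  have v1 : ∑ t, p t * f t ≤ 1 :=
    (sum_le_sum fun t _ => mul_le_of_le_one_right (hp.1 t) (hf t).2).trans_eq hp.2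
  have a1 := sum_le_sum fun t (_ : t ∈ univ) => mul_le_mul_of_nonneg_left
    (mul_le_mul_of_nonneg_left (hF1 t).2 (sub_nonneg.2 (hN t))) (hp.1 t)
  have a0 := sum_nonneg fun t (_ : t ∈ univ) => mul_nonneg (hp.1 t)
    (mul_nonneg (sub_nonneg.2 (hN t)) (hF1 t).1)
  have ab : ∀ {g : S → ℝ} {x m : ℝ}, (∀ t, |g t| ≤ x) →
      |∑ t, p t * ((N t - m) * g t)| ≤ x * ∑ t, p t * |N t - m| := fun h => by
    rw [mul_sum]
    refine (abs_sum_le_sum_abs _ _).trans (sum_le_sum fun t _ => ?_)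
    rw [abs_mul, abs_mul, abs_of_nonneg (hp.1 t)]
    exact (mul_le_mul_of_nonneg_left (mul_le_mul_of_nonneg_left (h t) (abs_nonneg _))
      (hp.1 t)).trans_eq (by ring)
  generalize hv : ∑ t, p t * f t = v at *
  generalize hm : ∑ t, p t * N t = m at *
  have a2 := ab (m := m) (g := f) (x := 1) fun t => abs_le.2 ⟨by linarith [(hf t).1], (hf t).2⟩
  have a3 := ab (m := m) (g := fun t => F t - v * F1 t) (x := 3 / 2) fun t => abs_le.2
    ⟨by nlinarith [(hF t).1, (hF1 t).1, (hF1 t).2], by nlinarith [(hF t).2, (hF1 t).1]⟩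
  have e1 : ∑ t, p t * ((s - N t) * (3 / 2)) = (s - m) * (3 / 2) := by
    simp only [← mul_assoc, ← sum_mul, mul_sub, sum_sub_distrib, hp.2, hm, one_mul]
  have e2 : ∑ t, p t * ((N t - m) * f t) = ∑ t, p t * (N t * f t) - v * m := by
    rw [← hv, sum_mul, ← sum_sub_distrib]
    exact sum_congr rfl fun t _ => by ring
  have e3 : (s - m) * (∑ t, p t * F t - v * ∑ t, p t * F1 t) =
      (∑ t, p t * ((s - N t) * F t) - v * ∑ t, p t * ((s - N t) * F1 t)) +
      ∑ t, p t * ((N t - m) * (F t - v * F1 t)) := by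
    simp only [mul_sum, ← sum_sub_distrib, ← sum_add_distrib]
    exact sum_congr rfl fun t _ => by ring
  have a4 : s / 6 ≤ s - m := by nlinarith
  rw [e2, h1] at a2
  nth_rewrite 1 [h2] at a2
  rw [mul_left_comm, ← mul_sub, abs_mul, abs_of_nonneg (by linarith : 0 ≤ E)] at a2
  have a5 := (le_mul_of_one_le_left (abs_nonneg _) hE).trans a2
  have a6 := (congrArg abs e3).trans_le ((abs_add_le _ _).trans (add_le_add a5 a3))
  rw [abs_mul, abs_of_nonneg (by linarith : 0 ≤ s - m)] at a6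
  rw [div_mul_eq_mul_div, le_div_iff₀ hs]
  nlinarith [mul_le_mul_of_nonneg_right a4 (abs_nonneg (∑ t, p t * F t - v * ∑ t, p t * F1 t))]

variable {n D s : ℕ} {I : Type} [Fintype I] [DecidableEq I] [Inhabited I]

omit [DecidableEq I] [Inhabited I] in
theorem mecke_wA (y : Fam n D → ℝ) (j : Sl n D s) (ω : Sl n D s → RA n I) (h : (ω j).1 = false)
    (i : I) : wA y j.1.1 (Function.update ω j (true, i, (ω j).2.2)) =
      Real.exp (y j.1) * wA y j.1.1 ω := by
  rw [wA, wA, ← mul_prod_erase _ _ (mem_univ j), ← mul_prod_erase _ _ (mem_univ j),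
    prod_congr rfl fun k hk => by rw [Function.update_of_ne (ne_of_mem_erase hk)]]
  simp only [Function.update_self, and_self, if_true, h, Bool.false_eq_true, false_and, if_false]
  ring

theorem mecke_slot {a b : ℕ → ℝ} {β lam : ℝ} (he : Expo a b D β) (hl0 : 0 ≤ lam) (hl : lam ≤ 1 / 2)
    (y : Fam n D → ℝ) (H : (I → Bool) → ℝ) (j : Sl n D s) (f : St n D s I → ℝ) (γ : St n D s I) :
    ((sys n D s a b lam y H).A j.1.1 *ᵥ fun x => if (x.1 j.1.1 j).1 then f x else 0) γ =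
      Real.exp (y j.1) * ((sys n D s a b lam y H).A j.1.1 *ᵥ fun x => if (x.1 j.1.1 j).1 then 0 else
        𝔼 i, ((sys n D s a b lam y H).B j.1.1 *ᵥ
          yO (sys n D s a b lam y H) lam (ind spn i) j.1.1 j.1.2.1 (sval j.1.2.2)) x ^
            (a j.1.1 / b j.1.1) * f (swOn x j i)) γ := by
  have e : (sys n D s a b lam y H).A j.1.1 =
      tilt (rs (wA y j.1.1) fun st ω => (Function.update st.1 j.1.1 ω, st.2)) (a j.1.1)
        (XE (base n D s I a b y) (term lam H) j.1.1) := by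
    simp only [sys, Ch.tl, base, dif_pos j.1.1.2]
  rw [e, mecke_tilt, mecke_tilt, rs_mulVec, rs_mulVec, ← mul_div_assoc, mul_sum]
  congr 1
  have h := mecke_flip j fun ω => wA y j.1.1 ω * (Real.exp (a j.1.1 *
    XE (base n D s I a b y) (term lam H) j.1.1 (Function.update γ.1 j.1.1 ω, γ.2)) *
      f (Function.update γ.1 j.1.1 ω, γ.2))
  refine Eq.trans (sum_congr rfl fun ω _ => ?_) (h.symm.trans (sum_congr rfl fun ω _ => ?_))
  · simp only [Function.update_self, mul_ite, mul_zero]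
  simp only [Function.update_self]
  cases hω : (ω j).1
  · simp only [Bool.false_eq_true, if_false, mul_expect]
    refine expect_congr rfl fun i _ => ?_
    have e1 : swOn (Function.update γ.1 j.1.1 ω, γ.2) j i =
        (Function.update γ.1 j.1.1 (Function.update ω j (true, i, (ω j).2.2)), γ.2) := by
      simp only [swOn, Function.update_self, Function.update_idem]
    rw [← (probe_on he hl0 hl y H j (Function.update γ.1 j.1.1 ω, γ.2)
      (by simpa using hω) i).1, e1, mecke_wA y j ω hω, ← Real.exp_mul, mul_right_comm (b _),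
      mul_div_cancel₀ _ (he.dec.b_pos j.1.1.2.le).ne', mul_sub, Real.exp_sub]
    field_simp
  · simp

theorem mecke_cnt {a b : ℕ → ℝ} {β lam : ℝ} (he : Expo a b D β) (hl0 : 0 ≤ lam) (hl : lam ≤ 1 / 2)
    (y : Fam n D → ℝ) (H : (I → Bool) → ℝ) (φ : Fam n D) {f F : St n D s I → ℝ}
    (h : ∀ k x, (x.1 φ.1 (φ, k)).1 = false → 𝔼 i, ((sys n D s a b lam y H).B φ.1 *ᵥ
      yO (sys n D s a b lam y H) lam (ind spn i) φ.1 φ.2.1 (sval φ.2.2)) x ^
        (a φ.1 / b φ.1) * f (swOn x (φ, k) i) = F x) (γ : St n D s I) :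
    ∑ x, (sys n D s a b lam y H).A φ.1 γ x * (cnt φ x * f x) =
      Real.exp (y φ) * ∑ x, (sys n D s a b lam y H).A φ.1 γ x * ((s - cnt φ x) * F x) := by
  have h1 := sum_congr rfl fun k (_ : k ∈ univ) => mecke_slot he hl0 hl y H (φ, k) f γ
  have hs : ∀ G : Fin s → St n D s I → ℝ, ∑ k, ((sys n D s a b lam y H).A φ.1 *ᵥ G k) γ =
      ∑ x, (sys n D s a b lam y H).A φ.1 γ x * ∑ k, G k x := fun G => by
    simp only [mulVec_apply', mul_sum]
    exact sum_comm
  dsimp only at h1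
  rw [← mul_sum, hs, hs] at h1
  refine Eq.trans (sum_congr rfl fun x _ => congrArg _ ?_) (h1.trans (congrArg _
    (sum_congr rfl fun x _ => congrArg _ ?_)))
  · simp only [cnt, sum_mul, ite_mul, one_mul, zero_mul]
  · have e : (s : ℝ) - cnt φ x = ∑ k : Fin s, if (x.1 φ.1 (φ, k)).1 then 0 else 1 := by
      rw [sub_eq_iff_eq_add, cnt, ← sum_add_distrib, sum_congr rfl (g := fun _ => 1)
        fun k _ => by split_ifs <;> norm_num]
      simp
    rw [e, sum_mul]
    refine sum_congr rfl fun k _ => ?_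
    cases hk : (x.1 φ.1 (φ, k)).1
    · simpa using h k x hk
    · simp

/-- concentration of the counts gives the probe identity -/
theorem hyp_of_var {a b : ℕ → ℝ} {β lam η : ℝ} (he : Expo a b D β) (hl0 : 0 ≤ lam)
    (hl : lam ≤ 1 / 2) (hs : 0 < s) (hη : 0 ≤ η) (y : Fam n D → ℝ) (hy : ∀ φ, 0 ≤ y φ ∧ y φ ≤ 1)
    (H : (I → Bool) → ℝ)
    (hv : ∀ φ, vr (sys n D s a b lam y H) (sysμ n D s a b lam y H) φ ≤ (η * s / 100) ^ 2) :
    Hyp n (sys n D s a b lam y H) (sysμ n D s a b lam y H) (ind spn) D lam η := by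
  intro d hd t σ hσ
  obtain ⟨χ, rfl⟩ : ∃ χ, sval χ = σ := by
    rcases hσ with rfl | rfl | rfl
    exacts [⟨some false, by simp [sval, sg]⟩, ⟨none, rfl⟩, ⟨some true, by simp [sval, sg]⟩]
  have hσ1 : |sval χ| ≤ 1 := by rcases hσ with h | h | h <;> simp [h]
  have hs' : (0 : ℝ) < s := by exact_mod_cast hs
  have hc := sys_sto n D s a b lam y H
  have he' : Expo (sys n D s a b lam y H).a (sys n D s a b lam y H).b D β := he
  have hz : Obs (ind (spn (n := n) (D := D) (s := s) (I := I))) := obs_ind _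
  have hA := (hc d hd).1
  have hB := (hc d hd).2
  have hp := (sys_path n D s a b lam y H).prob hc hd
  have hb0 := he.dec.b_pos hd.le
  have y1 := fun i => hB.le_mulVec fun x => (yO_mem hc he' hl0 hl (hz i) hd.le t hσ1 x).1
  have y2 := fun i => hB.mulVec_le fun x => (yO_mem hc he' hl0 hl (hz i) hd.le t hσ1 x).2
  have hP := fun i x => md_rpow hl0 hl (div_pos (he.a_pos hd) hb0).le
    ((div_le_one hb0).2 (he.lt d hd).2.le) ⟨y1 i x, y2 i x⟩
  have sq1 : ∀ {u v : I → ℝ}, (∀ i, 0 ≤ u i ∧ u i ≤ 1) → (∀ i, 0 ≤ v i ∧ v i ≤ 1) →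
      0 ≤ 𝔼 i, (u i - v i) ^ 2 ∧ 𝔼 i, (u i - v i) ^ 2 ≤ 1 := fun hu hv =>
    ⟨expect_nonneg fun _ _ => sq_nonneg _, expect_le univ_nonempty fun i _ => by
      nlinarith [(hu i).1, (hu i).2, (hv i).1, (hv i).2]⟩
  have hcm : ∀ γ i, _ := fun γ i => And.intro
    (hA.le_mulVec (fun x => (Bact_mem hc (hz i) hd t x).1) γ)
    (hA.mulVec_le (fun x => (Bact_mem hc (hz i) hd t x).2) γ)
  have hr : ∀ x i i', _ := fun x i i' => And.intro
    (div_nonneg (mulVec_nonneg' hB.1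
      (fun x => (nO_mem hc he' hl0 hl (hz i) (hz i') hd.le t t hσ1 x).1) x)
      (le_trans (by linarith) (y1 i x)))
    ((div_le_one (lt_of_lt_of_le (by linarith) (y1 i x))).2 (mulVec_mono hB.1
      (fun x => (nO_mem hc he' hl0 hl (hz i) (hz i') hd.le t t hσ1 x).2) x))
  have key := fun γ => mecke_alg (p := (sys n D s a b lam y H).A d γ) ⟨hA.1 γ, hA.2 γ⟩ hs'
    (N := cnt ⟨⟨d, hd⟩, t, χ⟩)
    (fun x => (sum_le_sum (g := fun _ => (1 : ℝ)) fun k _ => by
      split_ifs <;> norm_num).trans_eq (by simp))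
    (fun x => ⟨expect_nonneg fun i _ => mul_nonneg (by linarith [(hP i x).1])
      (sq1 (hr x i) (hcm γ)).1, expect_le univ_nonempty fun i _ =>
        (mul_le_of_le_one_right (by linarith [(hP i x).1]) (sq1 (hr x i) (hcm γ)).2).trans
          ((hP i x).2.trans (by linarith))⟩)
    (fun x => ⟨expect_nonneg fun i _ => le_trans (by linarith) (hP i x).1,
      expect_le univ_nonempty fun i _ => (hP i x).2.trans (by linarith)⟩)
    (fun x => sq1 (fun i => Bact_mem hc (hz i) hd t x) (hcm γ))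
    (Real.one_le_exp (hy ⟨⟨d, hd⟩, t, χ⟩).1)
    ((Real.exp_le_exp.2 (hy _).2).trans Real.exp_one_lt_three.le)
    (mecke_cnt he hl0 hl y H ⟨⟨d, hd⟩, t, χ⟩ (fun k x hx => expect_congr rfl fun i _ =>
      congrArg _ (expect_congr rfl fun i' _ => congrArg (fun u => (u - _) ^ 2)
        ((probe_on he hl0 hl y H (⟨⟨d, hd⟩, t, χ⟩, k) x hx i).2 t i'))) γ)
    ((sum_congr rfl fun x _ => by rw [mul_one]).trans (mecke_cnt he hl0 hl y H ⟨⟨d, hd⟩, t, χ⟩
      (f := fun _ => 1) (fun k x _ => expect_congr rfl fun i _ => mul_one _) γ))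
  refine (sum_le_sum fun γ _ => mul_le_mul_of_nonneg_left (key γ) (hp.1 γ)).trans ?_
  have h1 := (mecke_sq hp _).trans ((sum_le_sum fun γ _ => mul_le_mul_of_nonneg_left
    ((mecke_sq ⟨hA.1 γ, hA.2 γ⟩ _).trans_eq (sum_congr rfl fun x _ => congrArg _ (sq_abs _)))
    (hp.1 γ)).trans (hv ⟨⟨d, hd⟩, t, χ⟩))
  have h2 := (abs_le_of_sq_le_sq' h1 (by positivity)).2
  simp only [mul_left_comm _ (15 / (s : ℝ)), ← mul_sum]
  refine (mul_le_mul_of_nonneg_left h2 (by positivity)).trans ?_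
  rw [div_mul_eq_mul_div, div_le_iff₀ hs']
  nlinarith [mul_nonneg hη hs'.le]

end Vale.Agent.P168
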