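import Vale.Agent.P168.Sys

namespace Vale.Agent.P168

open Finset Matrix
open scoped BigOperators

/-- the perturbation is bounded uniformly in the system -/
theorem GG_near (n s : ℕ) {D : ℕ} {a b : ℕ → ℝ} {β lam : ℝ} (he : Expo a b D β) (hD : 0 < D)
    (hs : 0 < s) (hl0 : 0 ≤ lam) (hl : lam ≤ 1 / 2) : ∃ C : ℝ, ∀ (N : ℕ) (H : Cf (N + 1) → ℝ),
      |GG n D s a b lam H - LZ H| ≤ C := by
  sorry

theorem GG_lip (n s : ℕ) {D : ℕ} {a b : ℕ → ℝ} {β : ℝ} (he : Expo a b D β) (lam : ℝ)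
    {I : Type} [Fintype I] [DecidableEq I] [Inhabited I] (H H' : (I → Bool) → ℝ) :
    |GG n D s a b lam H - GG n D s a b lam H'| ≤ ‖H - H'‖ := by
  sorry

/-- adding a spin -/
theorem GG_red (n s : ℕ) {D : ℕ} {a b : ℕ → ℝ} {β lam : ℝ} (he : Expo a b D β) (hD : 0 < D)
    (hl0 : 0 ≤ lam) (hl : lam ≤ 1 / 2) : ∃ C : ℝ, ∀ (N : ℕ) (H : Cf (N + 2) → ℝ),
      GG n D s a b lam (red H) - C / (N + 1) ≤ GG n D s a b lam H := by
  sorry

/-- cocycle property -/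
theorem root_add (n s : ℕ) {D : ℕ} {a b : ℕ → ℝ} {β : ℝ} (he : Expo a b D β) (lam : ℝ)
    {I : Type} [Fintype I] [DecidableEq I] [Inhabited I] (y : Fam n D → ℝ)
    (H Ψ : (I → Bool) → ℝ) : root n D s a b lam y (H + Ψ) - root n D s a b lam y H =
      ∑ st, sysμ n D s a b lam y H D st * XO (sys n D s a b lam y H) (fun st => Ψ st.2.2) D st := by
  sorry

end Vale.Agent.P168
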