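import Vale.Agent.P168.Sys

namespace Vale.Agent.P168

open Finset Matrix
open scoped BigOperators

theorem var_low {S : Type} [Fintype S] {c c' : Ch S} {D d : ℕ} (hc : c.Pos D) (he : c.EP D)
    (hd : d < D) (X N : S → ℝ) (ha : c'.a = c.a) (hb : c'.b = c.b) (hB : c'.B = c.B)
    (hA : ∀ e, e ≠ d → c'.A e = c.A e) (hd' : ∀ s t, c'.A d s t = c.A d s t * Real.exp (N t))
    {μ : ℕ → S → ℝ} (hμ : Path (c.tl X) D μ) :
    ∑ γ, μ (d + 1) γ * (Real.log (∑ β, (c.tl X).A d γ β * Real.exp (N β)) / c.a d) ≤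
      ∑ γ, μ D γ * (XO c' X D γ - XO c X D γ) := by
  have h1 : ∀ e ≤ d, XO c' X e = XO c X e := by
    intro e hed
    induction e with
    | zero => rfl
    | succ e ih => rw [XO, XO, ih (by omega), ha, hb, hB, hA e (by omega)]
  have hs := Ch.tl_sto hc X
  have key : ∀ e, d + 1 ≤ e → e ≤ D →
      ∑ γ, μ (d + 1) γ * (Real.log (∑ β, (c.tl X).A d γ β * Real.exp (N β)) / c.a d) ≤
        ∑ γ, μ e γ * (XO c' X e γ - XO c X e γ) := by
    intro e h2 h3
    induction e, h2 using Nat.le_induction with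
    | base =>
      refine le_of_eq (sum_congr rfl fun γ _ => congrArg _ ?_)
      have h4 := (he d hd).1.ne'
      have h5 := lse_add (hc d hd).1 h4 (XE c X d) (fun t => N t / c.a d) γ
      have h6 : XO c' X (d + 1) γ = lse (c.A d) (c.a d) (fun t => XE c X d t + N t / c.a d) γ := by
        rw [XO, h1 d le_rfl, ha, hb, hB, lse, lse]
        simp only [hd', mul_add, mul_div_cancel₀ _ h4, Real.exp_add, XE, mul_assoc,
          mul_comm (Real.exp (N _))]
      rw [h6, h5, XO_succ, add_sub_cancel_left, lse]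
      simp only [mul_div_cancel₀ _ h4, Ch.tl]
    | succ e h2 ih =>
      refine (ih (by omega)).trans ?_
      rw [hμ.sum_mo h3, Path.sum_me]
      refine sum_le_sum fun γ _ => mul_le_mul_of_nonneg_left ?_ ((hμ.prob hs h3).1 γ)
      have h4 : XO c' X e = fun s => XO c X e s + (XO c' X e s - XO c X e s) := by
        funext s
        ring
      have h5 := funext (lse_add (hc e h3).2 (he e h3).2.ne' (XO c X e)
        fun s => XO c' X e s - XO c X e s)
      rw [← h4] at h5
      rw [XO, ha, hb, hB, hA e (by omega), h5, lse_add (hc e h3).1 (he e h3).1.ne', XO,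
        add_sub_cancel_left]
      exact (mulVec_mono (hs e h3).1.1 ((hs e h3).2.mulVec_le_lse (he e h3).2 _) γ).trans
        ((hs e h3).1.mulVec_le_lse (he e h3).1 _ γ)
  exact key D hd le_rfl

theorem var_log {S : Type} [Fintype S] {p : S → ℝ} (hp : Prob p) {Y : S → ℝ} (m : ℝ)
    (hm : ∑ t, p t * Y t = m) (hY : ∀ t, |Y t - m| ≤ 1) :
    m + (∑ t, p t * (Y t - m) ^ 2) / 5 ≤ Real.log (∑ t, p t * Real.exp (Y t)) := by
  have h0 : 0 ≤ ∑ t, p t * (Y t - m) ^ 2 := sum_nonneg fun t _ => mul_nonneg (hp.1 t) (sq_nonneg _)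
  have h1 : ∑ t, p t * (Y t - m) ^ 2 ≤ 1 :=
    (sum_le_sum fun t _ => mul_le_of_le_one_right (hp.1 t)
      ((sq_le_one_iff_abs_le_one _).2 (hY t))).trans_eq hp.2
  have h2 : Real.exp m * (1 + (∑ t, p t * (Y t - m) ^ 2) / 4) ≤ ∑ t, p t * Real.exp (Y t) := by
    refine le_of_eq_of_le ?_ (sum_le_sum fun t _ => mul_le_mul_of_nonneg_left
      (show Real.exp m * (1 + (Y t - m) + (Y t - m) ^ 2 / 4) ≤ Real.exp (Y t) from ?_) (hp.1 t))
    · simp only [mul_left_comm (p _), ← mul_sum, mul_add, mul_sub, sum_add_distrib,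
        sum_sub_distrib, ← sum_mul, hp.2, hm, ← mul_div_assoc, ← sum_div]
      ring
    · have h3 := pow_le_pow_left₀ (by linarith [(abs_le.1 (hY t)).1])
        (Real.add_one_le_exp ((Y t - m) / 2)) 2
      rw [← Real.exp_nat_mul] at h3
      rw [show Y t = m + (2 : ℕ) * ((Y t - m) / 2) by push_cast; ring, Real.exp_add]
      refine mul_le_mul_of_nonneg_left (le_of_eq_of_le ?_ h3) (Real.exp_pos _).le
      push_cast
      ring
  refine le_trans ?_ (Real.log_le_log (by positivity) h2)
  generalize ∑ t, p t * (Y t - m) ^ 2 = V at *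
  have h3 := Real.one_sub_inv_le_log_of_pos (show 0 < 1 + V / 4 by positivity)
  have h4 : (1 + V / 4)⁻¹ ≤ 1 - V / 5 := by
    rw [inv_le_iff_one_le_mul₀ (by positivity)]
    nlinarith
  rw [Real.log_mul (Real.exp_pos _).ne' (by positivity), Real.log_exp]
  linarith

theorem var_upd {J K : Type} [Fintype J] [DecidableEq J] [Fintype K] (j : J) (f : (J → K) → ℝ) :
    ∑ g : J → K, ∑ k, f (Function.update g j k) = Fintype.card K * ∑ g, f g := by
  rw [← Fintype.sum_prod_type', Fintype.sum_bijective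
    (fun x : (J → K) × K => (Function.update x.1 j x.2, x.1 j))
    (Function.Involutive.bijective fun x => by simp) _ (fun x => f x.1) fun _ => rfl,
    Fintype.sum_prod_type]
  simp [mul_sum]

variable {n D s : ℕ} {I : Type} [Fintype I] [DecidableEq I] [Inhabited I]

omit [DecidableEq I] [Inhabited I] in
theorem var_wA (y : Fam n D → ℝ) (φ : Fam n D) (h : ℝ) (d : Fin D) (ω : Sl n D s → RA n I) :
    wA (Function.update y φ (y φ + h)) d ω = wA y d ω *
      Real.exp (if φ.1 = d then h * ∑ k : Fin s, if (ω (φ, k)).1 then 1 else 0 else 0) := by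
  have e : (if φ.1 = d then h * ∑ k : Fin s, if (ω (φ, k)).1 then 1 else 0 else 0) =
      ∑ j : Sl n D s, if j.1 = φ then (if (ω j).1 = true ∧ j.1.1 = d then h else 0) else 0 := by
    rw [Fintype.sum_prod_type, sum_eq_single φ (fun ψ _ hψ => by simp [hψ]) (by simp)]
    by_cases hd : φ.1 = d <;> simp [hd, mul_sum, -sum_boole]
  rw [e, Real.exp_sum, wA, wA, ← prod_mul_distrib]
  refine prod_congr rfl fun j _ => ?_
  by_cases h1 : j.1 = φ
  · rw [if_pos h1, h1, Function.update_self]
    split_ifs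
    · rw [Real.exp_add]
      ring
    · simp
  · simp [h1]

omit [Fintype I] [DecidableEq I] [Inhabited I] in
theorem var_cnt (φ : Fam n D) (st : St n D s I) : 0 ≤ cnt φ st ∧ cnt φ st ≤ s := by
  refine ⟨sum_nonneg fun k _ => by split_ifs <;> norm_num,
    (sum_le_sum (g := fun _ => (1 : ℝ)) fun k _ => by split_ifs <;> norm_num).trans_eq (by simp)⟩

theorem var_sys {a b : ℕ → ℝ} {β : ℝ} (he : Expo a b D β) (lam : ℝ) (H : (I → Bool) → ℝ)
    (φ : Fam n D) (y : Fam n D → ℝ) (h : ℝ) :
    ∑ γ, sysμ n D s a b lam y H (φ.1 + 1) γ * (Real.log (∑ β, (sys n D s a b lam y H).A φ.1 γ β *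
      Real.exp (h * cnt φ β)) / a φ.1) ≤
      root n D s a b lam (Function.update y φ (y φ + h)) H - root n D s a b lam y H := by
  have := var_low (c' := base n D s I a b (Function.update y φ (y φ + h)))
    (base_pos n D s a b y) (Expo.ep (c := base n D s I a b y) he) φ.1.2 (term lam H)
    (fun t => h * cnt φ t) rfl rfl rfl (fun e hne => by
      simp only [base]
      split_ifs with hd
      · congr 1
        funext ω
        rw [var_wA, if_neg fun h => hne (congrArg Fin.val h).symm, Real.exp_zero, mul_one]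
      · rfl) (fun st t => by
      simp only [base, dif_pos φ.1.2, rs, sum_mul]
      refine sum_congr rfl fun ω _ => ?_
      split_ifs with h1
      · rw [var_wA, if_pos rfl, ← h1]
        simp [cnt]
      · rw [zero_mul]) (sys_path n D s a b lam y H)
  refine this.trans_eq ?_
  simp [sysμ, mo, dn, root, Pi.single_apply]

theorem var_second {a b : ℕ → ℝ} {β : ℝ} (he : Expo a b D β) (lam : ℝ) (H : (I → Bool) → ℝ)
    (φ : Fam n D) (y : Fam n D → ℝ) (hs : 0 < s) :
    2 / 5 / s ^ 2 * vr (sys n D s a b lam y H) (sysμ n D s a b lam y H) φ / a φ.1 ≤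
      root n D s a b lam (Function.update y φ (y φ + 1 / s)) H - root n D s a b lam y H -
      (root n D s a b lam y H - root n D s a b lam (Function.update y φ (y φ + -(1 / s))) H) := by
  have hs' : (0 : ℝ) < s := by exact_mod_cast hs
  have hA := (sys_sto n D s a b lam y H φ.1 φ.1.2).1
  have hp := (sys_path n D s a b lam y H).prob (sys_sto n D s a b lam y H) φ.1.2
  have h1 := add_le_add (var_sys (s := s) he lam H φ y (1 / s)) (var_sys (s := s) he lam H φ y (-(1 / s)))
  refine le_trans ?_ (h1.trans_eq (by ring))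
  rw [← sum_add_distrib, vr, mul_sum, sum_div]
  refine sum_le_sum fun γ _ => ?_
  rw [← mul_add, ← add_div, mul_left_comm, mul_div_assoc]
  refine mul_le_mul_of_nonneg_left (div_le_div_of_nonneg_right ?_ (he.a_pos φ.1.2).le) (hp.1 γ)
  have h2 : ∀ u : ℝ, |u| = 1 / s → _ := fun u hu => var_log ⟨hA.1 γ, hA.2 γ⟩
    (Y := fun t => u * cnt φ t) (u * ((sys n D s a b lam y H).A φ.1 *ᵥ cnt φ) γ)
    (by simp only [mulVec_apply', mul_sum, mul_left_comm u]) fun t => by
      have a1 := hA.le_mulVec (fun t => (var_cnt φ t).1) γ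
      have a2 := hA.mulVec_le (fun t => (var_cnt φ t).2) γ
      rw [← mul_sub, abs_mul, hu, one_div, inv_mul_le_iff₀ hs', abs_le]
      constructor <;> linarith [(var_cnt φ t).1, (var_cnt φ t).2]
  refine le_of_eq_of_le ?_ (add_le_add (h2 (1 / s) (abs_of_pos (by positivity)))
    (h2 (-(1 / s)) (by rw [abs_neg, abs_of_pos (by positivity)])))
  simp only [← mul_sub, mul_pow, neg_sq, mul_left_comm _ ((1 / (s : ℝ)) ^ 2), ← mul_sum]
  ring

theorem var_inc {a b : ℕ → ℝ} {β : ℝ} (he : Expo a b D β) (lam : ℝ) (H : (I → Bool) → ℝ)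
    (φ : Fam n D) (y : Fam n D → ℝ) {h m : ℝ} (hm : ∀ st : St n D s I, m ≤ h * cnt φ st) :
    m / a φ.1 ≤
      root n D s a b lam (Function.update y φ (y φ + h)) H - root n D s a b lam y H := by
  have hA := (sys_sto n D s a b lam y H φ.1 φ.1.2).1
  have hp := (sys_path n D s a b lam y H).prob (sys_sto n D s a b lam y H) φ.1.2
  refine le_trans (le_of_eq_of_le ?_ (sum_le_sum fun γ _ => mul_le_mul_of_nonneg_left
    (div_le_div_of_nonneg_right (a := m) ?_ (he.a_pos φ.1.2).le) (hp.1 γ))) (var_sys he lam H φ y h)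
  · rw [← sum_mul, hp.2, one_mul]
  · rw [Real.le_log_iff_exp_le (hA.posK.sum_exp_pos _ γ)]
    exact hA.le_mulVec (fun t => Real.exp_le_exp.2 (hm t)) γ

/-- the counts concentrate on average over the grid -/
theorem avg_vr {a b : ℕ → ℝ} {β : ℝ} (he : Expo a b D β) (lam : ℝ) (H : (I → Bool) → ℝ)
    (φ : Fam n D) : 𝔼 g : Fam n D → Fin s,
      vr (sys n D s a b lam (grid g) H) (sysμ n D s a b lam (grid g) H) φ ≤ 4 * s := by
  rcases Nat.eq_zero_or_pos s with rfl | hs
  · have : IsEmpty (Fam n D → Fin 0) := ⟨fun g => (g φ).elim0⟩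
    simp
  have hs' : (0 : ℝ) < s := by exact_mod_cast hs
  have ha := he.a_pos φ.1.2
  have key : ∀ g : Fam n D → Fin s, ∑ k, vr (sys n D s a b lam (grid (Function.update g φ k)) H)
      (sysμ n D s a b lam (grid (Function.update g φ k)) H) φ ≤ s * (4 * s) := by
    intro g
    obtain ⟨G, hG⟩ : ∃ G : ℝ → ℝ, ∀ x, root n D s a b lam (Function.update (grid g) φ x) H = G x :=
      ⟨_, fun _ => rfl⟩
    have e : ∀ k, grid (Function.update g φ k) = Function.update (grid g) φ ((k : ℕ) / s) :=
      fun k => Function.comp_update (fun k : Fin s => ((k : ℕ) : ℝ) / s) g φ k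
    have h1 := sum_le_sum fun k (_ : k ∈ univ) =>
      var_second he lam H φ (grid (Function.update g φ k)) hs
    have h2 := var_inc (s := s) he lam H φ (Function.update (grid g) φ (-(1 / s))) (h := 1 / s)
      (m := 0) fun st => mul_nonneg (by positivity) (var_cnt φ st).1
    have h3 := var_inc (s := s) he lam H φ (Function.update (grid g) φ 1) (h := -(1 / s))
      (m := -1) fun st => by
        rw [neg_mul, neg_le_neg_iff, one_div, inv_mul_le_iff₀ hs', mul_one]
        exact (var_cnt φ st).2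
    rw [← sum_div, ← mul_sum] at h1
    simp only [e, Function.update_self, Function.update_idem, hG] at h1 h2 h3
    have h4 := sum_range_sub (fun k : ℕ => G (k / s) - G (k / s + -(1 / s))) s
    rw [sum_range] at h4
    simp only [Nat.cast_succ, add_div, add_neg_cancel_right, div_self hs'.ne', Nat.cast_zero,
      zero_div, zero_add, neg_add_cancel] at h4 h2
    rw [h4, div_le_iff₀ ha, div_mul_eq_mul_div, div_le_iff₀ (by positivity)] at h1
    rw [div_le_iff₀ ha] at h3
    simp only [e]
    nlinarith [mul_nonneg h2 ha.le, sq_pos_of_pos hs']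
  have h1 := sum_le_sum fun g (_ : g ∈ univ) => key g
  rw [var_upd φ fun g => vr (sys n D s a b lam (grid g) H) (sysμ n D s a b lam (grid g) H) φ,
    Fintype.card_fin, ← mul_sum] at h1
  have : Nonempty (Fin s) := ⟨⟨0, hs⟩⟩
  rw [← Fintype.expect_const (ι := Fam n D → Fin s) (4 * s : ℝ)]
  simp only [expect_eq_sum_div_card]
  exact div_le_div_of_nonneg_right (le_of_mul_le_mul_left h1 hs') (Nat.cast_nonneg _)

end Vale.Agent.P168
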