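import Vale.Agent.P168.DecCh
import Vale.Agent.P168.LemA
import Vale.Agent.P168.Mecke
import Vale.Agent.P168.Var
import Vale.Agent.P168.SysG
import Vale.Agent.P168.FT

namespace Vale.Agent.P168

open Finset Matrix
open scoped BigOperators

/-- decoupling property of a functional at a given Hamiltonian -/
def Dcp (M : ℕ) (R ε : ℝ) {N : ℕ} (G : (Cf N → ℝ) → ℝ) (H : Cf N → ℝ) : Prop :=
  ∃ (ι : Type) (_ : Fintype ι) (w : ι → ℝ) (f : ι → FD), Prob w ∧ (∀ c, (f c).Ok) ∧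
    ∀ (J : Type) [Fintype J] [DecidableEq J], Fintype.card J ≤ M →
    ∀ Φ : (J → Bool) → ℝ, (∀ τ, |Φ τ| ≤ R) →
      |(𝔼 i : J → Fin N, G (H + fun σ => Φ fun j => σ (i j))) - G H -
        ∑ c, w c * (f c).T J (ext Φ)| ≤ ε

/-- a good family of perturbed free energies -/
structure GoodG (M : ℕ) (R ε C : ℝ) (G : (N : ℕ) → (Cf N → ℝ) → ℝ) : Prop where
  near : ∀ N H, |G N H - LZ H| ≤ C
  lip : ∀ N H H', |G N H - G N H'| ≤ ‖H - H'‖
  red : ∀ N, 1 ≤ N → ∀ H : Cf (N + 1) → ℝ, G N (red H) - C / N ≤ G (N + 1) H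
  dcp : ∀ N, 1 ≤ N → ∀ H, Dcp M R ε (G N) H

theorem core (M : ℕ) (R : ℝ) {ε : ℝ} (hε : 0 < ε) : ∃ C G, GoodG M R ε C G := by
  sorry

end Vale.Agent.P168
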