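import Vale.Agent.P168.Probe
import Vale.Agent.P168.TwoLev
import Vale.Agent.P168.Law

/-! Pinning of the probes implies block decorrelation. -/

namespace Vale.Agent.P168

open Finset Filter Topology

section

variable {S S' : Type} [Fintype S] [Fintype S']

/-- One step covariance. -/
def dcCov (κ : S → S → ℝ) (u v : S → ℝ) (s : S) : ℝ :=
  Ex κ (fun t => u t * v t) s - Ex κ u s * Ex κ v s

/-- Weighted two step covariance. -/
def dcG (P Q : S → S → ℝ) (m m' : ℝ) (u v : S → ℝ) (s : S) : ℝ :=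
  m' * dcCov Q (Ex P u) (Ex P v) s + m * Ex Q (dcCov P u v) s

lemma dc_mul {x y x' y' β H : ℝ} (h1 : |x - x'| ≤ β) (h2 : |y - y'| ≤ β) (h3 : |x'| ≤ H)
    (h4 : |y| ≤ H) : |x * y - x' * y'| ≤ 2 * (β * H) := by
  rw [show x * y - x' * y' = (x - x') * y + (y - y') * x' by ring]
  refine (abs_add_le _ _).trans ?_
  rw [abs_mul, abs_mul, two_mul]
  exact add_le_add (mul_le_mul h1 h4 (abs_nonneg _) ((abs_nonneg _).trans h1))
    (mul_le_mul h2 h3 (abs_nonneg _) ((abs_nonneg _).trans h1))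

lemma dc_Ex_sub {κ : S → S → ℝ} (h : IsK κ) {u u' : S → ℝ} {β : ℝ} (h1 : ∀ t, |u t - u' t| ≤ β)
    (s : S) : |Ex κ u s - Ex κ u' s| ≤ β := Ex_sub κ u u' s ▸ h.abs_Ex_le h1 s

lemma dc_cov_sub {κ : S → S → ℝ} (h : IsK κ) {u v u' v' : S → ℝ} {β H : ℝ}
    (h1 : ∀ t, |u t - u' t| ≤ β) (h2 : ∀ t, |v t - v' t| ≤ β) (h3 : ∀ t, |u' t| ≤ H)
    (h4 : ∀ t, |v t| ≤ H) (s : S) : |dcCov κ u v s - dcCov κ u' v' s| ≤ 4 * (β * H) := by
  have a1 := abs_le.1 (dc_Ex_sub h (fun t => dc_mul (h1 t) (h2 t) (h3 t) (h4 t)) s)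
  have a2 := abs_le.1 (dc_mul (dc_Ex_sub h h1 s) (dc_Ex_sub h h2 s) (h.abs_Ex_le h3 s)
    (h.abs_Ex_le h4 s))
  rw [dcCov, dcCov, abs_le]
  constructor <;> linarith

lemma dc_cov_le {κ : S → S → ℝ} (h : IsK κ) {u v : S → ℝ} {H : ℝ} (h3 : ∀ t, |u t| ≤ H)
    (h4 : ∀ t, |v t| ≤ H) (s : S) : |dcCov κ u v s| ≤ 2 * H ^ 2 := by
  have k : ∀ {x y : ℝ}, |x| ≤ H → |y| ≤ H → |x * y| ≤ H ^ 2 := fun a b => by
    rw [abs_mul, sq]; exact mul_le_mul a b (abs_nonneg _) ((abs_nonneg _).trans a)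
  refine (abs_sub _ _).trans ?_
  linarith [h.abs_Ex_le (fun t => k (h3 t) (h4 t)) s, k (h.abs_Ex_le h3 s) (h.abs_Ex_le h4 s)]

lemma dc_step {κ : S → S → ℝ} (h : IsK κ) {m B : ℝ} (hm : 0 < m) {f g : S → ℝ}
    (h1 : ∀ t, |f t - g t| ≤ B) (s : S) : |step κ m f s - step κ m g s| ≤ B :=
  abs_Rec_sub_le (κ := fun _ => κ) (μ := fun _ => m) (fun _ => h) 1 (fun _ _ => hm) h1 s

lemma dc_scale {m x y B : ℝ} (h0 : 0 < m) (h1 : m ≤ 1) (h : |x - y| ≤ B) : |m * x - m * y| ≤ B := by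
  rw [← mul_sub, abs_mul, abs_of_pos h0]
  exact (mul_le_of_le_one_left (abs_nonneg _) h1).trans h

lemma dc_two : ∃ B : ℝ, 0 ≤ B ∧ ∀ (X : Type) [Fintype X] (P Q : X → X → ℝ) (m m' η H : ℝ)
    (x00 x10 x01 x11 u v : X → ℝ), IsK P → IsK Q → 0 < m → m ≤ 1 → 0 < m' → m' ≤ 1 → 0 ≤ H →
    H ≤ η → η ≤ 1 → (∀ t, |x00 t| ≤ η) → (∀ t, |x10 t - x00 t| ≤ H) →
    (∀ t, |x01 t - x00 t| ≤ H) → (∀ t, |x11 t - x01 t| ≤ H) →
    (∀ t, |x10 t - x00 t - u t| ≤ η * H) → (∀ t, |x01 t - x00 t - v t| ≤ η * H) →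
    (∀ t, |u t| ≤ H) → ∀ s, |dcG P Q m m' u v s| ≤
      |step Q m' (step P m x11) s - step Q m' (step P m x10) s - step Q m' (step P m x01) s +
        step Q m' (step P m x00) s| +
      B * (η * H ^ 2 + Ex Q (Ex P fun t => |x11 t - x10 t - x01 t + x00 t|) s) := by
  obtain ⟨C, C0, hC⟩ := step_second
  refine ⟨8 + 9 * C + C ^ 2, by positivity, fun X _ P Q m m' η H x00 x10 x01 x11 u v hP hQ m0 m1
    m0' m1' H0 Hη η1 h1 h2 h3 h4 h5 h6 h7 s => ?_⟩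
  have η0 := H0.trans Hη
  have a1 := hC X P m η H x00 x10 x01 x11 hP m0 m1 H0 Hη η1 h1 h2 h3 h4
  obtain ⟨-, -, a2⟩ := hC X Q m' η H (step P m x00) _ _ _ hQ m0' m1' H0 Hη η1
    (abs_Rec_le (κ := fun _ => P) (μ := fun _ => m) (fun _ => hP) 1 (fun _ _ => m0) h1)
    (dc_step hP m0 h2) (dc_step hP m0 h3) (dc_step hP m0 h4) s
  obtain ⟨E, hE⟩ : ∃ E, E = Ex P fun t => |x11 t - x10 t - x01 t + x00 t| := ⟨_, rfl⟩
  have E0 : ∀ t, 0 ≤ E t := fun t => hE ▸ hP.Ex_nonneg (fun _ => abs_nonneg _) t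
  have b1 : ∀ t, |Ex P (fun t => x11 t - x10 t - x01 t + x00 t) t| ≤ E t := fun t =>
    hE ▸ hP.abs_Ex_le_Ex_abs _ t
  rw [← hE] at a1 ⊢
  have b0 : ∀ t, C * η * (H ^ 2 + E t) ≤ C * (η * H ^ 2) + C * E t := fun t => by
    linarith [mul_le_mul_of_nonneg_left (mul_le_of_le_one_left (E0 t) η1) C0]
  have b2 := dc_scale m0' m1' (dc_cov_sub hQ (β := (1 + C) * (η * H))
    (fun t => (abs_sub_le _ _ _).trans
      ((add_le_add (a1 t).1 (dc_Ex_sub hP h5 t)).trans_eq (by ring)))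
    (fun t => (abs_sub_le _ _ _).trans
      ((add_le_add (a1 t).2.1 (dc_Ex_sub hP h6 t)).trans_eq (by ring)))
    (hP.abs_Ex_le h7) (dc_step hP m0 h3) s)
  have b3 : ∀ t, |step P m x11 t - step P m x10 t - step P m x01 t + step P m x00 t -
      m * dcCov P u v t| ≤ (4 + C) * (η * H ^ 2) + (1 + C) * E t := fun t => by
    have c1 := abs_le.1 (dc_scale m0 m1 (dc_cov_sub hP h5 h6 h7 h3 t))
    have c2 := abs_le.1 ((a1 t).2.2.trans (b0 t))
    have c3 := abs_le.1 (b1 t)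
    rw [dcCov] at c1
    rw [abs_le]
    constructor <;> linarith
  have b4 : ∀ t, |step P m x11 t - step P m x10 t - step P m x01 t + step P m x00 t| ≤
      (2 + C) * H ^ 2 + (1 + C) * E t := fun t => by
    have c1 := abs_le.1 (dc_scale m0 m1 (y := 0) (by simpa using dc_cov_le hP h2 h3 t))
    have c2 := abs_le.1 ((a1 t).2.2.trans (b0 t))
    have c3 := abs_le.1 (b1 t)
    have c4 := mul_le_mul_of_nonneg_left (mul_le_of_le_one_left (sq_nonneg H) η1) C0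
    rw [dcCov] at c1
    rw [abs_le]
    constructor <;> linarith
  have k : ∀ a b, Ex Q (fun t => a + b * E t) s = a + b * Ex Q E s := fun a b => by
    rw [Ex_add, hQ.Ex_const, Ex_mul_left]
  have b5 := (hQ.abs_Ex_le_Ex_abs _ s).trans ((hQ.Ex_mono b3 s).trans_eq (k _ _))
  have b6 := (hQ.Ex_mono b4 s).trans_eq (k _ _)
  rw [Ex_sub, Ex_mul_left] at b5
  have b7 := hQ.Ex_nonneg E0 s
  have b8 := mul_le_mul_of_nonneg_left b6 (mul_nonneg C0 η0)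
  have b9 := mul_le_mul_of_nonneg_left (mul_le_of_le_one_left b7 η1)
    (show 0 ≤ C * (1 + C) by positivity)
  have b10 := mul_nonneg C0 b7
  have b11 : 0 ≤ C * (η * H ^ 2) := by positivity
  rw [dcCov] at b2
  rw [dcG]
  rw [abs_le] at a2 b2 b5
  have b12 : 0 ≤ η * H ^ 2 := by positivity
  refine abs_le.2 ⟨?_, ?_⟩
  · linarith [neg_abs_le (step Q m' (step P m x11) s - step Q m' (step P m x10) s -
      step Q m' (step P m x01) s + step Q m' (step P m x00) s)]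
  · linarith [le_abs_self (step Q m' (step P m x11) s - step Q m' (step P m x10) s -
      step Q m' (step P m x01) s + step Q m' (step P m x00) s)]

lemma dc_Ex_mor {κ : S → S → ℝ} {κ' : S' → S' → ℝ} {φ : S' → S} (h : IsMor φ κ' κ) (u : S → ℝ) :
    Ex κ' (fun t => u (φ t)) = fun t => Ex κ u (φ t) := funext (h u)

lemma dc_cov_mor {κ : S → S → ℝ} {κ' : S' → S' → ℝ} {φ : S' → S} (h : IsMor φ κ' κ)
    (u v : S → ℝ) :
    dcCov κ' (fun t => u (φ t)) (fun t => v (φ t)) = fun t => dcCov κ u v (φ t) := by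
  funext t
  rw [dcCov, dcCov, h u, h v, h fun t => u t * v t]

lemma dc_G_mor {P Q : S → S → ℝ} {P' Q' : S' → S' → ℝ} {φ : S' → S} (hP : IsMor φ P' P)
    (hQ : IsMor φ Q' Q) (m m' : ℝ) (u v : S → ℝ) (x : S') :
    dcG P' Q' m m' (fun t => u (φ t)) (fun t => v (φ t)) x = dcG P Q m m' u v (φ x) := by
  rw [dcG, dc_Ex_mor hP, dc_Ex_mor hP, dc_cov_mor hP, dc_cov_mor hQ, hQ, dcG]

lemma dc_cov_smul (κ : S → S → ℝ) (a b : ℝ) (u v : S → ℝ) :
    dcCov κ (fun t => a * u t) (fun t => b * v t) = fun s => a * b * dcCov κ u v s := by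
  funext s
  simp only [dcCov, mul_mul_mul_comm a, Ex_mul_left]
  ring

lemma dc_G_smul (P Q : S → S → ℝ) (m m' a b : ℝ) (u v : S → ℝ) (s : S) :
    dcG P Q m m' (fun t => a * u t) (fun t => b * v t) s = a * b * dcG P Q m m' u v s := by
  rw [dcG, funext (Ex_mul_left P a u), funext (Ex_mul_left P b v), dc_cov_smul, dc_cov_smul,
    Ex_mul_left, dcG]
  ring

lemma dc_cov_avg {ι : Type} [Fintype ι] (κ : S → S → ℝ) (f : ι → S → ℝ) :
    dcCov κ (fun t => avg fun i => f i t) (fun t => avg fun i => f i t) =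
      fun s => avg fun p : ι × ι => dcCov κ (f p.1) (f p.2) s := by
  funext s
  have k : ∀ a : ι → ℝ, avg a * avg a = avg fun p : ι × ι => a p.1 * a p.2 := fun a => by
    simp only [avg_prod, avg_mul_left, avg_mul_right]
  simp only [dcCov, k, Ex_avg, avg_sub]

lemma dc_G_avg {ι : Type} [Fintype ι] (P Q : S → S → ℝ) (m m' : ℝ) (f : ι → S → ℝ) (s : S) :
    dcG P Q m m' (fun t => avg fun i => f i t) (fun t => avg fun i => f i t) s =
      avg fun p : ι × ι => dcG P Q m m' (f p.1) (f p.2) s := by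
  rw [dcG, funext (Ex_avg P f), dc_cov_avg, dc_cov_avg, Ex_avg]
  simp only [dcG, avg_add, avg_mul_left]

lemma dc_cov_nonneg {κ : S → S → ℝ} (h : IsK κ) (f : S → ℝ) (s : S) : 0 ≤ dcCov κ f f s := by
  simpa only [dcCov, sq, sub_nonneg] using h.Ex_sq_le f s

lemma dc_var {N n : ℕ} {κ : ℕ → S → S → ℝ} (hκ : ∀ d, IsK (κ d)) (σ : S → Fin N → Bool) (r d : ℕ)
    (τ : Tr Bool n d) (s : S) {y : Fin N → ℝ} (hy : Cube y) :
    var2 κ σ d τ y s ≤ (r + 1) * avg fun p : Fin N × Fin N => |dcG (κ d) (κ (d + 1)) (mu r d)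
      (mu r (d + 1)) (fun t => Mv κ σ d τ t p.1) (fun t => Mv κ σ d τ t p.2) s| := by
  have h1 := dc_G_avg (κ d) (κ (d + 1)) (mu r d) (mu r (d + 1))
    (fun i t => y i * Mv κ σ d τ t i) s
  refine le_trans ?_ (mul_le_mul_of_nonneg_left (h1.le.trans (avg_mono fun p => ?_))
    (by positivity))
  · have k : ∀ f : S → ℝ, Ex (κ (d + 1)) (Ex (κ d) fun t => f t ^ 2) s -
        Ex (κ (d + 1)) (Ex (κ d) f) s ^ 2 ≤
        (r + 1) * dcG (κ d) (κ (d + 1)) (mu r d) (mu r (d + 1)) f f s := fun f => by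
      have k0 : ∀ e, 1 ≤ (r + 1) * mu r e := fun e => (div_le_iff₀' (by positivity)).1 (mu_ge r e)
      have k1 := le_mul_of_one_le_left (dc_cov_nonneg (hκ (d + 1)) (Ex (κ d) f) s) (k0 (d + 1))
      have k2 := le_mul_of_one_le_left ((hκ (d + 1)).Ex_nonneg (dc_cov_nonneg (hκ d) f) s) (k0 d)
      have k3 := Ex_sub (κ (d + 1)) (Ex (κ d) fun t => f t * f t)
        (fun t => Ex (κ d) f t * Ex (κ d) f t) s
      simp only [dcG, sq]
      change Ex _ (dcCov (κ d) f f) s = _ at k3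
      rw [dcCov] at k1 ⊢
      linarith
    exact k fun t => lin y (Mv κ σ d τ t)
  · rw [dc_G_smul]
    refine (le_abs_self _).trans ?_
    rw [abs_mul, abs_mul]
    exact mul_le_of_le_one_left (abs_nonneg _) (mul_le_one₀ (hy _) (abs_nonneg _) (hy _))

variable {r n : ℕ} {κ : ℕ → S → S → ℝ}

lemma dc_swap (σ σ' : S → Bool) (h : ℝ) (ρ ρ' : PT (2 * r + 1) n) (z z' : Bool) (d : ℕ)
    (x : (S × Own (2 * r + 1) n) × Own (2 * r + 1) n) :
    twoP r n κ σ σ' h ρ ρ' z z' d x = twoP r n κ σ' σ h ρ' ρ z' z d ((x.1.1, x.2), x.1.2) := by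
  let e : (S × Own (2 * r + 1) n) × Own (2 * r + 1) n ≃ (S × Own (2 * r + 1) n) × Own (2 * r + 1) n :=
    ⟨fun x => ((x.1.1, x.2), x.1.2), fun x => ((x.1.1, x.2), x.1.2), fun _ => rfl, fun _ => rfl⟩
  refine Eq.trans ?_ (Rec_mor (φ := e) _ _ d
    (fun _ _ => isMor_of_equiv e fun _ _ => mul_right_comm _ _ _) x)
  simp only [twoP, add_comm (probe h ρ z _ _)]
  rfl

lemma dc_K (hκ : ∀ d, IsK (κ d)) (d : ℕ) :
    IsK (prodK (prodK κ (ownK (2 * r + 1) n)) (ownK (2 * r + 1) n) d) :=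
  isK_prodK (isK_prodK (hκ d) (isK_ownK _ _ d)) (isK_ownK _ _ d)

lemma dc_mor (d : ℕ) : IsMor (fun x => x.1.1)
    (prodK (prodK κ (ownK (2 * r + 1) n)) (ownK (2 * r + 1) n) d) (κ d) :=
  (isMor_fst κ (isK_ownK _ _ d)).comp (isMor_fst _ (isK_ownK _ _ d))

end

lemma dc_pt (r n : ℕ) (ρ : PT (2 * r + 1) n) (hw : wt (mu r) ρ.1.val ρ.2 ≠ 0)
    (hs : Single ρ.1.val ρ.2) : ∃ c B h₀ : ℝ, c ≠ 0 ∧ 0 ≤ B ∧ 0 < h₀ ∧ ∀ h, 0 < h → h ≤ h₀ →
      ∀ (S : Type) [Fintype S] (κ : ℕ → S → S → ℝ) (σ σ' : S → Bool), (∀ d, IsK (κ d)) →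
        ∀ x : (S × Own (2 * r + 1) n) × Own (2 * r + 1) n,
        (c * h ^ size ρ.1.val ρ.2) ^ 2 * |dcG (κ ρ.1) (κ (ρ.1 + 1)) (mu r ρ.1) (mu r (ρ.1 + 1))
          (ev κ (fun b t => if σ t = b then 1 else 0) ρ.1.val ρ.2)
          (ev κ (fun b t => if σ' t = b then 1 else 0) ρ.1.val ρ.2) x.1.1| ≤
        |sdiff r n κ σ σ' h ρ ρ (ρ.1 + 2) x| + B * (h * (h ^ size ρ.1.val ρ.2) ^ 2 +
          Pr (prodK (prodK κ (ownK (2 * r + 1) n)) (ownK (2 * r + 1) n)) ρ.1 2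
            (fun x => |sdiff r n κ σ σ' h ρ ρ ρ.1 x|) x) := by
  obtain ⟨c, C, h₀, c0, C0, h0, h1, hp⟩ := probe_odd r n ρ hw hs
  obtain ⟨B, B0, hB⟩ := dc_two
  obtain ⟨A, hA⟩ : ∃ A, A = 4 + |c| + C := ⟨_, rfl⟩
  have c1 := abs_nonneg c
  have A0 : 1 ≤ A := by linarith
  refine ⟨c, B * A ^ 3, min h₀ (1 / A), c0, by positivity, by positivity,
    fun h k0 k1 S _ κ σ σ' hκ x => ?_⟩
  obtain ⟨k1, k2⟩ := le_min_iff.1 k1
  rw [le_div_iff₀' (by positivity)] at k2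
  obtain ⟨k, hk⟩ : ∃ k, k = size ρ.1.val ρ.2 := ⟨_, rfl⟩
  have k3 : h ^ k ≤ h := pow_le_of_le_one k0.le (by linarith) (hk ▸ (one_le_size _ _).trans_lt'
    zero_lt_one).ne'
  have k4 : 0 < h ^ k := by positivity
  have k5 : h * h ^ k ≤ h ^ k := mul_le_of_le_one_left k4.le (by linarith)
  rw [← hk] at hp ⊢
  have a0 := fun z o b => abs_probe_le k0.le (by linarith) ρ z o b
  have a1 : ∀ (σ : S → Bool) (t : S),
      |c * h ^ k * ev κ (fun b t => if σ t = b then 1 else 0) ρ.1.val ρ.2 t| ≤ |c| * h ^ k := by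
    intro σ t
    rw [abs_mul, abs_mul, abs_of_pos k4]
    refine mul_le_of_le_one_right (by positivity)
      ((abs_ev_le hκ (fun l s => ?_) _ _ _).trans_eq (one_pow _))
    split_ifs <;> simp
  have a2 : ∀ (σ σ' : S → Bool) z x, |twoP r n κ σ σ' h ρ ρ z true ρ.1 x -
      twoP r n κ σ σ' h ρ ρ z false ρ.1 x - c * h ^ k *
        ev κ (fun b t => if σ' t = b then 1 else 0) ρ.1.val ρ.2 x.1.1| ≤ C * (h * h ^ k) := by
    intro σ σ' z x
    have := hp _ (prodK κ (ownK (2 * r + 1) n)) (fun s => σ' s.1)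
      (fun s => probe h ρ z s.2 (σ s.1)) h (fun d => isK_prodK (hκ d) (isK_ownK _ _ d)) k0 k1
      (fun s => a0 _ _ _) x
    rwa [ev_mor (φ := Prod.fst) (fun b t => if σ' t = b then 1 else 0) _
      (fun e _ => isMor_fst κ (isK_ownK _ _ e)), pow_succ'] at this
  have a3 : ∀ z x, |twoP r n κ σ σ' h ρ ρ true z ρ.1 x -
      twoP r n κ σ σ' h ρ ρ false z ρ.1 x - c * h ^ k *
        ev κ (fun b t => if σ t = b then 1 else 0) ρ.1.val ρ.2 x.1.1| ≤ C * (h * h ^ k) := by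
    intro z x
    rw [dc_swap σ σ' h ρ ρ true, dc_swap σ σ' h ρ ρ false]
    exact a2 σ' σ z _
  have a4 : ∀ {a b : ℝ}, |a - b| ≤ C * (h * h ^ k) → |b| ≤ |c| * h ^ k → |a| ≤ A * h ^ k :=
    fun {a b} i j => by
      linarith [abs_sub_abs_le_abs_sub a b, mul_le_mul_of_nonneg_left k5 C0, hA ▸ add_mul _ C (h ^ k)]
  have a5 : C * (h * h ^ k) ≤ A * h * (A * h ^ k) := by
    rw [mul_mul_mul_comm]
    exact mul_le_mul_of_nonneg_right (by nlinarith) (by positivity)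
  have a6 := hB _ _ _ _ _ (A * h) (A * h ^ k) _ _ _ _ _ _ (dc_K hκ ρ.1) (dc_K hκ (ρ.1 + 1))
    (mu_pos r ρ.1) (mu_le_one r _) (mu_pos r (ρ.1 + 1)) (mu_le_one r _) (by positivity)
    (by gcongr) k2 (fun t => (abs_Rec_le (dc_K hκ) _ (fun e _ => mu_pos r e) (fun t =>
      (abs_add_le _ _).trans (add_le_add (a0 _ _ _) (a0 _ _ _))) t).trans (by nlinarith))
    (fun t => a4 (a3 false t) (a1 _ _)) (fun t => a4 (a2 σ σ' false t) (a1 _ _))
    (fun t => a4 (a3 true t) (a1 _ _)) (fun t => (a3 false t).trans a5)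
    (fun t => (a2 σ σ' false t).trans a5) (fun t => (a1 _ _).trans (by gcongr; linarith)) x
  rw [dc_G_smul, dc_G_mor (dc_mor _) (dc_mor _), abs_mul, abs_mul_self, ← sq] at a6
  refine a6.trans (add_le_add le_rfl ?_)
  rw [mul_assoc B]
  refine mul_le_mul_of_nonneg_left ?_ B0
  rw [mul_add]
  exact add_le_add (le_of_eq (by ring)) (le_mul_of_one_le_left
    ((dc_K hκ _).Ex_nonneg ((dc_K hκ _).Ex_nonneg fun _ => abs_nonneg _) _) (one_le_pow₀ A0))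

theorem dec_of_pin (r n : ℕ) {ε : ℝ} (hε : 0 < ε) :
    ∃ h ε' : ℝ, 0 < h ∧ h ≤ 1 / 4 ∧ 0 < ε' ∧
      ∀ (N : ℕ) (S : Type) [Fintype S] (κ : ℕ → S → S → ℝ) (σ : S → Fin N → Bool) (s₀ : S),
        1 ≤ N → (∀ d, IsK (κ d)) →
        (∀ e, e < r → ∀ ρ : PT (2 * r + 1) n, pinq r n κ σ s₀ h e ρ ρ ≤ ε') →
        Dec r n κ σ s₀ ε := by
  have key : ∀ (e : Fin r) (τ : Tr Bool n (2 * e)), ∀ᶠ h in 𝓝[>] (0 : ℝ), ∀ᶠ ε' in 𝓝[>] (0 : ℝ),
      ∀ (N : ℕ) (S : Type) [Fintype S] (κ : ℕ → S → S → ℝ) (σ : S → Fin N → Bool) (s₀ : S),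
        1 ≤ N → (∀ d, IsK (κ d)) →
        (∀ e, e < r → ∀ ρ : PT (2 * r + 1) n, pinq r n κ σ s₀ h e ρ ρ ≤ ε') →
        wt (mu r) (2 * e) τ ≠ 0 → ∃ w : S → ℝ, (∀ s y, Cube y → var2 κ σ (2 * e) τ y s ≤ w s) ∧
          Pr κ (2 * e + 2) (2 * (r - e) - 1) w s₀ ≤ ε := by
    rintro ⟨e, he⟩ τ
    by_cases hw : wt (mu r) (2 * e) τ = 0
    · exact .of_forall fun _ => .of_forall fun _ _ _ _ _ _ _ _ _ _ h => absurd hw h
    obtain ⟨c, B, h₀, c0, B0, h0, hp⟩ := dc_pt r n ⟨⟨2 * e, by omega⟩, τ⟩ hw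
      (single_of_wt_ne_zero r e τ hw)
    obtain ⟨R, hR⟩ : ∃ R, R = 2 * ((r : ℝ) + 1) * (B + 1) := ⟨_, rfl⟩
    have R0 : 0 < R := by rw [hR]; positivity
    filter_upwards [Ioc_mem_nhdsGT h0, Ioc_mem_nhdsGT (show 0 < ε * c ^ 2 / R by positivity)]
      with h h1 h2
    have h3 := h1.1
    obtain ⟨a, ha⟩ : ∃ a, a = h ^ size (2 * e) τ := ⟨_, rfl⟩
    have a0 : 0 < a := by rw [ha]; positivity
    filter_upwards [Ioc_mem_nhdsGT (show 0 < ε * (c * a) ^ 2 / R by positivity)]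
      with ε' h4 N S _ κ σ s₀ hN hκ hpin _
    refine ⟨_, fun s y hy => dc_var hκ σ r _ τ s hy, ?_⟩
    have : Nonempty (Fin N) := ⟨⟨0, hN⟩⟩
    have b1 : avg (fun p : Fin N × Fin N => Pr (prodK (prodK κ (ownK (2 * r + 1) n))
        (ownK (2 * r + 1) n)) (2 * e) (2 + (2 * (r - e) - 1)) (fun x => |sdiff r n κ
          (fun s => σ s p.1) (fun s => σ s p.2) h ⟨⟨2 * e, by omega⟩, τ⟩ ⟨⟨2 * e, by omega⟩, τ⟩
            (2 * e) x|) ((s₀, fun _ => false), fun _ => false)) ≤ ε' := by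
      generalize (⟨⟨2 * e, by omega⟩, τ⟩ : PT (2 * r + 1) n) = ρ
      cases e with
      | zero =>
        refine (avg_mono fun p => (Pr_mono (dc_K hκ) _ _ (fun x => le_of_eq ?_) _).trans_eq
          (Pr_const (dc_K hκ) _ _ 0 _)).trans ((avg_const 0).trans_le h4.1.le)
        simp only [sdiff, twoP, Rec]
        ring_nf
        exact abs_zero
      | succ e =>
        rw [show 2 + (2 * (r - (e + 1)) - 1) = 2 * (r - e) - 1 by omega]
        exact hpin e (by omega) ρ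
    have b2 := avg_mono fun p : Fin N × Fin N => Pr_mono (dc_K hκ) (2 * e + 2) (2 * (r - e) - 1)
      (hp h h1.1 h1.2 S κ (fun s => σ s p.1) (fun s => σ s p.2) hκ)
      ((s₀, fun _ => false), fun _ => false)
    simp only [Pr_mul_left, Pr_add, Pr_const (dc_K hκ), ← Pr_add_comp, avg_add, avg_mul_left,
      avg_const, ← ha] at b2
    have b3 := hpin e he ⟨⟨2 * e, by omega⟩, τ⟩
    have b4 := (le_div_iff₀ R0).1 h2.2
    have b5 := (le_div_iff₀ R0).1 h4.2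
    have b6 := b2.trans (add_le_add b3 (mul_le_mul_of_nonneg_left (add_le_add le_rfl b1) B0))
    rw [Pr_mul_left, Pr_avg]
    refine le_of_mul_le_mul_left ?_ (show 0 < (c * a) ^ 2 by positivity)
    rw [mul_left_comm]
    refine (mul_le_mul_of_nonneg_left (le_trans (le_of_eq ?_) b6) (by positivity)).trans ?_
    · exact congrArg (_ * avg ·) (funext fun p => (Pr_mor (κ := κ) _ _
        (fun d _ _ => dc_mor (r := r) (n := n) d) _ ((s₀, fun _ => false), fun _ => false)).symm)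
    · have b7 := mul_le_mul_of_nonneg_right b4 (sq_nonneg a)
      have b8 : 0 ≤ (r + 1) * (h * a ^ 2) := by positivity
      rw [hR] at b5 b7
      linarith
  obtain ⟨h, h1, h2⟩ := ((eventually_all.2 fun e => eventually_all.2 (key e)).and
    (Ioc_mem_nhdsGT (show (0 : ℝ) < 1 / 4 by norm_num))).exists
  obtain ⟨ε', h3, h4⟩ := ((eventually_all.2 fun e => eventually_all.2 (h1 e)).and
    self_mem_nhdsWithin).exists
  exact ⟨h, ε', h2.1, h2.2, h4, fun N S _ κ σ s₀ hN hκ hp e he τ hw =>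
    h3 ⟨e, he⟩ τ N S κ σ s₀ hN hκ hp hw⟩

end Vale.Agent.P168
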