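import Vale.Agent.P168.Basic

namespace Vale.Agent.P168

open Finset Matrix
open scoped BigOperators

variable {S : Type} [Fintype S]

/-- changing the intermediate exponents -/
theorem XE_fl {c : Ch S} {D : ℕ} {β δ R : ℝ} (h : c.Sto D) (he : Expo c.a c.b D β)
    (hδ : ∀ d < D, c.a d - c.b (d + 1) ≤ δ) {X : S → ℝ} (hX : ∀ s, |X s| ≤ R) {d : ℕ} (hd : d < D)
    (s : S) : |XE c X d s - XE c.fl X d s| ≤ 2 * R * δ * d / β := by
  sorry

/-- the levels with small exponents act as a plain expectation -/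
theorem XO_top {c : Ch S} {D : ℕ} {β R : ℝ} {μ : ℕ → S → ℝ} (h : c.Sto D) (he : Expo c.a c.b D β)
    (hμ : Path c D μ) {X : S → ℝ} (hX : ∀ s, |X s| ≤ R) {d : ℕ} (hd : d < D)
    (hR : c.b d * R ≤ 1) :
    |∑ s, μ D s * XO c X D s - ∑ s, me c μ d s * XE c X d s| ≤ c.b d * R ^ 2 := by
  sorry

theorem expo_grid {k D : ℕ} {δ : ℝ} (hD : D < k) (hδ : 0 < δ) (hδk : δ < 1 / k) :
    Expo (gA k δ) (gb k) D (gb k D) := by
  sorry

variable {I : Type} [Fintype I] [DecidableEq S] [DecidableEq I] [Nonempty I]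

theorem fdOf_ok {c : Ch S} {D : ℕ} {β : ℝ} (h : c.Sto D) (he : Expo c.a c.b D β)
    (sp : S → I → Bool) {d : ℕ} (hd : d < D) (s : S) : (fdOf c sp d s).Ok := by
  sorry

/-- the trial functional of `fdOf` is the recursion of independent copies of the chain -/
theorem fdOf_T {c : Ch S} {D : ℕ} {β : ℝ} (h : c.Sto D) (he : Expo c.a c.b D β)
    (sp : S → I → Bool) {d : ℕ} (hd : d < D) (s : S) (J : Type) [Fintype J] [DecidableEq J]
    (Φ : (J → Bool) → ℝ) : (fdOf c sp d s).T J (ext Φ) =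
      𝔼 i : J → I, XE (c.pi J).fl (fun u => Φ fun j => sp (u j) (i j)) d fun _ => s := by
  sorry

end Vale.Agent.P168
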