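import Vale.Agent.P168.Level
import Vale.Agent.P168.Avg
import Vale.Agent.P168.Exps

namespace Vale.Agent.P168

open Finset Matrix
open scoped BigOperators

/-- decoupling for a chain with small response -/
theorem dec_chain (M : ℕ) (R : ℝ) {ε : ℝ} (hε : 0 < ε) : ∃ n k D e : ℕ, ∃ η δ : ℝ,
    0 < n ∧ 0 < e ∧ e ≤ D ∧ D < k ∧ 0 < η ∧ 0 < δ ∧ δ < 1 / k ∧
    ∀ {S I : Type} [Fintype S] [Fintype I] [DecidableEq S] [DecidableEq I] [Nonempty I]
      (c : Ch S) (μ : ℕ → S → ℝ) (sp : S → I → Bool), c.a = gA k δ → c.b = gb k → c.Sto D →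
      Path c D μ → Resp n c μ (ind sp) D η →
      ∀ (J : Type) [Fintype J] [DecidableEq J], Fintype.card J ≤ M →
      ∀ Φ : (J → Bool) → ℝ, (∀ τ, |Φ τ| ≤ R) →
        |(𝔼 i : J → I, ∑ s, μ D s * XO c (fun s => Φ fun j => sp s (i j)) D s) -
          𝔼 d : Fin e, ∑ s, me c μ (D - 1 - d) s * (fdOf c sp (D - 1 - d) s).T J (ext Φ)| ≤ ε := by
  sorry

end Vale.Agent.P168
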