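import Mathlib

namespace Vale.Agent.P168

open MeasureTheory ProbabilityTheory Finset
open scoped NNReal BigOperators

/-- the spin value `+1` or `-1` of a Boolean -/
def sg (b : Bool) : ℝ := if b then 1 else -1

/-- clause functions `θ : {-1,1}^K → ℝ` (with the sup norm) -/
abbrev Cl (K : ℕ) : Type := (Fin K → Bool) → ℝ

/-- the Hamiltonian with `M` clauses `θ k` placed on the sites `i k j`, and fields `h` -/
def Ham {K N M : ℕ} (θ : Fin M → Cl K) (i : Fin M → Fin K → Fin N) (h : Fin N → ℝ)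
    (σ : Fin N → Bool) : ℝ :=
  ∑ k, θ k (fun j => σ (i k j)) + ∑ v, h v * sg (σ v)

/-- the pressure `F_N`; `ν` is the law of `θ` and `μ` is the law of `h` -/
noncomputable def pressure {K : ℕ} (ν : Measure (Cl K)) (μ : Measure ℝ) (lam : ℝ≥0) (N : ℕ) : ℝ :=
  (1 / (N : ℝ)) * ∫ M, (∫ θ, (∫ h, (𝔼 i : Fin M → Fin K → Fin N,
    Real.log (∑ σ : Fin N → Bool, Real.exp (Ham θ i h σ)))
      ∂(Measure.pi fun _ : Fin N => μ)) ∂(Measure.pi fun _ : Fin M => ν))
        ∂(poissonMeasure (lam * N))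

/-- the recursion `Y_{p-1} = (E_p Y_p ^ m_p) ^ (1 / m_p)`, `p = r, ..., 1`; the value is `Y_0` -/
noncomputable def nest {W : Type} [MeasurableSpace W] (P : Measure W) :
    (r : ℕ) → (Fin r → ℝ) → ((Fin r → W) → ℝ) → ℝ
  | 0, _, Y => Y Fin.elim0
  | r + 1, m, Y =>
      (∫ w, nest P r (Fin.tail m) (fun ω => Y (Fin.cons w ω)) ^ m 0 ∂P) ^ (1 / m 0)

/-- trial parameters of depth `r` -/
structure Trial (r : ℕ) where
  m : Fin r → ℝ
  x : (Fin (r + 1) → unitInterval) → ℝ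
  m_mono : StrictMono m
  m_pos : ∀ p, 0 < m p
  m_lt : ∀ p, m p < 1
  x_meas : Measurable x
  x_le : ∀ ω, |x ω| ≤ 1

/-- `E log Y_0` over the messages, for a function `Y` of independent messages indexed by `J` -/
noncomputable def msgT {r : ℕ} (p : Trial r) (J : Type) [Fintype J] (Y : (J → ℝ) → ℝ) : ℝ :=
  ∫ w : J → unitInterval, Real.log (nest (volume : Measure (J → unitInterval)) r p.m
    fun ω => Y fun j => p.x (Fin.cons (w j) fun q => ω q j))

/-- the cavity variable `U` as a function of the messages -/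
noncomputable def cavU {K M : ℕ} (θ : Fin M → Cl K) (l : Fin M → Fin K) (h : ℝ)
    (x : Fin M × Fin K → ℝ) : ℝ :=
  ∑ ε : Bool, Real.exp (h * sg ε) * ∏ k, ∑ σ : Fin K → Bool with σ (l k) = ε,
    Real.exp (θ k σ) * ∏ j ∈ univ.erase (l k), (1 + x (k, j) * sg (σ j)) / 2

/-- the variable `V` as a function of the messages -/
noncomputable def cavV {K M : ℕ} (θ : Fin M → Cl K) (x : Fin M × Fin K → ℝ) : ℝ :=
  ∏ k, ∑ σ : Fin K → Bool, Real.exp (θ k σ) * ∏ j, (1 + x (k, j) * sg (σ j)) / 2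

/-- the value `T U` -/
noncomputable def TU {K r : ℕ} (ν : Measure (Cl K)) (μ : Measure ℝ) (lam : ℝ≥0) (p : Trial r) : ℝ :=
  ∫ M, (∫ θ, (∫ h, (𝔼 l : Fin M → Fin K, msgT p (Fin M × Fin K) (cavU θ l h)) ∂μ)
    ∂(Measure.pi fun _ : Fin M => ν)) ∂(poissonMeasure (K * lam))

/-- the value `T V` -/
noncomputable def TV {K r : ℕ} (ν : Measure (Cl K)) (lam : ℝ≥0) (p : Trial r) : ℝ :=
  ∫ M, (∫ θ, msgT p (Fin M × Fin K) (cavV θ) ∂(Measure.pi fun _ : Fin M => ν))
    ∂(poissonMeasure ((K - 1) * lam))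

/-- `Φ_r` -/
noncomputable def Phi {K : ℕ} (ν : Measure (Cl K)) (μ : Measure ℝ) (lam : ℝ≥0) (r : ℕ) : ℝ :=
  ⨅ p : Trial r, (TU ν μ lam p - TV ν lam p)

end Vale.Agent.P168
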