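import Vale.Agent.P168.BrDis
import Vale.Agent.P168.DiscrA

/-! Discretisation of the disorder preserving the product structure. -/

namespace Vale.Agent.P168

open Finset MeasureTheory ProbabilityTheory Filter Topology

section Struct

variable {Ω : Type*} [MeasurableSpace Ω] {P : Measure Ω} [IsProbabilityMeasure P] {K : ℕ}
  {G : Type} [Fintype G] [MeasurableSpace G] [MeasurableSingletonClass G]

theorem dsc_fact (hK : 1 ≤ K) {b : Ω → ℝ} {f : Fin K → Ω → Bool → ℝ} (hbm : Measurable b)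
    (hfm : ∀ j, Measurable (f j)) (hind : iIndepFun f P)
    (hid : ∀ j j', IdentDistrib (f j) (f j') P P) (hbf : IndepFun b (fun ω j => f j ω) P)
    {cd : ℝ → G} (hcd : Measurable cd) (A : G → ℝ) (g : Fin K → (Bool → G) → ℝ) :
    ∫ ω, A (cd (b ω)) * ∏ j, g j (fun t => cd (f j ω t)) ∂P =
      (∫ ω, A (cd (b ω)) ∂P) * ∏ j, ∫ ω, g j (fun t => cd (f ⟨0, hK⟩ ω t)) ∂P := by
  have m1 : Measurable (fun x : ℝ => A (cd x)) := (measurable_of_finite A).comp hcd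
  have m0 : Measurable (fun (y : Bool → ℝ) t => cd (y t)) :=
    measurable_pi_lambda _ (fun t => hcd.comp (measurable_pi_apply t))
  have m2 : ∀ j, Measurable (fun y : Bool → ℝ => g j (fun t => cd (y t))) := fun j =>
    (measurable_of_finite (g j)).comp m0
  have m3 : Measurable (fun F : Fin K → Bool → ℝ => ∏ j, g j (fun t => cd (F j t))) :=
    Finset.measurable_prod _ (fun j _ => (m2 j).comp (measurable_pi_apply j))
  have h1 := hbf.integral_fun_comp_mul_comp (f := fun x : ℝ => A (cd x))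
    (g := fun F : Fin K → Bool → ℝ => ∏ j, g j (fun t => cd (F j t))) hbm.aemeasurable
    (measurable_pi_lambda _ hfm).aemeasurable m1.aestronglyMeasurable m3.aestronglyMeasurable
  have h2 := hind.integral_fun_prod_comp
    (f := fun j (y : Bool → ℝ) => g j (fun t => cd (y t))) (fun j => (hfm j).aemeasurable)
    (fun j => (m2 j).aestronglyMeasurable)
  have h3 : ∀ j, ∫ ω, g j (fun t => cd (f j ω t)) ∂P =
      ∫ ω, g j (fun t => cd (f ⟨0, hK⟩ ω t)) ∂P := fun j =>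
    ((hid j ⟨0, hK⟩).comp (m2 j)).integral_eq
  rw [h1, h2]
  simp only [h3]

theorem dsc_struct (hK : 1 ≤ K) {α b h : Ω → ℝ} {f : Fin K → Ω → Bool → ℝ} (hαm : Measurable α)
    (hbm : Measurable b) (hfm : ∀ j, Measurable (f j)) (hhm : Measurable h)
    (hb : ∀ ω, |b ω| ≤ 1) (hind : iIndepFun f P)
    (hid : ∀ j j', IdentDistrib (f j) (f j') P P) (hbf : IndepFun b (fun ω j => f j ω) P)
    (hpos : ∀ n : ℕ, 1 ≤ n → 0 ≤ ∫ ω, (-b ω) ^ n ∂P)
    {cd : ℝ → G} (hcd : Measurable cd) (vl : G → ℝ) {t : ℝ} (ht0 : 0 ≤ t) (ht1 : t < 1) :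
    ∃ (Θ Φ : Type) (_ : Fintype Θ) (_ : Fintype Φ) (ι : Ω → Θ) (q : Θ → ℝ) (th : Θ → Cl K)
      (hv : Θ → ℝ) (p : Φ → ℝ) (fv : Φ → Bool → ℝ) (a' b' : Θ → ℝ) (φ : Θ → Fin K → Φ),
      (∀ c, MeasurableSet (ι ⁻¹' {c})) ∧ (∀ c, q c = P.real (ι ⁻¹' {c})) ∧
      FinStruct q th p fv a' b' φ (t ^ 2) t ((∫ ω, |b ω - dcl (vl (cd (b ω)))| ∂P) / (1 - t)) ∧
      (∀ ω, th (ι ω) = dtr (t ^ 2) (vl (cd (α ω))) (dcl (vl (cd (b ω))))
        (fun j s => dcl (vl (cd (f j ω s))))) ∧ (∀ ω, hv (ι ω) = vl (cd (h ω))) := by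
  classical
  let ι : Ω → G × G × G × (Fin K → Bool → G) := fun ω =>
    (cd (h ω), cd (α ω), cd (b ω), fun j s => cd (f j ω s))
  have mf : ∀ j, Measurable (fun ω s => cd (f j ω s)) := fun j =>
    measurable_pi_lambda _ (fun s => hcd.comp ((measurable_pi_apply s).comp (hfm j)))
  have mι : Measurable ι :=
    (hcd.comp hhm).prodMk ((hcd.comp hαm).prodMk ((hcd.comp hbm).prodMk
      (measurable_pi_lambda _ mf)))
  have hι : ∀ c, MeasurableSet (ι ⁻¹' {c}) := fun c => mι (measurableSet_singleton c)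
  have hψ : ∀ c : Bool → G, MeasurableSet ((fun ω s => cd (f ⟨0, hK⟩ ω s)) ⁻¹' {c}) :=
    fun c => mf _ (measurableSet_singleton c)
  have ht2 : t ^ 2 < 1 := by nlinarith
  have hp : ∀ (c : G × G × G × (Fin K → Bool → G)) (s : Fin K → Bool),
      0 < 1 + dpr (t ^ 2) (dcl (vl c.2.2.1)) (fun j s => dcl (vl (c.2.2.2 j s))) s := by
    intro c s
    have := dpr_abs' (sq_nonneg t) (dcl_abs (vl c.2.2.1))
      (F := fun j s => dcl (vl (c.2.2.2 j s))) (fun _ _ => dcl_abs _) s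
    linarith [(abs_le.1 this).1]
  refine ⟨G × G × G × (Fin K → Bool → G), Bool → G, inferInstance, inferInstance, ι,
    fun c => P.real (ι ⁻¹' {c}),
    fun c => dtr (t ^ 2) (vl c.2.1) (dcl (vl c.2.2.1)) (fun j s => dcl (vl (c.2.2.2 j s))),
    fun c => vl c.1, fun c => P.real ((fun ω s => cd (f ⟨0, hK⟩ ω s)) ⁻¹' {c}),
    fun g s => dcl (vl (g s)),
    fun c => Real.exp (vl c.2.1) / (1 + dpr (t ^ 2) (dcl (vl c.2.2.1))
      (fun j s => dcl (vl (c.2.2.2 j s))) (fun _ => true)),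
    fun c => t ^ 2 * dcl (vl c.2.2.1), fun c => c.2.2.2, hι, fun _ => rfl,
    ⟨isPr_simple hψ (fun _ => rfl), fun _ _ => dcl_abs _,
      fun c => div_pos (Real.exp_pos _) (hp c _), fun c => ?_, sq_nonneg t, ht2, ht0, ht1, ?_,
      fun c s => dtr_exp (hp c) s, fun n g => ?_, fun n hn => ?_⟩, fun _ => rfl, fun _ => rfl⟩
  · rw [abs_mul, abs_of_nonneg (sq_nonneg t)]
    exact mul_le_of_le_one_right (sq_nonneg t) (dcl_abs _)
  · exact div_nonneg (integral_nonneg (fun _ => abs_nonneg _)) (by linarith)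
  · rw [← integral_simple hι (fun _ => rfl), ← integral_simple hι (fun _ => rfl)]
    have h1 : ∀ j, ∑ c, P.real ((fun ω s => cd (f ⟨0, hK⟩ ω s)) ⁻¹' {c}) * g j c =
        ∫ ω, g j (fun s => cd (f ⟨0, hK⟩ ω s)) ∂P := fun j =>
      (integral_simple hψ (fun _ => rfl) (g j)).symm
    simp only [h1]
    exact dsc_fact hK hbm hfm hind hid hbf hcd (fun c => (-(t ^ 2 * dcl (vl c))) ^ n) g
  · rw [← integral_simple hι (fun _ => rfl)]
    have m1 : Measurable (fun ω => dcl (vl (cd (b ω)))) :=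
      (measurable_of_finite (fun c => dcl (vl c))).comp (hcd.comp hbm)
    exact dsc_pos hbm m1 hb (fun _ => dcl_abs _) (hpos n hn) ht0 ht1

end Struct

section Lim

variable {Ω : Type*} [MeasurableSpace Ω] {P : Measure Ω} [IsProbabilityMeasure P] {K : ℕ}

theorem dsc_step1 {θ : Ω → Cl K} {b : Ω → ℝ} {F : Ω → Fin K → Bool → ℝ} (hθm : Measurable θ)
    (hbm : Measurable b) (hFm : ∀ j s, Measurable (fun ω => F ω j s)) (hb : ∀ ω, |b ω| < 1)
    (hF : ∀ ω j s, |F ω j s| ≤ 1)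
    (hθ : ∀ ω, θ ω = dtr 1 (θ ω (fun _ => true)) (b ω) (F ω)) (hθi : Integrable θ P) {ε : ℝ}
    (hε : 0 < ε) : ∃ t : ℝ, 0 ≤ t ∧ t < 1 ∧
      ∫ ω, ‖θ ω - dtr (t ^ 2) (θ ω (fun _ => true)) (b ω) (F ω)‖ ∂P ≤ ε := by
  let tn : ℕ → ℝ := fun n => 1 - 1 / ((n : ℝ) + 1)
  have h0 : ∀ n, 0 ≤ tn n := by
    intro n
    have : 1 / ((n : ℝ) + 1) ≤ 1 := by
      rw [div_le_one (by positivity)]
      linarith [Nat.cast_nonneg (α := ℝ) n]
    simp only [tn]
    linarith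
  have h1 : ∀ n, tn n < 1 := by
    intro n
    have : 0 < 1 / ((n : ℝ) + 1) := by positivity
    simp only [tn]
    linarith
  have hl : Tendsto (fun n => tn n ^ 2) atTop (𝓝 1) := by
    have := ((tendsto_const_nhds (x := (1 : ℝ))).sub
      tendsto_one_div_add_atTop_nhds_zero_nat).pow 2
    rw [sub_zero, one_pow] at this
    exact this
  have hα : Measurable (fun ω => θ ω (fun _ => true)) := (measurable_pi_apply _).comp hθm
  have := dsc_dct (P := P)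
    (G := fun n ω => ‖θ ω - dtr (tn n ^ 2) (θ ω (fun _ => true)) (b ω) (F ω)‖)
    (u := fun ω => 4 * ‖θ ω‖) (fun n => (hθm.sub (dtr_meas _ hα hbm hFm)).norm)
    (hθi.norm.const_mul 4) (fun n ω => by
      rw [abs_norm]
      have a1 := dtr_norm_one (α := θ ω (fun _ => true)) (sq_nonneg (tn n))
        (by nlinarith [h0 n, h1 n]) (hb ω) (hF ω)
      rw [← hθ ω] at a1
      have a2 : |θ ω (fun _ => true)| ≤ ‖θ ω‖ := norm_le_pi_norm (θ ω) _
      have a3 := norm_sub_le (θ ω) (dtr (tn n ^ 2) (θ ω (fun _ => true)) (b ω) (F ω))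
      linarith) (fun ω => by
      have a1 := dtr_tendsto (K := K) hl (tendsto_const_nhds (x := θ ω (fun _ => true)))
        (tendsto_const_nhds (x := b ω)) (Fn := fun _ => F ω) (fun j s => tendsto_const_nhds)
        (fun s => by
          have := dpr_abs (β := b ω) zero_le_one (hF ω) s
          have := (abs_le.1 this).1
          have := hb ω
          exact ne_of_gt (by linarith))
      rw [← hθ ω] at a1
      exact tendsto_iff_norm_sub_tendsto_zero.1 a1 |>.congr (fun n => norm_sub_rev _ _)) hε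
  obtain ⟨n, hn⟩ := this.exists
  exact ⟨tn n, h0 n, h1 n, hn⟩

theorem dsc_step2 {α b : Ω → ℝ} {F : Ω → Fin K → Bool → ℝ} (hαm : Measurable α)
    (hbm : Measurable b) (hFm : ∀ j s, Measurable (fun ω => F ω j s)) (hb : ∀ ω, |b ω| ≤ 1)
    (hF : ∀ ω j s, |F ω j s| ≤ 1) (hαi : Integrable α P) {rd : ℕ → ℝ → ℝ}
    (r1 : ∀ n, Measurable (rd n)) (r3 : ∀ x, Tendsto (fun n => rd n x) atTop (𝓝 x))
    (r4 : ∀ n x, |rd n x| ≤ 2 * |x|) {ρ : ℝ} (h0 : 0 ≤ ρ) (h1 : ρ < 1) {ε : ℝ} (hε : 0 < ε) :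
    ∀ᶠ n in atTop, ∫ ω, ‖dtr ρ (α ω) (b ω) (F ω) - dtr ρ (rd n (α ω)) (dcl (rd n (b ω)))
      (fun j s => dcl (rd n (F ω j s)))‖ ∂P ≤ ε := by
  have hc : ∀ y : ℝ, |y| ≤ 1 → Tendsto (fun n => dcl (rd n y)) atTop (𝓝 y) := by
    intro y hy
    have := (dcl_cont.tendsto y).comp (r3 y)
    rw [dcl_eq hy] at this
    exact this
  refine dsc_dct (u := fun ω => 3 * |α ω| + 4 * (1 / (1 - ρ))) (fun n => ?_)
    ((hαi.abs.const_mul 3).add (integrable_const _)) (fun n ω => ?_) (fun ω => ?_) hε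
  · refine ((dtr_meas _ hαm hbm hFm).sub (dtr_meas _ ((r1 n).comp hαm)
      (dcl_cont.measurable.comp ((r1 n).comp hbm)) (fun j s => ?_))).norm
    exact dcl_cont.measurable.comp ((r1 n).comp (hFm j s))
  · rw [abs_norm]
    have a1 := dtr_norm (α := α ω) h0 h1 (hb ω) (hF ω)
    have a2 := dtr_norm (α := rd n (α ω)) h0 h1 (dcl_abs (rd n (b ω)))
      (F := fun j s => dcl (rd n (F ω j s))) (fun _ _ => dcl_abs _)
    have a3 := r4 n (α ω)
    refine (norm_sub_le _ _).trans ?_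
    linarith
  · have a1 := dtr_tendsto (K := K) (tendsto_const_nhds (x := ρ)) (r3 (α ω)) (hc _ (hb ω))
      (Fn := fun n j s => dcl (rd n (F ω j s))) (fun j s => hc _ (hF ω j s))
      (fun s => by
        have := (abs_le.1 (dpr_abs' h0 (hb ω) (hF ω) s)).1
        exact ne_of_gt (by linarith))
    exact tendsto_iff_norm_sub_tendsto_zero.1 a1 |>.congr (fun n => norm_sub_rev _ _)

theorem dsc_step3 {h : Ω → ℝ} (hm : Measurable h) (hi : Integrable h P) {rd : ℕ → ℝ → ℝ}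
    (r1 : ∀ n, Measurable (rd n)) (r3 : ∀ ω, Tendsto (fun n => rd n (h ω)) atTop (𝓝 (h ω)))
    (r4 : ∀ n x, |rd n x| ≤ 2 * |x| + 1) {ε : ℝ} (hε : 0 < ε) :
    ∀ᶠ n in atTop, ∫ ω, |h ω - rd n (h ω)| ∂P ≤ ε := by
  refine dsc_dct (G := fun n ω => |h ω - rd n (h ω)|) (u := fun ω => 3 * |h ω| + 1)
    (fun n => (hm.sub ((r1 n).comp hm)).abs)
    ((hi.abs.const_mul 3).add (integrable_const _)) (fun n ω => ?_) (fun ω => ?_) hε
  · rw [abs_abs]
    have := abs_sub (h ω) (rd n (h ω))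
    linarith [r4 n (h ω)]
  · exact tendsto_iff_norm_sub_tendsto_zero.1 (r3 ω) |>.congr (fun n => abs_sub_comm _ _)

theorem dsc_tri {A B C : Ω → Cl K} (hA : Integrable A P) (hB : Integrable B P)
    (hC : Integrable C P) :
    ∫ ω, ‖A ω - C ω‖ ∂P ≤ ∫ ω, ‖A ω - B ω‖ ∂P + ∫ ω, ‖B ω - C ω‖ ∂P := by
  have i1 : Integrable (fun ω => ‖A ω - B ω‖) P := (hA.sub hB).norm
  have i2 : Integrable (fun ω => ‖B ω - C ω‖) P := (hB.sub hC).norm
  have i3 : Integrable (fun ω => ‖A ω - C ω‖) P := (hA.sub hC).norm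
  rw [← integral_add i1 i2]
  exact integral_mono i3 (i1.add i2) (fun ω => norm_sub_le_norm_sub_add_norm_sub _ _ _)

theorem dsc_int_dtr {α β : Ω → ℝ} {F : Ω → Fin K → Bool → ℝ} (hαm : Measurable α)
    (hβm : Measurable β) (hFm : ∀ j s, Measurable (fun ω => F ω j s)) (hβ : ∀ ω, |β ω| ≤ 1)
    (hF : ∀ ω j s, |F ω j s| ≤ 1) (hαi : Integrable α P) {ρ : ℝ} (h0 : 0 ≤ ρ) (h1 : ρ < 1) :
    Integrable (fun ω => dtr ρ (α ω) (β ω) (F ω)) P :=
  (hαi.abs.add (integrable_const (2 * (1 / (1 - ρ))))).mono'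
    (dtr_meas ρ hαm hβm hFm).aestronglyMeasurable
    (Eventually.of_forall (fun ω => dtr_norm h0 h1 (hβ ω) (hF ω)))

end Lim

theorem dsc_rep {K : ℕ} {θ : Cl K} {a b : ℝ} {F : Fin K → Bool → ℝ} (ha : 0 < a)
    (hrep : ∀ s, Real.exp (θ s) = a * (1 + b * ∏ j, F j (s j))) :
    θ = dtr 1 (θ (fun _ => true)) b F := by
  have h1 : ∀ s, θ s = Real.log a + Real.log (1 + dpr 1 b F s) := by
    intro s
    have h2 : Real.exp (θ s) = a * (1 + dpr 1 b F s) := by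
      rw [hrep s]; unfold dpr; ring
    have h3 : 1 + dpr 1 b F s ≠ 0 := by
      intro h
      rw [h, mul_zero] at h2
      exact (Real.exp_pos _).ne' h2
    rw [← Real.log_mul ha.ne' h3, ← h2, Real.log_exp]
  funext s
  unfold dtr
  rw [h1 s, h1 (fun _ => true)]
  ring

theorem discretize {Ω : Type*} [MeasurableSpace Ω] (P : Measure Ω) [IsProbabilityMeasure P]
    {K : ℕ} (hK : 1 ≤ K) (θ : Ω → Cl K) (a b : Ω → ℝ) (f : Fin K → Ω → Bool → ℝ) (h : Ω → ℝ)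
    (hθm : Measurable θ) (hbm : Measurable b) (hfm : ∀ j, Measurable (f j)) (hhm : Measurable h)
    (ha : ∀ ω, 0 < a ω) (hb : ∀ ω, |b ω| < 1) (hf : ∀ j ω s, |f j ω s| ≤ 1)
    (hrep : ∀ ω s, Real.exp (θ ω s) = a ω * (1 + b ω * ∏ j, f j ω (s j)))
    (hind : iIndepFun f P) (hid : ∀ j j', IdentDistrib (f j) (f j') P P)
    (hbf : IndepFun b (fun ω j => f j ω) P)
    (hpos : ∀ n : ℕ, 1 ≤ n → 0 ≤ ∫ ω, (-b ω) ^ n ∂P)
    (hhi : Integrable h P) (hθi : Integrable θ P) {ε : ℝ} (hε : 0 < ε) :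
    ∃ (Θ Φ : Type) (_ : Fintype Θ) (_ : Fintype Φ) (ι : Ω → Θ) (q : Θ → ℝ) (th : Θ → Cl K)
      (hv : Θ → ℝ) (p : Φ → ℝ) (fv : Φ → Bool → ℝ) (a' b' : Θ → ℝ) (φ : Θ → Fin K → Φ)
      (ρ ρ' δ : ℝ),
      (∀ c, MeasurableSet (ι ⁻¹' {c})) ∧ (∀ c, q c = P.real (ι ⁻¹' {c})) ∧
      FinStruct q th p fv a' b' φ ρ ρ' δ ∧ δ / (1 - ρ') ≤ ε ∧
      ∫ ω, ‖θ ω - th (ι ω)‖ ∂P ≤ ε ∧ ∫ ω, |h ω - hv (ι ω)| ∂P ≤ ε := by
  have hFm : ∀ j s, Measurable (fun ω => f j ω s) := fun j s =>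
    (measurable_pi_apply s).comp (hfm j)
  have hαm : Measurable (fun ω => θ ω (fun _ => true)) := (measurable_pi_apply _).comp hθm
  have hαi : Integrable (fun ω => θ ω (fun _ => true)) P :=
    dis_int hαm hθi.norm (fun ω => norm_le_pi_norm (θ ω) _)
  have hb1 : ∀ ω, |b ω| ≤ 1 := fun ω => (hb ω).le
  have hbi : Integrable b P := dis_int hbm (integrable_const 1) hb1
  obtain ⟨t, ht0, ht1, hs1⟩ := dsc_step1 (F := fun ω j s => f j ω s) hθm hbm hFm hb
    (fun ω j s => hf j ω s) (fun ω => dsc_rep (ha ω) (hrep ω)) hθi (half_pos hε)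
  have ht2 : t ^ 2 < 1 := by nlinarith
  have a0 : 0 < 1 - t := by linarith
  obtain ⟨rd, r1, r2, r3, r4⟩ := dsc_round
  have e2 := dsc_step2 (P := P) (F := fun ω j s => f j ω s) hαm hbm hFm hb1
    (fun ω j s => hf j ω s) hαi r1 r3 r4 (sq_nonneg t) ht2 (half_pos hε)
  have e3 := dsc_step3 hhm hhi r1 (fun ω => r3 _) (fun n x => by linarith [r4 n x]) hε
  have e4 := dsc_step3 hbm hbi (rd := fun n x => dcl (rd n x))
    (fun n => dcl_cont.measurable.comp (r1 n)) (fun ω => by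
      have := (dcl_cont.tendsto (b ω)).comp (r3 (b ω))
      rw [dcl_eq (hb1 ω)] at this
      exact this) (fun n x => by linarith [dcl_abs (rd n x), abs_nonneg x])
    (ε := ε * (1 - t) * (1 - t)) (by positivity)
  obtain ⟨n, hn2, hn3, hn4⟩ := (e2.and (e3.and e4)).exists
  have : Fintype (Set.range (rd n)) := (r2 n).fintype
  obtain ⟨Θ, Φ, i1, i2, ι, q, th, hv, p, fv, a', b', φ, c1, c2, c3, c4, c5⟩ :=
    dsc_struct (G := Set.range (rd n)) hK hαm hbm hfm hhm hb1 hind hid hbf hpos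
      (cd := fun x => ⟨rd n x, Set.mem_range_self x⟩) (r1 n).subtype_mk Subtype.val ht0 ht1
  refine ⟨Θ, Φ, i1, i2, ι, q, th, hv, p, fv, a', b', φ, _, _, _, c1, c2, c3, ?_, ?_, ?_⟩
  · rw [div_le_iff₀ a0, div_le_iff₀ a0]
    exact hn4
  · simp only [c4]
    have iB := dsc_int_dtr (P := P) (F := fun ω j s => f j ω s) hαm hbm hFm hb1
      (fun ω j s => hf j ω s) hαi (sq_nonneg t) ht2
    have iC := dsc_int_dtr (P := P) (α := fun ω => rd n (θ ω (fun _ => true)))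
      (β := fun ω => dcl (rd n (b ω))) (F := fun ω j s => dcl (rd n (f j ω s)))
      ((r1 n).comp hαm) (dcl_cont.measurable.comp ((r1 n).comp hbm))
      (fun j s => dcl_cont.measurable.comp ((r1 n).comp (hFm j s))) (fun _ => dcl_abs _)
      (fun _ _ _ => dcl_abs _)
      (dis_int ((r1 n).comp hαm) (hαi.abs.const_mul 2) (fun ω => r4 n _)) (sq_nonneg t) ht2
    have := dsc_tri hθi iB iC
    linarith
  · simp only [c5]
    exact hn3

end Vale.Agent.P168
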