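import Vale.Agent.P168.MD

namespace Vale.Agent.P168

open Finset Matrix
open scoped BigOperators

/-- leading order of the probe factor -/
theorem expand_y {n : ℕ} {L' : Type} {a b : ℕ → ℝ} {D : ℕ} {β : ℝ} (he : Expo a b D β) {d : ℕ}
    (hd : d ≤ D) (t : Sh n L' d) : ∃ C : ℝ, 0 ≤ C ∧ ∀ {S : Type} [Fintype S] (c : Ch S),
    c.a = a → c.b = b → c.Sto D → ∀ ξ : L' → S → ℝ, (∀ l s, 0 ≤ ξ l s ∧ ξ l s ≤ 1) →
    ∀ lam : ℝ, 0 ≤ lam → lam ≤ 1 / 2 → ∀ γ,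
      |(yO c lam ξ d t 1 γ - yO c lam ξ d t (-1) γ) / 2 -
        lam ^ lv d t * nV a b d t * (b d * vir c ξ d t γ)| ≤ C * lam * lam ^ lv d t := by
  sorry

/-- leading order of the tilted evaluation -/
theorem expand_n {n : ℕ} {L L' : Type} {a b : ℕ → ℝ} {D : ℕ} {β : ℝ} (he : Expo a b D β) {d : ℕ}
    (hd : d ≤ D) (u : Sh n L d) (t : Sh n L' d) : ∃ C : ℝ, 0 ≤ C ∧ ∀ {S : Type} [Fintype S]
    (c : Ch S), c.a = a → c.b = b → c.Sto D → ∀ (ξ : L' → S → ℝ) (z : L → S → ℝ),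
    (∀ l s, 0 ≤ ξ l s ∧ ξ l s ≤ 1) → (∀ l s, 0 ≤ z l s ∧ z l s ≤ 1) →
    ∀ lam : ℝ, 0 ≤ lam → lam ≤ 1 / 2 → ∀ γ,
      (∀ s : ℝ, |s| ≤ 1 → |nO c lam ξ z d u t s γ - act c z d u γ| ≤ C * lam) ∧
      |nu c ξ z d u t γ| ≤ C ∧
      |(nO c lam ξ z d u t 1 γ - nO c lam ξ z d u t (-1) γ) / 2 -
        lam ^ lv d t * nV a b d t * nu c ξ z d u t γ| ≤ C * lam * lam ^ lv d t := by
  sorry

end Vale.Agent.P168
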