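import Vale.Agent.P168.UB2

namespace Vale.Agent.P168

open Finset Matrix MeasureTheory ProbabilityTheory
open scoped BigOperators NNReal

variable {K N : ℕ} [NeZero N] {ν : Measure (Cl K)} [IsProbabilityMeasure ν] {μ : Measure ℝ}
  [IsProbabilityMeasure μ]

/-- the real end of the interpolation -/
theorem Xi_false (hK : 1 ≤ K) (hν : Integrable id ν) (hμ : Integrable id μ) (lam : ℝ≥0) {fd : FD}
    (hf : fd.Ok) :
    ∫ h, Pint (K * lam * N) ν (fun _ θ => Xi fd h (fun _ => false) θ)
      ∂(Measure.pi fun _ : Fin N => μ) =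
      N * pressure ν μ lam N + N * VT ν lam fun M => fd.T (Fin M × Fin K) := by
  sorry

end Vale.Agent.P168
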