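import Vale.Agent.P168.LB3
import Vale.Agent.P168.UB3
import Vale.Agent.P168.UB4
import Vale.Agent.P168.Approx

namespace Vale.Agent.P168

open Finset Matrix MeasureTheory ProbabilityTheory Filter
open scoped BigOperators NNReal

variable {K : ℕ} {ν : Measure (Cl K)} [IsProbabilityMeasure ν] {μ : Measure ℝ}
  [IsProbabilityMeasure μ]

theorem final_cont {ι E : Type} [Fintype ι] [NormedAddCommGroup E] {F : (ι → E) → ℝ}
    (h : ∀ x y, |F x - F y| ≤ ∑ k, ‖x k - y k‖) : Continuous F := by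
  refine continuous_iff_continuousAt.2 fun y => tendsto_iff_dist_tendsto_zero.2 ?_
  have h1 : Continuous fun x : ι → E => ∑ k, ‖x k - y k‖ := by fun_prop
  have h2 := h1.tendsto y
  simp only [sub_self, norm_zero, sum_const_zero] at h2
  exact squeeze_zero (fun _ => dist_nonneg) (fun x => h x y) h2

theorem final_int {N : ℕ} (hμ : Integrable id μ) {F : (Fin N → ℝ) → ℝ}
    (h : ∀ x y, |F x - F y| ≤ ∑ k, ‖x k - y k‖) :
    Integrable F (Measure.pi fun _ : Fin N => μ) := by
  have h1 : Integrable (fun x : Fin N → ℝ => |F 0| + ∑ k, ‖x k‖) (Measure.pi fun _ : Fin N => μ) :=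
    (integrable_const _).add (integrable_finsetSum _ fun k _ =>
      (measurePreserving_eval (fun _ : Fin N => μ) k).integrable_comp_of_integrable hμ.norm)
  refine h1.mono' (final_cont h).aestronglyMeasurable (Eventually.of_forall fun x => ?_)
  have h2 := h x 0
  simp only [Pi.zero_apply, sub_zero] at h2
  have h3 := abs_sub_abs_le_abs_sub (F x) (F 0)
  rw [Real.norm_eq_abs]
  linarith

theorem final_Pint_close (hν : Integrable id ν) {a : ℝ≥0} {F G : (M : ℕ) → (Fin M → Cl K) → ℝ}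
    (hF : Adm F) (hG : Adm G) {c : ℝ} (h : ∀ M θ, |F M θ - G M θ| ≤ c) :
    |Pint a ν F - Pint a ν G| ≤ c := by
  rw [← Pint_sub hν hF hG, abs_le]
  have h1 := Pint_mono (a := a) hν (adm_const (-c)) (hF.sub hG) fun M θ => (abs_le.1 (h M θ)).1
  have h2 := Pint_mono (a := a) hν (hF.sub hG) (adm_const c) fun M θ => (abs_le.1 (h M θ)).2
  rw [Pint_const] at h1 h2
  exact ⟨h1, h2⟩

theorem final_adm_Xi {N : ℕ} {fd : FD} (hf : fd.Ok) (h : Fin N → ℝ) (b : Bool) :
    Adm fun M (θ : Fin M → Cl K) => Xi fd h (fun _ => b) θ := by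
  refine ⟨fun M => (final_cont fun θ θ' => ?_).measurable, 1 + N + ∑ v, |h v|, fun M θ => ?_⟩
  · simpa using Xi_lip hf h h (fun _ => b) θ θ'
  · refine (abs_Xi_le hf h _ θ).trans ?_
    have h1 : 0 ≤ ∑ k, ‖θ k‖ := by positivity
    have h2 : 0 ≤ ∑ v, |h v| := by positivity
    have h3 : (0 : ℝ) ≤ M := by positivity
    have h4 : (0 : ℝ) ≤ N := by positivity
    nlinarith [mul_nonneg (add_nonneg h4 h2) (add_nonneg h3 h1)]

theorem upper_fd (hK : 1 ≤ K) (hν : Integrable id ν) (hμ : Integrable id μ) (h1 : OneSlot ν)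
    (lam : ℝ≥0) {fd : FD} (hf : fd.Ok) {N : ℕ} (hN : 1 ≤ N) :
    pressure ν μ lam N ≤ fd.val ν μ lam := by
  have : NeZero N := ⟨by omega⟩
  have hi : ∀ b : Bool, Integrable
      (fun h => Pint (K * lam * N) ν fun _ θ => Xi fd h (fun _ => b) θ)
      (Measure.pi fun _ : Fin N => μ) := fun b => final_int hμ fun h h' =>
    final_Pint_close hν (final_adm_Xi hf h b) (final_adm_Xi hf h' b) fun M θ => by
      simpa using Xi_lip hf h h' (fun _ => b) θ θ
  have h2 := integral_mono (hi false) (hi true) fun h =>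
    integral_mono ((final_adm_Xi hf h false).integrable_poisson hν _)
      ((final_adm_Xi hf h true).integrable_poisson hν _) fun M => Xi_mono hν h1 hf h M
  rw [Xi_false hK hν hμ lam hf, Xi_true hK hν hμ lam hf] at h2
  have h3 : (0 : ℝ) < N := by exact_mod_cast hN
  unfold FD.val
  refine le_of_mul_le_mul_left ?_ h3
  linarith

theorem final_LZ {N : ℕ} (H H' : Cf N → ℝ) : |LZ H - LZ H'| ≤ ‖H - H'‖ := by
  have key : ∀ H H' : Cf N → ℝ, LZ H ≤ LZ H' + ‖H - H'‖ := fun H H' => by
    have h1 : ∀ H : Cf N → ℝ, 0 < ∑ σ, Real.exp (H σ) := fun H =>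
      sum_pos (fun _ _ => Real.exp_pos _) univ_nonempty
    unfold LZ
    rw [Real.log_le_iff_le_exp (h1 H), Real.exp_add, Real.exp_log (h1 H'), sum_mul]
    refine sum_le_sum fun σ _ => ?_
    rw [← Real.exp_add]
    have := (le_abs_self _).trans (norm_le_pi_norm (H - H') σ)
    rw [Pi.sub_apply] at this
    exact Real.exp_le_exp.2 (by linarith)
  have h2 := key H H'
  have h3 := key H' H
  rw [norm_sub_rev] at h3
  exact abs_le.2 ⟨by linarith, by linarith⟩

theorem final_Ham {N M : ℕ} (θ θ' : Fin M → Cl K) (i : Fin M → Fin K → Fin N)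
    (h h' : Fin N → ℝ) : ‖Ham θ i h - Ham θ' i h'‖ ≤ ∑ k, ‖θ k - θ' k‖ + ∑ v, ‖h v - h' v‖ := by
  refine (pi_norm_le_iff_of_nonneg (by positivity)).2 fun σ => ?_
  have e : (Ham θ i h - Ham θ' i h') σ =
      ∑ k, (θ k - θ' k) (fun j => σ (i k j)) + ∑ v, (h v - h' v) * sg (σ v) := by
    simp only [Pi.sub_apply, Ham, sum_sub_distrib, sub_mul]
    ring
  rw [e]
  refine (norm_add_le _ _).trans (add_le_add ((norm_sum_le _ _).trans (sum_le_sum fun k _ =>
    norm_le_pi_norm _ _)) ((norm_sum_le _ _).trans (sum_le_sum fun v _ => ?_)))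
  rw [norm_mul, Real.norm_eq_abs (sg _), abs_sg, mul_one]

theorem final_expect {ι : Type} [Fintype ι] {f g : ι → ℝ} {c : ℝ} (hc : 0 ≤ c)
    (h : ∀ i, |f i - g i| ≤ c) : |(𝔼 i, f i) - 𝔼 i, g i| ≤ c := by
  rcases isEmpty_or_nonempty ι with hι | hι
  · simpa using hc
  · rw [← expect_sub_distrib, abs_le]
    exact ⟨le_expect univ_nonempty fun i _ => (abs_le.1 (h i)).1,
      expect_le univ_nonempty fun i _ => (abs_le.1 (h i)).2⟩

theorem final_close {Ω : Type} [MeasurableSpace Ω] {P : Measure Ω} [IsProbabilityMeasure P]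
    {f g : Ω → ℝ} (hf : Integrable f P) (hg : Integrable g P) {c : ℝ} (h : ∀ x, |f x - g x| ≤ c) :
    |∫ x, f x ∂P - ∫ x, g x ∂P| ≤ c := by
  rw [← integral_sub hf hg]
  simpa using norm_integral_le_of_norm_le_const (μ := P) (f := fun x => f x - g x)
    (Eventually.of_forall h)

theorem final_intG (hμ : Integrable id μ) {N M : ℕ} {G : (Cf N → ℝ) → ℝ}
    (hl : ∀ H H', |G H - G H'| ≤ ‖H - H'‖) (θ : Fin M → Cl K) :
    Integrable (fun h => 𝔼 i : Fin M → Fin K → Fin N, G (Ham θ i h))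
      (Measure.pi fun _ : Fin N => μ) :=
  final_int hμ fun h h' => final_expect (by positivity) fun i =>
    (hl _ _).trans (by simpa using final_Ham θ θ i h h')

theorem final_admG (hμ : Integrable id μ) {N : ℕ} {G : (Cf N → ℝ) → ℝ}
    (hl : ∀ H H', |G H - G H'| ≤ ‖H - H'‖) :
    Adm fun M (θ : Fin M → Cl K) => ∫ h, (𝔼 i : Fin M → Fin K → Fin N, G (Ham θ i h))
      ∂(Measure.pi fun _ : Fin N => μ) := by
  have hi : Integrable (fun x : Fin N → ℝ => ∑ k, ‖x k‖) (Measure.pi fun _ : Fin N => μ) :=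
    integrable_finsetSum _ fun k _ =>
      (measurePreserving_eval (fun _ : Fin N => μ) k).integrable_comp_of_integrable hμ.norm
  set A : ℝ := |G 0| + ∫ x, ∑ k, ‖x k‖ ∂(Measure.pi fun _ : Fin N => μ) with hA
  have hA0 : 0 ≤ A := add_nonneg (abs_nonneg _) (integral_nonneg fun _ => by positivity)
  refine ⟨fun M => (final_cont fun θ θ' => final_close (final_intG hμ hl θ) (final_intG hμ hl θ')
    fun h => final_expect (by positivity) fun i =>
      (hl _ _).trans (by simpa using final_Ham θ θ' i h h)).measurable, 1 + A, fun M θ => ?_⟩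
  have h1 := norm_integral_le_of_norm_le (μ := Measure.pi fun _ : Fin N => μ)
    (f := fun h => 𝔼 i : Fin M → Fin K → Fin N, G (Ham θ i h))
    ((integrable_const (|G 0| + ∑ k, ‖θ k‖)).add hi) (Eventually.of_forall fun h => by
      have := final_expect (f := fun i : Fin M → Fin K → Fin N => G (Ham θ i h)) (g := fun _ => 0)
        (c := |G 0| + ∑ k, ‖θ k‖ + ∑ k, ‖h k‖) (by positivity) fun i => by
          have h2 := hl (Ham θ i h) 0
          have h3 := final_Ham θ 0 i h 0
          have h4 : Ham (0 : Fin M → Cl K) i (0 : Fin N → ℝ) = 0 := by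
            funext σ
            simp [Ham]
          have h5 := abs_sub_abs_le_abs_sub (G (Ham θ i h)) (G 0)
          simp only [h4, Pi.zero_apply, sub_zero] at h2 h3 ⊢
          linarith
      simpa using this)
  rw [integral_add' (integrable_const _) hi, integral_const] at h1
  simp only [probReal_univ, smul_eq_mul, one_mul, Real.norm_eq_abs] at h1
  refine h1.trans ?_
  have h2 : 0 ≤ ∑ k, ‖θ k‖ := by positivity
  have h3 : (0 : ℝ) ≤ M := by positivity
  simp only [Real.norm_eq_abs] at hA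
  nlinarith [mul_nonneg hA0 (add_nonneg h3 h2)]

theorem lower_fd (hK : 1 ≤ K) (hν : Integrable id ν) (hμ : Integrable id μ) (lam : ℝ≥0) {B : ℝ}
    (hB : ∀ f : FD, f.Ok → B ≤ f.val ν μ lam) {ε : ℝ} (hε : 0 < ε) :
    ∀ᶠ N in atTop, B - ε ≤ pressure ν μ lam N := by
  obtain ⟨M, R, h1⟩ := cavity_lb hK hν hμ lam hB (ε := ε / 8) (by positivity)
  obtain ⟨C, G, hG⟩ := core M R (ε := ε / 8) (by positivity)
  obtain ⟨C', h2⟩ := FG_step hK hν hμ lam hG.lip hG.red
    fun N hN H => h1 hN (G N) (hG.lip N) H (hG.dcp N hN H)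
  have h3 : ∀ N : ℕ, 1 ≤ N → FG ν μ lam G N - C ≤ N * pressure ν μ lam N := by
    intro N hN
    have h4 : (N : ℝ) ≠ 0 := by positivity
    have h5 : N * pressure ν μ lam N = FG ν μ lam (fun _ => LZ) N := by
      unfold pressure
      rw [← mul_assoc, mul_one_div_cancel h4, one_mul]
      rfl
    have h6 : |FG ν μ lam G N - FG ν μ lam (fun _ => LZ) N| ≤ C :=
      final_Pint_close hν (final_admG hμ (hG.lip N)) (final_admG hμ final_LZ) fun M θ =>
        final_close (final_intG hμ (hG.lip N) θ) (final_intG hμ final_LZ θ) fun h =>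
          final_expect ((abs_nonneg _).trans (hG.near 0 0)) fun i => hG.near N _
    rw [h5]
    linarith [(abs_le.1 h6).2]
  have h4 : ∀ N : ℕ, FG ν μ lam G 1 + N * (B - ε / 2) - ∑ n ∈ range (N + 1), C' / n ≤
      FG ν μ lam G (N + 1) := by
    intro N
    induction N with
    | zero => simp
    | succ N ih =>
      have := h2 (N + 1) (by omega)
      rw [sum_range_succ]
      push_cast at this ⊢
      linarith
  have h5 : Tendsto (fun N : ℕ => (N : ℝ)⁻¹ * ∑ n ∈ range N, C' / n) atTop (nhds 0) :=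
    (tendsto_const_div_atTop_nhds_zero_nat C').cesaro
  have h6 : Tendsto (fun N : ℕ => (B - ε / 2 + C - FG ν μ lam G 1) / N) atTop (nhds 0) :=
    tendsto_const_div_atTop_nhds_zero_nat _
  have h7 := h5.add h6
  rw [add_zero] at h7
  filter_upwards [h7.eventually_le_const (half_pos hε), eventually_ge_atTop 1] with N h8 hN
  obtain ⟨n, rfl⟩ : ∃ n, N = n + 1 := ⟨N - 1, by omega⟩
  have h9 := h3 _ hN
  have h10 := h4 n
  have h11 : (0 : ℝ) < (n + 1 : ℕ) := by positivity
  rw [inv_mul_eq_div, ← add_div, div_le_iff₀ h11] at h8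
  refine le_of_mul_le_mul_left ?_ h11
  push_cast at h8 h9 ⊢
  linarith

theorem final_trial (r : ℕ) : Nonempty (Trial r) :=
  ⟨{ m := fun q => ((q : ℕ) + 1 : ℝ) / (r + 2)
     x := fun _ => 0
     m_mono := fun p q hpq => by
       have : ((p : ℕ) : ℝ) < (q : ℕ) := by exact_mod_cast hpq
       simp only
       gcongr
     m_pos := fun p => by positivity
     m_lt := fun p => by
       have : ((p : ℕ) : ℝ) < r := by exact_mod_cast p.2
       rw [div_lt_one (by positivity)]
       linarith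
     x_meas := measurable_const
     x_le := fun _ => by simp }⟩

theorem main (hK : 1 ≤ K) (hν : Integrable id ν) (hμ : Integrable id μ) (h1 : OneSlot ν)
    (lam : ℝ≥0) :
    (∀ r, BddBelow (Set.range fun p : Trial r => TU ν μ lam p - TV ν lam p)) ∧
      BddBelow (Set.range (Phi ν μ lam)) ∧
      Tendsto (pressure ν μ lam) atTop (nhds (⨅ r, Phi ν μ lam r)) := by
  have hu : ∀ N, 1 ≤ N → ∀ r (p : Trial r), pressure ν μ lam N ≤ TU ν μ lam p - TV ν lam p := by
    intro N hN r p
    refine le_of_forall_pos_le_add fun ε hε => ?_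
    obtain ⟨f, hf, h2⟩ := approx hν hμ lam p hε
    exact (upper_fd hK hν hμ h1 lam hf hN).trans h2
  have hb : ∀ r, BddBelow (Set.range fun p : Trial r => TU ν μ lam p - TV ν lam p) := fun r =>
    ⟨pressure ν μ lam 1, by
      rintro _ ⟨p, rfl⟩
      exact hu 1 le_rfl r p⟩
  have hu2 : ∀ N, 1 ≤ N → ∀ r, pressure ν μ lam N ≤ Phi ν μ lam r := fun N hN r =>
    haveI := final_trial r
    le_ciInf (hu N hN r)
  have hb2 : BddBelow (Set.range (Phi ν μ lam)) :=
    ⟨pressure ν μ lam 1, by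
      rintro _ ⟨r, rfl⟩
      exact hu2 1 le_rfl r⟩
  refine ⟨hb, hb2, tendsto_order.2 ⟨fun a ha => ?_, fun a ha => ?_⟩⟩
  · have hB : ∀ f : FD, f.Ok → (⨅ r, Phi ν μ lam r) ≤ f.val ν μ lam := fun f hf => by
      obtain ⟨p, hp⟩ := realize_val ν μ lam hf
      rw [← hp]
      exact (ciInf_le hb2 f.r).trans (ciInf_le (hb f.r) p)
    filter_upwards [lower_fd hK hν hμ lam hB (half_pos (sub_pos.2 ha))] with N hN
    linarith
  · filter_upwards [eventually_ge_atTop 1] with N hN
    exact (le_ciInf (hu2 N hN)).trans_lt ha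

end Vale.Agent.P168
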