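import Vale.Agent.P168.Basic

namespace Vale.Agent.P168

open Finset Matrix
open scoped BigOperators

/-- the truncated Galton-Watson sum is subcritical -/
theorem gw_sub {S L : Type} [Fintype S] [Fintype L] {n : ℕ} {c : Ch S} {D : ℕ} {β ρ : ℝ}
    (h : c.Sto D) (hb : Dec c.b D β) {Z : L → S → ℝ} (hZ : ∀ l s, 0 ≤ Z l s)
    (hρ : ∀ s, ∑ l, Z l s ≤ ρ) (hρ1 : ρ ≤ 1) {d : ℕ} (hd : d < D) (s : S) :
    ∑ t : Sh n L (d + 1), wt c.b (d + 1) t * eact c Z d t s ≤ ρ := by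
  sorry

theorem sum_wt_pow {L : Type} [Fintype L] {n : ℕ} {b : ℕ → ℝ} {D : ℕ} {β x : ℝ} (hb : Dec b D β)
    (hx : 0 ≤ x) (hx1 : Fintype.card L * x ≤ 1) {d : ℕ} (hd : d ≤ D) :
    ∑ t : Sh n L d, wt b d t * x ^ lv d t ≤ Fintype.card L * x := by
  sorry

/-- expansion of the power recursion over shapes -/
theorem gw {ρ β ε : ℝ} (hρ : ρ < 1) (hβ : 0 < β) (hε : 0 < ε) : ∃ n0 : ℕ, ∀ n ≥ n0,
    ∀ {S L : Type} [Fintype S] [Fintype L] (c : Ch S) (D : ℕ), c.Sto D → Dec c.b D β →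
    ∀ Z : L → S → ℝ, (∀ s, ∑ l, |Z l s| ≤ ρ) → ∀ d < D, ∀ s,
      |1 - PE c (fun s => 1 - ∑ l, Z l s) d s -
        ∑ t : Sh n L (d + 1), wt c.b (d + 1) t * eact c Z d t s| ≤ ε := by
  sorry

end Vale.Agent.P168
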