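import Vale.Agent.P168.CoreThm
import Vale.Agent.P168.Pint

namespace Vale.Agent.P168

open Finset Matrix MeasureTheory ProbabilityTheory
open scoped BigOperators NNReal

variable {K : ℕ}

/-- adding a cavity spin -/
noncomputable def cavG (ν : Measure (Cl K)) (μ : Measure ℝ) (lam : ℝ≥0) {N : ℕ}
    (G : (Cf N → ℝ) → ℝ) (H : Cf N → ℝ) : ℝ :=
  Pint (K * lam) ν fun M θ => ∫ h, (𝔼 l : Fin M → Fin K, 𝔼 i : Fin M × Fin K → Fin N,
    G (H + fun σ => phiU θ l h fun j => σ (i j))) ∂μ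

/-- adding clauses -/
noncomputable def addG (ν : Measure (Cl K)) (lam : ℝ≥0) {N : ℕ} (G : (Cf N → ℝ) → ℝ)
    (H : Cf N → ℝ) : ℝ :=
  Pint ((K - 1) * lam) ν fun M θ => 𝔼 i : Fin M × Fin K → Fin N,
    G (H + fun σ => phiV θ fun j => σ (i j))

/-- the cavity increment is bounded below by the trial values -/
theorem cavity_lb (hK : 1 ≤ K) {ν : Measure (Cl K)} [IsProbabilityMeasure ν] {μ : Measure ℝ}
    [IsProbabilityMeasure μ] (hν : Integrable id ν) (hμ : Integrable id μ) (lam : ℝ≥0) {B : ℝ}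
    (hB : ∀ f : FD, f.Ok → B ≤ f.val ν μ lam) {ε : ℝ} (hε : 0 < ε) :
    ∃ (M : ℕ) (R : ℝ), ∀ {N : ℕ}, 1 ≤ N → ∀ (G : (Cf N → ℝ) → ℝ),
      (∀ H H', |G H - G H'| ≤ ‖H - H'‖) → ∀ H, Dcp M R ε G H →
      B - 4 * ε ≤ cavG ν μ lam G H - addG ν lam G H := by
  sorry

end Vale.Agent.P168
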