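import Vale.Agent.P168.LB1
import Vale.Agent.P168.CP

namespace Vale.Agent.P168

open Finset Matrix MeasureTheory ProbabilityTheory Filter
open scoped BigOperators NNReal

variable {K : ℕ}

/-- a clause on the sites `i` -/
def vR {N : ℕ} (θ : Cl K) (i : Fin K → Fin N) : Cf N → ℝ := fun σ => θ fun j => σ (i j)

/-- a clause touching the last site once -/
def vC {N : ℕ} (θ : Cl K) (mk : Fin K × (Fin K → Fin N)) : Cf (N + 1) → ℝ :=
  fun σ => θ (Function.update (fun j => σ (mk.2 j).castSucc) mk.1 (σ (Fin.last N)))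

/-- a Hamiltonian not depending on the last spin -/
noncomputable def lift (N : ℕ) : (Cf N → ℝ) →L[ℝ] (Cf (N + 1) → ℝ) :=
  ContinuousLinearMap.pi fun σ => ContinuousLinearMap.proj (Fin.init σ)

/-- the intensity of clauses on `N+1` sites splits according to the last site -/
theorem law_split (hK : 1 ≤ K) {ν : Measure (Cl K)} [IsProbabilityMeasure ν] (hν : Integrable id ν)
    (lam : ℝ≥0) : ∃ C : ℝ, ∀ N : ℕ, 1 ≤ N → ∃ (a0 a1 : ℝ≥0) (α : Measure (Cf (N + 1) → ℝ)),
      IsFiniteMeasure α ∧ Integrable id α ∧ ∫ v, ‖v‖ ∂α ≤ C / N ∧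
      (lam * ((N + 1 : ℕ) : ℝ≥0)) • law ν (vR (N := N + 1)) =
        (a0 • law ν (vR (N := N))).map (lift N) + a1 • law ν (vC (N := N)) + α ∧
      a1 ≤ K * lam ∧ (K * lam - a1 : ℝ) ≤ C / N ∧
      |(lam * N : ℝ) - a0 - (K - 1) * lam| ≤ C / N := by
  sorry

end Vale.Agent.P168
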