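import Vale.Agent.P168.LB2

namespace Vale.Agent.P168

open Finset Matrix MeasureTheory ProbabilityTheory Filter
open scoped BigOperators NNReal

variable {K : ℕ}

/-- the averaged functional -/
noncomputable def FG (ν : Measure (Cl K)) (μ : Measure ℝ) (lam : ℝ≥0)
    (G : (N : ℕ) → (Cf N → ℝ) → ℝ) (N : ℕ) : ℝ :=
  Pint (lam * N) ν fun M θ => ∫ h, (𝔼 i : Fin M → Fin K → Fin N, G N (Ham θ i h))
    ∂(Measure.pi fun _ : Fin N => μ)

/-- the cavity step -/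
theorem FG_step (hK : 1 ≤ K) {ν : Measure (Cl K)} [IsProbabilityMeasure ν] {μ : Measure ℝ}
    [IsProbabilityMeasure μ] (hν : Integrable id ν) (hμ : Integrable id μ) (lam : ℝ≥0)
    {G : (N : ℕ) → (Cf N → ℝ) → ℝ} (hl : ∀ N H H', |G N H - G N H'| ≤ ‖H - H'‖) {C B : ℝ}
    (hr : ∀ N, 1 ≤ N → ∀ H : Cf (N + 1) → ℝ, G N (red H) - C / N ≤ G (N + 1) H)
    (hB : ∀ N, 1 ≤ N → ∀ H, B ≤ cavG ν μ lam (G N) H - addG ν lam (G N) H) :
    ∃ C' : ℝ, ∀ N, 1 ≤ N → B - C' / N ≤ FG ν μ lam G (N + 1) - FG ν μ lam G N := by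
  sorry

end Vale.Agent.P168
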