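import Vale.Agent.P168.Sync
import Vale.Agent.P168.GW

namespace Vale.Agent.P168

open Finset Matrix
open scoped BigOperators

/-- decoupling of finitely many random sites below a given level -/
theorem dec_level (M : ℕ) {ρ β ε : ℝ} (hρ : ρ < 1) (hβ : 0 < β) (hε : 0 < ε) :
    ∃ n : ℕ, 0 < n ∧ ∃ η : ℝ, 0 < η ∧ ∃ C : ℝ, 0 ≤ C ∧ ∀ {S I : Type} [Fintype S] [Fintype I]
      [Nonempty I] (c : Ch S) (μ : ℕ → S → ℝ) (sp : S → I → Bool) (D : ℕ),
      Expo c.a c.b D β → c.Sto D → Path c D μ → Resp n c μ (ind sp) D η →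
      ∀ {J : Type} [Fintype J] [DecidableEq J], Fintype.card J ≤ M →
      ∀ Z : (J → Bool) → ℝ, (∀ τ, 0 ≤ Z τ ∧ Z τ ≤ ρ) → ∀ d < D,
        |∑ s, me c μ d s * 𝔼 i : J → I, (PE c (fun s => 1 - Z fun j => sp s (i j)) d s -
          PE (c.pi J) (fun u => 1 - Z fun j => sp (u j) (i j)) d fun _ => s)| ≤
        ε + C * ∑ j : J, ∑ t : Sh n (J → Bool) (d + 1), wt c.b (d + 1) t *
          (1 / (2 * Fintype.card (J → Bool))) ^ lv (d + 1) t *
            errp c μ (ind sp) d (Sh.map (fun τ => τ j) (d + 1) t) := by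
  sorry

end Vale.Agent.P168
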