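import Vale.Agent.P168.CavU
import Vale.Agent.P168.Pert

/-! The lower bound for the finite model. -/

namespace Vale.Agent.P168

open Finset Filter

variable {Θ : Type} [Fintype Θ] {K : ℕ}

lemma lower_linG_mul {C : Type} {G : List C → ℝ} (x : ℝ) (hG : LinG G) :
    LinG fun l => x * G l := by
  obtain ⟨a, b, h⟩ := hG
  refine ⟨|x| * a, |x| * b, fun l => ?_⟩
  rw [abs_mul, mul_assoc, ← mul_add]
  exact mul_le_mul_of_nonneg_left (h l) (abs_nonneg x)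

lemma lower_lip_log (N : ℕ) :
    Lip1 fun H : (Fin N → Bool) → ℝ => Real.log (∑ s, Real.exp (H s)) :=
  fun _ _ _ h => abs_log_sum_exp_sub_le h

theorem Ffin_eq_EH {q : Θ → ℝ} (hq : IsPr q) (th : Θ → Cl K) (hv : Θ → ℝ) {lam : ℝ}
    (hlam : 0 ≤ lam) {N : ℕ} (hN : 1 ≤ N) :
    Ffin q th hv lam N =
      EH q th hv N (lam * N) (fun H => Real.log (∑ s, Real.exp (H s))) := by
  have : Nonempty (Fin N) := ⟨⟨0, hN⟩⟩
  have h0 : ∀ c, 0 ≤ lam * N * qN q K N c := fun c =>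
    mul_nonneg (by positivity) ((isPr_qN hq K hN).1 c)
  rw [EH, Epi]
  simp only [← PP_mul_left]
  rw [← PP_sum h0 _ fun ω => lower_linG_mul _ ((lower_lip_log N).linG th _),
    PP_eq_poi (isPr_qN hq K hN)]
  refine tsum_congr fun M => ?_
  rw [cavU_qN_eq, Epi_prod_unif]
  congr 2
  funext ω
  simp only [avg_sum, avg_mul_left, Epi, logZ, Ham, fld, List.map_ofFn, List.sum_ofFn,
    Function.comp]

lemma lower_rate {C : Type} [Fintype C] {p : C → ℝ} (hp : IsPr p) {γ γ' : ℝ} (h : 0 ≤ γ)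
    (h' : 0 ≤ γ') {G : List C → ℝ} (hP : PermInv G) {b : ℝ}
    (hb : ∀ l c, |G (c :: l) - G l| ≤ b) :
    |PP (fun c => γ * p c) G - PP (fun c => γ' * p c) G| ≤ b * |γ - γ'| := by
  wlog hle : γ' ≤ γ generalizing γ γ'
  · rw [abs_sub_comm, abs_sub_comm γ]
    exact this h' h (le_of_not_ge hle)
  have := cavU_abs_PP_le (ν := fun c => γ * p c) (fun c => mul_nonneg h' (hp.1 c))
    (fun c => mul_le_mul_of_nonneg_right hle (hp.1 c)) hP hb
  rw [abs_of_nonneg (sub_nonneg.2 hle)]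
  simpa only [← mul_sum, hp.2, mul_one] using this

lemma lower_gam0 (K : ℕ) (lam : ℝ) (N : ℕ) : lam * ∑ j ∈ range K, ((N : ℝ) / ((N : ℝ) + 1)) ^ j =
    lam * ((N : ℝ) + 1) - gam0 K lam N := by
  set x : ℝ := (N : ℝ) / ((N : ℝ) + 1) with hx
  have e1 := mul_neg_geom_sum x K
  have e2 : ((N : ℝ) + 1) * (1 - x) = 1 := by
    rw [hx]
    field_simp
    ring
  rw [gam0, ← hx]
  linear_combination (lam * (N + 1)) * e1 - lam * (∑ j ∈ range K, x ^ j) * e2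

/-- The `N`-system in terms of the cavity system. -/
theorem cavity_V {q : Θ → ℝ} (hq : IsPr q) (hK : 1 ≤ K) (th : Θ → Cl K) (hv : Θ → ℝ) {lam : ℝ}
    (hlam : 0 ≤ lam) :
    ∃ η : ℕ → ℝ, Tendsto η atTop (nhds 0) ∧ ∀ (N : ℕ), 1 ≤ N →
      ∀ (A : ((Fin N → Bool) → ℝ) → ℝ), Lip1 A →
        |EH q th hv N (lam * N) A - EH q th hv N (gam0 K lam N) (cavV q th lam A)| ≤ η N := by
  have hx : Tendsto (fun N : ℕ => (N : ℝ) / ((N : ℝ) + 1)) atTop (nhds 1) :=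
    tendsto_natCast_div_add_atTop 1
  have hK' : (0 : ℝ) ≤ (K - 1) * lam :=
    mul_nonneg (sub_nonneg.2 (by exact_mod_cast hK)) hlam
  refine ⟨fun N => ‖th‖ * |lam * ∑ j ∈ range K, ((N : ℝ) / ((N : ℝ) + 1)) ^ j - K * lam|, ?_,
    fun N hN A hA => ?_⟩
  · have hc : Continuous fun x : ℝ => ‖th‖ * |lam * ∑ j ∈ range K, x ^ j - K * lam| := by
      fun_prop
    have := (hc.tendsto 1).comp hx
    simp only [one_pow, sum_const, card_range, nsmul_eq_mul, mul_one] at this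
    rwa [show ‖th‖ * |lam * K - K * lam| = 0 by simp [mul_comm]] at this
  have hp := isPr_qN hq K hN
  rw [EH, EH, ← Epi_sub]
  refine abs_Epi_le hq fun ω => ?_
  have hP : PermInv fun l => A fun s => Ham th l s + fld hv ω s := fun l l' h => by
    simp only [Ham_perm th h]
  have k1 := lower_rate hp (γ := lam * N) (γ' := gam0 K lam N + (K - 1) * lam) (by positivity)
    (add_nonneg (gam0_nonneg K hlam N) hK') hP (cavU_step hA th _)
  have e : lam * N - (gam0 K lam N + (K - 1) * lam) =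
      lam * ∑ j ∈ range K, ((N : ℝ) / ((N : ℝ) + 1)) ^ j - K * lam := by
    rw [lower_gam0]
    ring
  simp only [add_mul] at k1
  rw [PP_add (fun c => mul_nonneg (gam0_nonneg K hlam N) (hp.1 c))
    (fun c => mul_nonneg hK' (hp.1 c)) (hA.linG th _) hP, e] at k1
  have e2 : ∀ (l₀ l₁ : List (Θ × (Fin K → Fin N))) (s : Fin N → Bool),
      Ham th (l₀ ++ l₁) s + fld hv ω s = Ham th l₁ s + (Ham th l₀ s + fld hv ω s) := by
    intro l₀ l₁ s
    simp only [Ham, List.map_append, List.sum_append]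
    ring
  simpa only [cavU_cavV_eq A hN hq, e2] using k1

lemma lower_mix {I : Type} [Fintype I] {w : I → ℝ} (hw : IsPr w) {f : I → ℝ} {x η : ℝ}
    (h : ∀ i, |f i - x| ≤ η) : |∑ i, w i * f i - x| ≤ η := by
  simpa only [← sum_mul, hw.2, one_mul] using cavU_abs_mix hw (Y := fun _ => x) h

lemma lower_Epi {ι : Type} [Fintype ι] [DecidableEq ι] {q : Θ → ℝ} (hq : IsPr q)
    {f : (ι → Θ) → ℝ} {x η : ℝ} (h : ∀ i, |f i - x| ≤ η) : |Epi q f - x| ≤ η := by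
  have := abs_Epi_le hq h
  rwa [Epi_sub, Epi_const hq] at this

lemma lower_avg {I : Type} [Fintype I] [Nonempty I] {f : I → ℝ} {x η : ℝ}
    (h : ∀ i, |f i - x| ≤ η) : |avg f - x| ≤ η := by
  have := abs_avg_sub_le ((abs_nonneg _).trans (h (Classical.arbitrary I))) h
  rwa [avg_const] at this

lemma lower_seq {γ a b ε η x : ℝ} {M₀ : ℕ} (hγ : 0 ≤ γ)
    (h₀ : ∀ (u : ℕ → ℝ) (η : ℝ), 0 ≤ η → (∀ M, |u M| ≤ 2 * a + 2 * b * M) →
      (∀ M, M ≤ M₀ → |u M| ≤ η) → |∑' M, poi γ M * u M| ≤ η + ε)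
    {Ξ : Type} [Fintype Ξ] {p : Ξ → ℝ} (hp : IsPr p) (hη : 0 ≤ η) {X : ℕ → ℝ} {T : Ξ → ℕ → ℝ}
    (hX : ∀ M, |X M - x| ≤ a + b * M) (hT : ∀ ξ M, |T ξ M - 0| ≤ a + b * M)
    (hs : ∀ M, M ≤ M₀ → |X M - ∑ ξ, p ξ * T ξ M - x| ≤ η) :
    |∑' M, poi γ M * X M - x - ∑ ξ, p ξ * ∑' M, poi γ M * T ξ M| ≤ η + ε := by
  have s1 : Summable fun M => poi γ M * X M :=
    summable_poi_mul hγ (a := a + |x|) (b := b) fun M => by
      linarith [hX M, abs_sub_abs_le_abs_sub (X M) x]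
  have s2 := hasSum_sum (s := univ) fun ξ _ => (summable_poi_mul hγ (u := T ξ) fun M => by
    simpa using hT ξ M).hasSum.mul_left (p ξ)
  have k := ((s1.hasSum.sub s2).sub ((hasSum_poi γ).mul_right x)).tsum_eq
  have := h₀ (fun M => X M - ∑ ξ, p ξ * T ξ M - x) η hη (fun M => by
    have k1 := lower_mix hp fun ξ => hT ξ M
    rw [sub_zero] at k1
    rw [sub_right_comm]
    linarith [abs_sub (X M - x) (∑ ξ, p ξ * T ξ M), hX M]) hs
  simp only [mul_sub, mul_sum, mul_left_comm (poi γ _)] at this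
  rwa [k, one_mul, sub_right_comm] at this

/-- The cavity functional of the perturbed system dominates the infimum. -/
theorem cav_ge {q : Θ → ℝ} (hq : IsPr q) (hK : 1 ≤ K) (th : Θ → Cl K) (hv : Θ → ℝ) {lam : ℝ}
    (hlam : 0 ≤ lam) {c : ℝ}
    (hc : ∀ (S : Type) [Fintype S] (m : Msg S), m.Good →
      c ≤ TUfin q th hv lam m - TVfin q th lam m) {ε : ℝ} (hε : 0 < ε) :
    ∃ (ε' B : ℝ) (d₀ : ℕ), 0 < ε' ∧
      ∀ (A : (N : ℕ) → ((Fin N → Bool) → ℝ) → ℝ) (C : ℝ) (δ : ℕ → ℝ), PertSpec ε' B d₀ A C δ →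
        ∀ N, 1 ≤ N → ∀ H : (Fin N → Bool) → ℝ,
          c - ε ≤ cavU q th hv lam (A N) H - cavV q th lam (A N) H := by
  have hK' : (0 : ℝ) ≤ (K - 1) * lam :=
    mul_nonneg (sub_nonneg.2 (by exact_mod_cast hK)) hlam
  have hK0 : (0 : ℝ) ≤ K * lam := by positivity
  have : Nonempty (Fin K) := ⟨⟨0, hK⟩⟩
  obtain ⟨M₁, h₁⟩ := poi_tail hK0 (2 * (1 + ‖hv‖)) (2 * ‖th‖) (by positivity : 0 < ε / 4)
  obtain ⟨M₂, h₂⟩ := poi_tail hK' (2 * (1 + ‖hv‖)) (2 * ‖th‖) (by positivity : 0 < ε / 4)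
  refine ⟨ε / 4, 1 + ‖hv‖ + ‖th‖ * (M₁ + M₂ : ℕ), (M₁ + M₂) * K, by positivity,
    fun A C δ hA N hN H => ?_⟩
  have : Nonempty (Fin N) := ⟨⟨0, hN⟩⟩
  obtain ⟨S, Ξ, _, _, p, m, hp, hm, hY⟩ := hA.2.2.2.2 N hN H
  have hth : ∀ {M : ℕ} (ω : Fin M → Θ), ∑ k, ‖th (ω k)‖ ≤ ‖th‖ * M := fun ω =>
    (sum_le_card_nsmul _ _ ‖th‖ fun k _ => norm_le_pi_norm th _).trans_eq (by simp [mul_comm])
  have bU : ∀ {M : ℕ} (ω : Fin M → Θ) (a : Θ) (l : Fin M → Fin K) (s : Fin M × Fin K → Bool),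
      0 < YU (hv a) (fun k => th (ω k)) l s ∧
        |Real.log (YU (hv a) (fun k => th (ω k)) l s)| ≤ 1 + ‖hv‖ + ‖th‖ * M :=
    fun ω a l s => ⟨YU_pos _ _ _ _, (abs_log_YU_le _ _ _ _).trans
      (add_le_add (add_le_add le_rfl (norm_le_pi_norm hv a)) (hth ω))⟩
  have bV : ∀ {M : ℕ} (ω : Fin M → Θ) (s : Fin M × Fin K → Bool),
      0 < YV (fun k => th (ω k)) s ∧
        |Real.log (YV (fun k => th (ω k)) s)| ≤ 1 + ‖hv‖ + ‖th‖ * M :=
    fun ω s => ⟨YV_pos _ _, (abs_log_YV_le _ _).trans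
      ((hth ω).trans (le_add_of_nonneg_left (by positivity)))⟩
  have b1 : ∀ {M : ℕ} {Y : (Fin M × Fin K → Bool) → ℝ},
      (∀ s, 0 < Y s ∧ |Real.log (Y s)| ≤ 1 + ‖hv‖ + ‖th‖ * M) →
      |avg (fun i : Fin M × Fin K → Fin N =>
        A N fun s => H s + Real.log (Y fun j => s (i j))) - A N H| ≤ 1 + ‖hv‖ + ‖th‖ * M :=
    fun hY => lower_avg fun i => hA.2.1 N hN _ _ _ fun s => by simpa using (hY _).2
  have b2 : ∀ {M : ℕ} {Y : (Fin M × Fin K → Bool) → ℝ},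
      (∀ s, 0 < Y s ∧ |Real.log (Y s)| ≤ 1 + ‖hv‖ + ‖th‖ * M) →
      ∀ ξ, |Tfin (m ξ) (hat Y) - 0| ≤ 1 + ‖hv‖ + ‖th‖ * M := fun hY ξ => by
    rw [sub_zero]
    exact abs_Tfin_le (hm ξ) fun y hy => abs_log_hat_le hY hy
  have b3 : ∀ {M : ℕ} {Y : (Fin M × Fin K → Bool) → ℝ}, M ≤ M₁ + M₂ →
      (∀ s, 0 < Y s ∧ |Real.log (Y s)| ≤ 1 + ‖hv‖ + ‖th‖ * M) →
      |avg (fun i : Fin M × Fin K → Fin N => A N fun s => H s + Real.log (Y fun j => s (i j))) -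
        ∑ ξ, p ξ * Tfin (m ξ) (hat Y) - A N H| ≤ ε / 4 := fun hM hb => by
    rw [sub_right_comm]
    refine hY _ (by simpa using Nat.mul_le_mul_right K hM) _ fun s => ⟨(hb s).1, (hb s).2.trans ?_⟩
    gcongr
  have kU : |cavU q th hv lam (A N) H - A N H - ∑ ξ, p ξ * TUfin q th hv lam (m ξ)| ≤
      ε / 4 + ε / 4 := by
    refine lower_seq hK0 h₁ hp (by positivity)
      (fun M => lower_Epi hq fun ω => lower_mix hq fun a => lower_avg fun l => b1 (bU ω a l))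
      (fun ξ M => lower_Epi hq fun ω => lower_mix hq fun a => lower_avg fun l => by
        rw [← hat_YU]
        exact b2 (bU ω a l) ξ) fun M hM => ?_
    simp only [← Epi_mul_left, ← Epi_sum, ← Epi_sub, mul_sum]
    refine lower_Epi hq fun ω => ?_
    rw [sum_comm, ← sum_sub_distrib]
    simp only [mul_left_comm (p _), ← mul_sum, ← mul_sub, ← avg_mul_left (p _), ← avg_sum,
      ← avg_sub, ← hat_YU]
    exact lower_mix hq fun a => lower_avg fun l => b3 (by omega) (bU ω a l)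
  have kV : |cavV q th lam (A N) H - A N H - ∑ ξ, p ξ * TVfin q th lam (m ξ)| ≤
      ε / 4 + ε / 4 := by
    refine lower_seq hK' h₂ hp (by positivity) (fun M => lower_Epi hq fun ω => b1 (bV ω))
      (fun ξ M => lower_Epi hq fun ω => by
        rw [← hat_YV]
        exact b2 (bV ω) ξ) fun M hM => ?_
    simp only [← Epi_mul_left, ← Epi_sum, ← Epi_sub, ← hat_YV]
    exact lower_Epi hq fun ω => b3 (by omega) (bV ω)
  have k : ∑ ξ, p ξ * c ≤ ∑ ξ, p ξ * (TUfin q th hv lam (m ξ) - TVfin q th lam (m ξ)) :=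
    sum_le_sum fun ξ _ => mul_le_mul_of_nonneg_left (hc S (m ξ) (hm ξ)) (hp.1 ξ)
  simp only [← sum_mul, hp.2, one_mul, mul_sub, sum_sub_distrib] at k
  linarith [(abs_le.1 kU).1, (abs_le.1 kV).2]

lemma lower_EH {q : Θ → ℝ} (hq : IsPr q) (th : Θ → Cl K) (hv : Θ → ℝ) {N : ℕ} (hN : 1 ≤ N)
    {γ : ℝ} (hγ : 0 ≤ γ) {F G : ((Fin N → Bool) → ℝ) → ℝ} (hF : Lip1 F) (hG : Lip1 G) {x : ℝ}
    (h : ∀ H, x ≤ F H - G H) : x ≤ EH q th hv N γ F - EH q th hv N γ G := by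
  have h0 : ∀ c, 0 ≤ γ * qN q K N c := fun c => mul_nonneg hγ ((isPr_qN hq K hN).1 c)
  rw [EH, EH, ← Epi_sub, ← Epi_const (ι := Fin N) hq x]
  refine Epi_mono hq fun ω => ?_
  rw [← PP_sub_fun h0 (hF.linG th _) (hG.linG th _),
    ← PP_const (ν := fun c => γ * qN q K N c) x]
  exact PP_mono h0 (linG_const x) ((hF.linG th _).sub (hG.linG th _)) fun l => h _

theorem lower_fin {q : Θ → ℝ} (hq : IsPr q) (hK : 1 ≤ K) (th : Θ → Cl K) (hv : Θ → ℝ) {lam : ℝ}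
    (hlam : 0 ≤ lam) {c : ℝ}
    (hc : ∀ (S : Type) [Fintype S] (m : Msg S), m.Good →
      c ≤ TUfin q th hv lam m - TVfin q th lam m) {ε : ℝ} (hε : 0 < ε) :
    ∀ᶠ N : ℕ in atTop, c - ε ≤ (1 / (N : ℝ)) * Ffin q th hv lam N := by
  obtain ⟨ε', B, d₀, hε', hcav⟩ := cav_ge hq hK th hv hlam hc (by positivity : 0 < ε / 4)
  obtain ⟨A, C, δ, hA⟩ := pert_exists hε' B d₀
  obtain ⟨η, hη, hU⟩ := cavity_U hq hK th hv hlam
  obtain ⟨η', hη', hV⟩ := cavity_V hq hK th hv hlam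
  have hL : ∀ N, 1 ≤ N → Lip1 (A N) := hA.2.1
  set a : ℕ → ℝ := fun N => EH q th hv N (lam * N) (A N) with ha
  have ht := (hA.2.2.1.add hη).add hη'
  rw [add_zero, add_zero] at ht
  obtain ⟨N₀, hN₀⟩ := eventually_atTop.1
    ((ht.eventually (gt_mem_nhds (by positivity : 0 < ε / 4))).and (eventually_ge_atTop 1))
  have step : ∀ N, N₀ ≤ N → a N + (c - ε / 2) ≤ a (N + 1) := fun N hN => by
    obtain ⟨k0, k1⟩ := hN₀ N hN
    have u := hU N k1 _ _ _ (hL N k1) (hL (N + 1) (by omega)) (hA.2.2.2.1 N k1)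
    have v := hV N k1 _ (hL N k1)
    have w := lower_EH hq th hv k1 (gam0_nonneg K hlam N) ((hL N k1).cavU k1 hK hq th hv hlam)
      ((hL N k1).cavV k1 hK hq th hlam) (hcav A C δ hA N k1)
    simp only [ha]
    linarith [(abs_le.1 u).1, (abs_le.1 v).2]
  have tel : ∀ N, N₀ ≤ N → a N₀ + ((N : ℝ) - N₀) * (c - ε / 2) ≤ a N := by
    intro N hN
    induction N, hN using Nat.le_induction with
    | base => simp
    | succ N hN ih =>
      push_cast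
      linarith [step N hN]
  have hD := tendsto_const_div_atTop_nhds_zero_nat (a N₀ - N₀ * (c - ε / 2) - C)
  filter_upwards [hD.eventually (lt_mem_nhds (by linarith : -(ε / 2) < 0)),
    eventually_ge_atTop N₀] with N h1 h2
  have k1 := (hN₀ N h2).2
  have hN : (0 : ℝ) < N := by exact_mod_cast k1
  have w := lower_EH hq th hv k1 (by positivity : 0 ≤ lam * N) (lower_lip_log N) (hL N k1)
    (x := -C) fun H => by linarith [(abs_le.1 (hA.1 N k1 H)).2]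
  rw [← Ffin_eq_EH hq th hv hlam k1] at w
  rw [lt_div_iff₀ hN] at h1
  rw [one_div, ← div_eq_inv_mul, le_div_iff₀ hN]
  have := tel N h2
  simp only [ha] at this h1
  linarith

end Vale.Agent.P168
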