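import Vale.Agent.P168.Basic

namespace Vale.Agent.P168

open Finset Matrix
open scoped BigOperators

theorem md_flip {ι : Type} [Fintype ι] [DecidableEq ι] (q : ι) (G : (ι → Bool) → Bool → ℝ)
    (hG : ∀ ε b, G (Function.update ε q b) = G ε) :
    𝔼 ε, G ε (ε q) = 𝔼 ε, (G ε true + G ε false) / 2 := by
  have h1 : 𝔼 ε, G ε (ε q) = 𝔼 ε, G ε (!ε q) :=
    Fintype.expect_bijective (fun ε => Function.update ε q (!ε q))
      (Function.Involutive.bijective fun ε => by simp) _ _ fun ε => by simp [hG]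
  have h2 : ∀ ε, G ε true + G ε false = G ε (ε q) + G ε (!ε q) := fun ε => by
    cases ε q <;> simp [add_comm]
  simp only [h2]
  rw [← expect_div, expect_add_distrib, ← h1]
  ring

theorem md_sum {ι : Type} [Fintype ι] [DecidableEq ι] (q : ι) (R : ι → ℝ) (ε : ι → Bool) :
    ∑ p, sg (ε p) * R p = sg (ε q) * R q + ∑ p, sg (ε p) * Function.update R q 0 p := by
  rw [← add_sum_erase _ _ (mem_univ q), ← add_sum_erase _ _ (mem_univ q), Function.update_self,
    mul_zero, zero_add]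
  exact congrArg _ (sum_congr rfl fun p hp => by rw [Function.update_of_ne (ne_of_mem_erase hp)])

theorem md_sum' {ι : Type} [Fintype ι] [DecidableEq ι] (q : ι) (R : ι → ℝ) (ε : ι → Bool)
    (b : Bool) : ∑ p, sg (Function.update ε q b p) * Function.update R q 0 p =
      ∑ p, sg (ε p) * Function.update R q 0 p :=
  sum_congr rfl fun p _ => by
    by_cases h : p = q
    · simp [h]
    · rw [Function.update_of_ne h]

theorem md_rpow {lam x θ : ℝ} (hl0 : 0 ≤ lam) (hl : lam ≤ 1 / 2) (h0 : 0 ≤ θ) (h1 : θ ≤ 1)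
    (hx : 1 - lam ≤ x ∧ x ≤ 1 + lam) : 1 - lam ≤ x ^ θ ∧ x ^ θ ≤ 1 + lam := by
  refine ⟨le_trans ?_ (Real.rpow_le_rpow (by linarith) hx.1 h0),
    (Real.rpow_le_rpow (by linarith [hx.1]) hx.2 h0).trans ?_⟩
  · simpa using Real.rpow_le_rpow_of_exponent_ge (x := 1 - lam) (by linarith) (by linarith) h1
  · simpa using Real.rpow_le_rpow_of_exponent_le (x := 1 + lam) (by linarith) h1

theorem md_fall_ne {x : ℝ} (hx : x < 0) (j : ℕ) : fall x j ≠ 0 := by
  induction j generalizing x with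
  | zero => exact one_ne_zero
  | succ j ih => exact mul_ne_zero hx.ne (ih (by linarith))

/-- mixed central differences of a power function near `1` -/
theorem walsh (j : ℕ) (θ : ℝ) : ∃ C : ℝ, 0 ≤ C ∧ ∀ {ι : Type} [Fintype ι] [DecidableEq ι]
    (T : Finset ι), T.card = j → ∀ (lam R0 : ℝ) (R : ι → ℝ), 0 ≤ lam → lam ≤ 1 / 2 →
    (∀ ε : ι → Bool, |R0 + ∑ q, sg (ε q) * R q - 1| ≤ lam) →
    |(𝔼 ε : ι → Bool, (∏ q ∈ T, sg (ε q)) * (R0 + ∑ q, sg (ε q) * R q) ^ θ) -
      fall θ j * ∏ q ∈ T, R q| ≤ C * lam * ∏ q ∈ T, |R q| := by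
  induction j generalizing θ with
  | zero =>
    obtain ⟨C, hC⟩ := (isCompact_Icc (a := (1 / 2 : ℝ)) (b := 3 / 2)).exists_bound_of_continuousOn
      (f := fun x : ℝ => θ * x ^ (θ - 1)) (continuousOn_const.mul
        (continuousOn_id.rpow_const fun x hx => Or.inl (by linarith [hx.1] : 0 < x).ne'))
    have h0 : 0 ≤ C := (norm_nonneg _).trans (hC 1 (by norm_num))
    refine ⟨C, h0, fun {ι} _ _ T hT lam R0 R _ hl h => ?_⟩
    rw [card_eq_zero.1 hT]
    simp only [prod_empty, one_mul, mul_one, fall]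
    rw [← Fintype.expect_const (ι := ι → Bool) (1 : ℝ), ← expect_sub_distrib]
    refine (abs_expect_le _ _).trans (expect_le univ_nonempty fun ε _ => ?_)
    have h1 := abs_le.1 (h ε)
    have h2 := (convex_Icc (1 / 2 : ℝ) (3 / 2)).norm_image_sub_le_of_norm_hasDerivWithin_le
      (f := fun x : ℝ => x ^ θ) (fun x hx => (Real.hasDerivAt_rpow_const
        (Or.inl (by linarith [hx.1] : 0 < x).ne')).hasDerivWithinAt) hC
      (x := 1) (y := R0 + ∑ q, sg (ε q) * R q) (by norm_num) ⟨by linarith [h1.1], by linarith [h1.2]⟩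
    rw [Real.one_rpow] at h2
    exact h2.trans (mul_le_mul_of_nonneg_left (h ε) h0)
  | succ j ih =>
    obtain ⟨C, h0, hC⟩ := ih (θ - 1)
    refine ⟨|θ| * C, by positivity, fun {ι} _ _ T hT lam R0 R hl0 hl h => ?_⟩
    obtain ⟨q, T, hq, rfl, hT'⟩ := card_eq_succ.1 hT
    set R' := Function.update R q 0 with hR'
    have hr : ∀ u ∈ Set.Icc (-1 : ℝ) 1, ∀ ε : ι → Bool,
        |R0 + u * R q + ∑ p, sg (ε p) * R' p - 1| ≤ lam := fun u hu ε => by
      have h1 := abs_le.1 (h (Function.update ε q true))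
      have h2 := abs_le.1 (h (Function.update ε q false))
      rw [md_sum q, md_sum', Function.update_self] at h1 h2
      simp only [sg, if_true, Bool.false_eq_true, if_false] at h1 h2 ⊢
      rw [abs_le]
      constructor <;> nlinarith [h1.1, h1.2, h2.1, h2.2, hu.1, hu.2]
    have hd : ∀ u ∈ Set.Icc (-1 : ℝ) 1, HasDerivAt (fun u => 𝔼 ε : ι → Bool,
        (∏ p ∈ T, sg (ε p)) * (R0 + u * R q + ∑ p, sg (ε p) * R' p) ^ θ)
        (θ * R q * 𝔼 ε : ι → Bool,
          (∏ p ∈ T, sg (ε p)) * (R0 + u * R q + ∑ p, sg (ε p) * R' p) ^ (θ - 1)) u := by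
      intro u hu
      rw [mul_expect]
      simp only [expect_eq_sum_div_card]
      refine HasDerivAt.div_const (HasDerivAt.fun_sum fun ε _ => ?_) _
      have h1 := abs_le.1 (hr u hu ε)
      refine (((((hasDerivAt_id u).mul_const (R q)).const_add R0).add_const
        (∑ p, sg (ε p) * R' p)).rpow_const (p := θ)
        (Or.inl (ne_of_gt (by simp only [id]; linarith [h1.1])))).const_mul
        (∏ p ∈ T, sg (ε p)) |>.congr_deriv ?_
      simp only [id]
      ring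
    obtain ⟨u, hu, e⟩ := exists_hasDerivAt_eq_slope _ _ (show (-1 : ℝ) < 1 by norm_num)
      (fun u hu => (hd u hu).continuousAt.continuousWithinAt)
      fun u hu => hd u (Set.Ioo_subset_Icc_self hu)
    have h1 := md_flip q (fun ε b => sg b * ((∏ p ∈ T, sg (ε p)) *
      (R0 + sg b * R q + ∑ p, sg (ε p) * R' p) ^ θ)) fun ε b => by
        funext b'
        rw [md_sum', prod_congr rfl fun p hp => by
          rw [Function.update_of_ne (ne_of_mem_of_not_mem hp hq)]]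
    have h2 := hC T hT' lam _ R' hl0 hl (hr u (Set.Ioo_subset_Icc_self hu))
    have h3 : ∀ f : ℝ → ℝ, ∏ p ∈ T, f (R' p) = ∏ p ∈ T, f (R p) := fun f =>
      prod_congr rfl fun p hp => by rw [hR', Function.update_of_ne (ne_of_mem_of_not_mem hp hq)]
    rw [h3 fun x => x, h3 fun x => |x|] at h2
    have h4 : 𝔼 ε : ι → Bool, (∏ p ∈ insert q T, sg (ε p)) * (R0 + ∑ p, sg (ε p) * R p) ^ θ =
        θ * R q * 𝔼 ε : ι → Bool,
          (∏ p ∈ T, sg (ε p)) * (R0 + u * R q + ∑ p, sg (ε p) * R' p) ^ (θ - 1) := by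
      rw [e, ← expect_sub_distrib, expect_div]
      refine Eq.trans (expect_congr rfl fun ε _ => ?_) (h1.trans (expect_congr rfl fun ε _ => ?_))
      · rw [prod_insert hq, md_sum q, mul_assoc, add_assoc]
      · simp only [sg, if_true, Bool.false_eq_true, if_false]
        ring
    rw [h4, prod_insert hq, prod_insert hq, fall]
    have h5 := mul_le_mul_of_nonneg_left h2 (abs_nonneg (θ * R q))
    rw [← abs_mul, abs_mul θ] at h5
    refine le_of_eq_of_le (congrArg _ (by ring)) (h5.trans_eq (by ring))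

theorem fall_succ' (x : ℝ) (j : ℕ) : fall x (j + 1) = fall x j * (x - j) := by
  induction j generalizing x with
  | zero => simp [fall]
  | succ j ih =>
    rw [fall, ih, fall]
    push_cast
    ring

theorem sw_nonneg {ι : Type} [Fintype ι] {s : ℝ} (hs : |s| ≤ 1) (ε : ι → Bool) : 0 ≤ sw s ε := by
  have : |s * ∏ q, sg (ε q)| ≤ 1 := by
    rw [abs_mul, abs_prod]
    simpa [abs_sg] using hs
  exact div_nonneg (by linarith [(abs_le.1 this).1]) (by positivity)

theorem sum_sw {ι : Type} [Fintype ι] [DecidableEq ι] [Nonempty ι] (s : ℝ) :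
    ∑ ε : ι → Bool, sw s ε = 1 := by
  have : ∑ ε : ι → Bool, ∏ q, sg (ε q) = 0 := by
    rw [← Fintype.prod_sum fun (_ : ι) b => sg b]
    simp [sg]
  simp only [sw]
  rw [← sum_div, sum_add_distrib, ← mul_sum, this]
  simp

variable {S : Type} [Fintype S] {n : ℕ} {L L' : Type}

theorem yO_affine (c : Ch S) (lam : ℝ) (ξ : L' → S → ℝ) (d : ℕ) (t : Sh n L' d) (s : ℝ) (γ : S) :
    yO c lam ξ d t s γ = (yO c lam ξ d t 1 γ + yO c lam ξ d t (-1) γ) / 2 +
      s * ((yO c lam ξ d t 1 γ - yO c lam ξ d t (-1) γ) / 2) := by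
  cases d with
  | zero => simp only [yO]; ring
  | succ d =>
    simp only [yO]
    rw [← sum_add_distrib, ← sum_sub_distrib, sum_div, sum_div, mul_sum, ← sum_add_distrib]
    exact sum_congr rfl fun ε _ => by simp only [sw]; ring

theorem nO_affine (c : Ch S) (lam : ℝ) (ξ : L' → S → ℝ) (z : L → S → ℝ) (d : ℕ) (u : Sh n L d)
    (t : Sh n L' d) (s : ℝ) (γ : S) :
    nO c lam ξ z d u t s γ = (nO c lam ξ z d u t 1 γ + nO c lam ξ z d u t (-1) γ) / 2 +
      s * ((nO c lam ξ z d u t 1 γ - nO c lam ξ z d u t (-1) γ) / 2) := by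
  cases d with
  | zero => simp only [nO]; ring
  | succ d =>
    simp only [nO]
    rw [← sum_add_distrib, ← sum_sub_distrib, sum_div, sum_div, mul_sum, ← sum_add_distrib]
    exact sum_congr rfl fun ε _ => by simp only [sw]; ring

theorem yO_mem {c : Ch S} {D : ℕ} {β lam : ℝ} (h : c.Sto D) (he : Expo c.a c.b D β)
    (hl0 : 0 ≤ lam) (hl : lam ≤ 1 / 2) {ξ : L' → S → ℝ} (hξ : ∀ l s, 0 ≤ ξ l s ∧ ξ l s ≤ 1)
    {d : ℕ} (hd : d ≤ D) (t : Sh n L' d) {s : ℝ} (hs : |s| ≤ 1) (γ : S) :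
    1 - lam ≤ yO c lam ξ d t s γ ∧ yO c lam ξ d t s γ ≤ 1 + lam := by
  induction d generalizing s γ with
  | zero =>
    have h1 := hξ t γ
    have h2 : |s * ξ t γ| ≤ 1 := by
      rw [abs_mul, abs_of_nonneg h1.1]
      exact mul_le_one₀ hs h1.1 h1.2
    rw [abs_le] at h2
    simp only [yO]
    constructor <;> nlinarith [h2.1, h2.2]
  | succ d ih =>
    have ha := he.a_pos hd
    have hb := he.dec.b_pos (Nat.le_of_succ_le hd)
    have hb' := he.dec.b_pos hd
    have h1 : ∀ q e β, _ := fun q e β => md_rpow hl0 hl (div_pos ha hb).le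
      ((div_le_one hb).2 (he.lt d hd).2.le)
      ⟨(h d hd).2.le_mulVec (fun x => (ih (Nat.le_of_succ_le hd) (t.2 q) (abs_sg e).le x).1) β,
        (h d hd).2.mulVec_le (fun x => (ih (Nat.le_of_succ_le hd) (t.2 q) (abs_sg e).le x).2) β⟩
    have h2 : ∀ ε : Fin (t.1 + 1) → Bool, _ := fun ε => md_rpow hl0 hl (div_pos hb' ha).le
      ((div_le_one ha).2 (he.lt d hd).1.le)
      ⟨(h d hd).1.le_mulVec (fun β => le_expect univ_nonempty fun q _ => (h1 q (ε q) β).1) γ,
        (h d hd).1.mulVec_le (fun β => expect_le univ_nonempty fun q _ => (h1 q (ε q) β).2) γ⟩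
    constructor
    · refine le_of_eq_of_le ?_ (sum_le_sum fun ε _ =>
        mul_le_mul_of_nonneg_left (h2 ε).1 (sw_nonneg hs ε))
      rw [← sum_mul, sum_sw, one_mul]
    · refine (sum_le_sum fun ε _ => mul_le_mul_of_nonneg_left (h2 ε).2 (sw_nonneg hs ε)).trans_eq ?_
      rw [← sum_mul, sum_sw, one_mul]

theorem nO_mem {c : Ch S} {D : ℕ} {β lam : ℝ} (h : c.Sto D) (he : Expo c.a c.b D β)
    (hl0 : 0 ≤ lam) (hl : lam ≤ 1 / 2) {ξ : L' → S → ℝ} (hξ : ∀ l s, 0 ≤ ξ l s ∧ ξ l s ≤ 1)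
    {z : L → S → ℝ} (hz : ∀ l s, 0 ≤ z l s ∧ z l s ≤ 1) {d : ℕ} (hd : d ≤ D) (u : Sh n L d)
    (t : Sh n L' d) {s : ℝ} (hs : |s| ≤ 1) (γ : S) :
    0 ≤ nO c lam ξ z d u t s γ ∧ nO c lam ξ z d u t s γ ≤ yO c lam ξ d t s γ := by
  induction d generalizing s γ with
  | zero =>
    have h1 := (yO_mem (n := n) h he hl0 hl hξ hd t hs γ).1
    have h2 : 0 ≤ 1 + lam * s * ξ t γ := le_trans (by linarith) h1
    exact ⟨mul_nonneg h2 (hz u γ).1, mul_le_of_le_one_right h2 (hz u γ).2⟩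
  | succ d ih =>
    have hd' := Nat.le_of_succ_le hd
    have h1 : ∀ q e β, 0 < (c.B d *ᵥ yO c lam ξ d (t.2 q) (sg e)) β := fun q e β =>
      lt_of_lt_of_le (by linarith) ((h d hd).2.le_mulVec
        (fun x => (yO_mem h he hl0 hl hξ hd' (t.2 q) (abs_sg e).le x).1) β)
    have h2 : ∀ q e β r, 0 ≤ (c.B d *ᵥ nO c lam ξ z d (u.2 r) (t.2 q) (sg e)) β /
        (c.B d *ᵥ yO c lam ξ d (t.2 q) (sg e)) β ∧
        (c.B d *ᵥ nO c lam ξ z d (u.2 r) (t.2 q) (sg e)) β /
        (c.B d *ᵥ yO c lam ξ d (t.2 q) (sg e)) β ≤ 1 := fun q e β r =>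
      ⟨div_nonneg (mulVec_nonneg' (h d hd).2.1 (fun x => (ih hd' _ _ (abs_sg e).le x).1) β)
        (h1 q e β).le, (div_le_one (h1 q e β)).2
          (mulVec_mono (h d hd).2.1 (fun x => (ih hd' _ _ (abs_sg e).le x).2) β)⟩
    have h3 : ∀ ε : Fin (t.1 + 1) → Bool, 0 < (c.A d *ᵥ fun β => 𝔼 q,
        (c.B d *ᵥ yO c lam ξ d (t.2 q) (sg (ε q))) β ^ (c.a d / c.b d)) γ := fun ε =>
      lt_of_lt_of_le (show 0 < 1 - lam by linarith) ((h d hd).1.le_mulVec (fun β =>
        le_expect univ_nonempty fun q _ => (md_rpow hl0 hl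
          (div_pos (he.a_pos hd) (he.dec.b_pos hd')).le
          ((div_le_one (he.dec.b_pos hd')).2 (he.lt d hd).2.le)
          ⟨(h d hd).2.le_mulVec (fun x => (yO_mem h he hl0 hl hξ hd' _ (abs_sg _).le x).1) β,
            (h d hd).2.mulVec_le (fun x => (yO_mem h he hl0 hl hξ hd' _ (abs_sg _).le x).2) β⟩).1) γ)
    refine ⟨sum_nonneg fun ε _ => mul_nonneg (sw_nonneg hs ε) (mul_nonneg
      (Real.rpow_nonneg (h3 ε).le _) (mulVec_nonneg' (h d hd).1.1 (fun β => expect_nonneg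
        fun q _ => mul_nonneg (Real.rpow_nonneg (h1 _ _ _).le _)
          (prod_nonneg fun r _ => (h2 _ _ _ r).1)) γ)),
      sum_le_sum fun ε _ => mul_le_mul_of_nonneg_left ?_ (sw_nonneg hs ε)⟩
    refine (mul_le_mul_of_nonneg_left (mulVec_mono (h d hd).1.1 (fun β => expect_le_expect
      fun q _ => mul_le_of_le_one_right (Real.rpow_nonneg (h1 _ _ _).le _)
        (prod_le_one (fun r _ => (h2 _ _ _ r).1) fun r _ => (h2 _ _ _ r).2)) γ)
      (Real.rpow_nonneg (h3 ε).le _)).trans_eq ?_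
    rw [Real.rpow_sub_one (h3 ε).ne', div_mul_cancel₀ _ (h3 ε).ne']

theorem nV_ne_zero {a b : ℕ → ℝ} {D : ℕ} {β : ℝ} (he : Expo a b D β) {d : ℕ} (hd : d ≤ D)
    (t : Sh n L d) : nV a b d t ≠ 0 := by
  induction d with
  | zero => exact one_ne_zero
  | succ d ih =>
    have ha := he.a_pos hd
    refine mul_ne_zero (div_ne_zero (md_fall_ne ?_ _) ha.ne') (prod_ne_zero_iff.2 fun q _ =>
      div_ne_zero (mul_ne_zero ha.ne' (ih (Nat.le_of_succ_le hd) _)) (by positivity))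
    rw [sub_neg, div_lt_one ha]
    exact (he.lt d hd).1

end Vale.Agent.P168
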