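import Vale.Agent.P168.Basic

namespace Vale.Agent.P168

open Finset Matrix
open scoped BigOperators

variable {S : Type} [Fintype S] {n : ℕ} {L L' : Type}

/-- the evaluation at an e-node is an average of characters (replica configurations) -/
theorem rep_eact {c : Ch S} {D : ℕ} (h : c.Sto D) {d : ℕ} (hd : d < D) (u : Sh n L (d + 1)) :
    ∃ (R : Type) (_ : Fintype R) (π : R → S → ℝ) (χ : R → (L → S → ℝ) →* ℝ),
      (∀ ρ s, 0 ≤ π ρ s) ∧ (∀ s, ∑ ρ, π ρ s = 1) ∧ (∀ ρ, Continuous (χ ρ)) ∧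
      (∀ ρ z, (∀ l s, |z l s| ≤ 1) → |χ ρ z| ≤ 1) ∧
      ∀ z s, eact c z d u s = ∑ ρ, π ρ s * χ ρ z := by
  sorry

/-- total mass of the response -/
theorem nu_one {c : Ch S} {D : ℕ} (h : c.Sto D) (hb : c.b 0 = 1) (ξ : L' → S → ℝ) {d : ℕ}
    (hd : d ≤ D) (u : Sh n L d) (t : Sh n L' d) (s : S) :
    nu c ξ (fun _ _ => 1) d u t s = c.b d * vir c ξ d t s := by
  sorry

/-- the centred response matrix is controlled by the covariance matrix -/
theorem nu_core {I : Type} [Fintype I] {c : Ch S} {D : ℕ} {β : ℝ} (h : c.Sto D)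
    (he : Expo c.a c.b D β) {z : I → Bool → S → ℝ} (hz : Obs z) {d : ℕ} (hd : d ≤ D)
    (t : Sh n Bool d) (s : S) :
    𝔼 i, 𝔼 i', (nu c (z i) (z i') d t t s - c.b d * act c (z i') d t s * vir c (z i) d t s) ^ 2 ≤
      (2 * (lv d t : ℝ) ^ 2) ^ 2 * Real.sqrt (𝔼 i, 𝔼 i',
        |act c (z i * z i') d t s - act c (z i) d t s * act c (z i') d t s|) := by
  sorry

end Vale.Agent.P168
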