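import Vale.Agent.P168.UB1
import Vale.Agent.P168.GW
import Vale.Agent.P168.Rep

namespace Vale.Agent.P168

open Finset Matrix MeasureTheory ProbabilityTheory
open scoped BigOperators NNReal

/-- replacing one clause -/
theorem one_slot {Ω : Type} [MeasurableSpace Ω] {P : Measure Ω} [IsProbabilityMeasure P] {K : ℕ}
    {θ : Ω → Cl K} {a b : Ω → ℝ} {f : Fin K → Ω → Bool → ℝ} (h : PT P θ a b f) {N : ℕ} [NeZero N]
    {fd : FD} (hf : fd.Ok) {J : Type} [Fintype J] [DecidableEq J] (X : (J → ℝ) → Cf N → ℝ) :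
    ∫ ω, 𝔼 mk : Mk K N, fd.T (J ⊕ Fin K) (one X (θ ω) (pat false mk)) ∂P ≤
      ∫ ω, 𝔼 mk : Mk K N, fd.T (J ⊕ Fin K) (one X (θ ω) (pat true mk)) ∂P := by
  sorry

end Vale.Agent.P168
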