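import Vale.Agent.P168.Sys
import Vale.Agent.P168.MD

namespace Vale.Agent.P168

open Finset Matrix
open scoped BigOperators

variable {n D s : ℕ} {I : Type} [Fintype I] [DecidableEq I] [Inhabited I]

/-- the real sign parameter of a family -/
def sval (χ : Option Bool) : ℝ := χ.elim 0 sg

/-- switching on the slot `j` at the site `i` -/
noncomputable def swOn (st : St n D s I) (j : Sl n D s) (i : I) : St n D s I :=
  (Function.update st.1 j.1.1 (Function.update (st.1 j.1.1) j (true, i, (st.1 j.1.1 j).2.2)), st.2)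

/-- effect of switching on an inactive slot, seen from the e-node of its level -/
theorem probe_on {a b : ℕ → ℝ} {β lam : ℝ} (he : Expo a b D β) (hl0 : 0 ≤ lam) (hl : lam ≤ 1 / 2)
    (y : Fam n D → ℝ) (H : (I → Bool) → ℝ) (j : Sl n D s) (st : St n D s I)
    (hst : (st.1 j.1.1 j).1 = false) (i : I) :
    Real.exp (b j.1.1 * (XE (base n D s I a b y) (term lam H) j.1.1 (swOn st j i) -
        XE (base n D s I a b y) (term lam H) j.1.1 st)) =
      ((sys n D s a b lam y H).B j.1.1 *ᵥ
        yO (sys n D s a b lam y H) lam (ind spn i) j.1.1 j.1.2.1 (sval j.1.2.2)) st ∧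
    ∀ (u : Sh n Bool j.1.1) (i' : I),
      ph (sys n D s a b lam y H) (ind spn) j.1.1 u i' (swOn st j i) =
        ((sys n D s a b lam y H).B j.1.1 *ᵥ
          nO (sys n D s a b lam y H) lam (ind spn i) (ind spn i') j.1.1 u j.1.2.1 (sval j.1.2.2)) st /
        ((sys n D s a b lam y H).B j.1.1 *ᵥ
          yO (sys n D s a b lam y H) lam (ind spn i) j.1.1 j.1.2.1 (sval j.1.2.2)) st := by
  sorry

end Vale.Agent.P168
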