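import Vale.Agent.P168.Tree

/-! Elementary lemmas for the probe estimate. -/

namespace Vale.Agent.P168

open Finset

theorem probe_avg_cons {k : ℕ} (F : (Fin (k + 1) → Bool) → ℝ) :
    avg F = avg (fun y : Fin k → Bool =>
      (F (Fin.cons (α := fun _ => Bool) true y) + F (Fin.cons (α := fun _ => Bool) false y)) / 2) := by
  rw [← avg_equiv (Fin.consEquiv (fun _ : Fin (k + 1) => Bool)) F, avg_prod, avg_comm]
  simp only [avg_bool]
  rfl

theorem probe_mvt {F F' : ℝ → ℝ} {x t : ℝ} (h : ∀ y, |y - x| ≤ |t| → HasDerivAt F (F' y) y) :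
    ∃ ξ, |ξ - x| ≤ |t| ∧ (F (x + t) - F (x - t)) / 2 = t * F' ξ := by
  have key : ∀ u : ℝ, 0 < u → u = |t| → ∃ ξ, |ξ - x| ≤ |t| ∧ (F (x + u) - F (x - u)) / 2 = u * F' ξ := by
    intro u hu hut
    have hd : ∀ y ∈ Set.Icc (x - u) (x + u), HasDerivAt F (F' y) y := fun y hy =>
      h y (by rw [← hut, abs_le]; constructor <;> linarith [hy.1, hy.2])
    obtain ⟨ξ, hξ, he⟩ := exists_hasDerivAt_eq_slope F F' (by linarith : x - u < x + u)
      (fun y hy => (hd y hy).continuousAt.continuousWithinAt)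
      (fun y hy => hd y (Set.Ioo_subset_Icc_self hy))
    refine ⟨ξ, by rw [← hut, abs_le]; constructor <;> linarith [hξ.1, hξ.2], ?_⟩
    rw [he]
    have : x + u - (x - u) = 2 * u := by ring
    rw [this]
    field_simp
  rcases lt_trichotomy t 0 with ht | ht | ht
  · obtain ⟨ξ, h1, h2⟩ := key (-t) (by linarith) (abs_of_neg ht).symm
    refine ⟨ξ, h1, ?_⟩
    have e1 : x + -t = x - t := by ring
    have e2 : x - -t = x + t := by ring
    rw [e1, e2] at h2
    linarith
  · subst ht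
    exact ⟨x, by simp, by simp⟩
  · exact key t ht (abs_of_pos ht).symm

/-- Iterated central differences. -/
theorem probe_cd (k : ℕ) : ∀ (F : ℕ → ℝ → ℝ) (x : ℝ) (t : Fin k → ℝ),
    (∀ j y, |y - x| ≤ ∑ b, |t b| → HasDerivAt (F j) (F (j + 1) y) y) →
    ∃ ξ, |ξ - x| ≤ ∑ b, |t b| ∧
      avg (fun η : Fin k → Bool => (∏ b, spin (η b)) * F 0 (x + ∑ b, spin (η b) * t b)) =
        (∏ b, t b) * F k ξ := by
  induction k with
  | zero =>
    intro F x t _
    refine ⟨x, by simp, ?_⟩
    simp [avg]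
  | succ k ih =>
    intro F x t h
    rw [Fin.sum_univ_succ] at h
    have hs : 0 ≤ ∑ b : Fin k, |t b.succ| := sum_nonneg (fun _ _ => abs_nonneg _)
    obtain ⟨ξ, h1, h2⟩ := ih (fun j y => (F j (y + t 0) - F j (y - t 0)) / 2) x (fun b => t b.succ) (by
      intro j y hy
      have e1 : |y + t 0 - x| ≤ |t 0| + ∑ b : Fin k, |t b.succ| := by
        have := abs_add_le (y - x) (t 0)
        have e : y + t 0 - x = y - x + t 0 := by ring
        rw [e]; linarith
      have e2 : |y - t 0 - x| ≤ |t 0| + ∑ b : Fin k, |t b.succ| := by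
        have := abs_sub (y - x) (t 0)
        have e : y - t 0 - x = y - x - t 0 := by ring
        rw [e]; linarith
      exact (((h j _ e1).comp_add_const y (t 0)).sub ((h j _ e2).comp_sub_const y (t 0))).div_const 2)
    obtain ⟨ξ', h3, h4⟩ := probe_mvt (F := F k) (F' := F (k + 1)) (x := ξ) (t := t 0) (by
      intro y hy
      refine h k y ?_
      have := abs_add_le (y - ξ) (ξ - x)
      have e : y - ξ + (ξ - x) = y - x := by ring
      rw [e] at this
      linarith)
    refine ⟨ξ', ?_, ?_⟩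
    · have := abs_add_le (ξ' - ξ) (ξ - x)
      have e : ξ' - ξ + (ξ - x) = ξ' - x := by ring
      rw [e] at this
      rw [Fin.sum_univ_succ]
      linarith
    · rw [probe_avg_cons, Fin.prod_univ_succ]
      rw [h4] at h2
      have e : t 0 * (∏ b : Fin k, t b.succ) * F (k + 1) ξ' =
          (∏ b : Fin k, t b.succ) * (t 0 * F (k + 1) ξ') := by ring
      rw [e, ← h2]
      refine congrArg avg (funext fun y => ?_)
      simp only [Fin.prod_univ_succ, Fin.sum_univ_succ, Fin.cons_zero, Fin.cons_succ, spin,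
        if_true, Bool.false_eq_true, if_false]
      have e1 : ∀ a : ℝ, x + (1 * t 0 + a) = x + a + t 0 := fun a => by ring
      have e2 : ∀ a : ℝ, x + (-1 * t 0 + a) = x + a - t 0 := fun a => by ring
      rw [e1, e2]
      ring

theorem probe_prod (k : ℕ) {M : ℝ} (hM : 0 ≤ M) : ∃ C : ℝ, 0 ≤ C ∧ ∀ h : ℝ, 0 ≤ h → h ≤ 1 →
    ∀ a b : Fin k → ℝ, (∀ i, |a i| ≤ M) → (∀ i, |b i - a i| ≤ M * h) →
      |∏ i, b i - ∏ i, a i| ≤ C * h ∧ |∏ i, b i| ≤ C := by
  induction k with
  | zero => exact ⟨1, zero_le_one, fun h h0 _ a b _ _ => by simp [h0]⟩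
  | succ k ih =>
    obtain ⟨C, hC, H⟩ := ih
    refine ⟨2 * M * C, by positivity, fun h h0 h1 a b ha hb => ?_⟩
    obtain ⟨H1, H2⟩ := H h h0 h1 (fun i => a i.succ) (fun i => b i.succ) (fun i => ha _)
      (fun i => hb _)
    rw [Fin.prod_univ_succ, Fin.prod_univ_succ]
    have hb0 : |b 0| ≤ 2 * M := by
      have := abs_add_le (b 0 - a 0) (a 0)
      rw [sub_add_cancel] at this
      have h3 := mul_le_mul_of_nonneg_left h1 hM
      linarith [ha 0, hb 0]
    constructor
    · have e : b 0 * ∏ i : Fin k, b i.succ - a 0 * ∏ i : Fin k, a i.succ =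
          (b 0 - a 0) * ∏ i : Fin k, b i.succ +
            a 0 * (∏ i : Fin k, b i.succ - ∏ i : Fin k, a i.succ) := by ring
      rw [e]
      refine (abs_add_le _ _).trans ?_
      rw [abs_mul, abs_mul]
      have h3 := mul_le_mul (hb 0) H2 (abs_nonneg _) (by positivity)
      have h4 := mul_le_mul (ha 0) H1 (abs_nonneg _) hM
      linarith
    · rw [abs_mul]
      exact mul_le_mul hb0 H2 (abs_nonneg _) (by positivity)

/-- The derivatives of a power. -/
noncomputable def probeF (p : ℝ) (j : ℕ) (x : ℝ) : ℝ := (∏ i ∈ range j, (p - i)) * x ^ (p - j)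

theorem probeF_deriv (p : ℝ) (j : ℕ) {x : ℝ} (hx : 0 < x) :
    HasDerivAt (probeF p j) (probeF p (j + 1) x) x := by
  have := (Real.hasDerivAt_rpow_const (x := x) (p := p - j) (Or.inl hx.ne')).const_mul
    (∏ i ∈ range j, (p - i))
  have e : probeF p (j + 1) x = (∏ i ∈ range j, (p - i)) * ((p - j) * x ^ (p - j - 1)) := by
    unfold probeF
    rw [prod_range_succ]
    push_cast
    rw [← sub_sub]
    ring
  rw [e]
  exact this

theorem probeF_lip (p : ℝ) (j : ℕ) : ∃ K δ : ℝ, 0 ≤ K ∧ 0 < δ ∧ ∀ x, |x - 1| ≤ δ →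
    |probeF p j x - probeF p j 1| ≤ K * |x - 1| := by
  obtain ⟨K, hK, H⟩ := (probeF_deriv p j one_pos).isBigO_sub.exists_nonneg
  obtain ⟨δ, hδ, H'⟩ := Metric.eventually_nhds_iff.1 H.bound
  refine ⟨K, δ / 2, hK, by linarith, fun x hx => ?_⟩
  exact H' (by rw [Real.dist_eq]; linarith)

theorem probeF_one_ne {m m' : ℝ} (hm : 0 < m) (hm' : 0 < m') {c : ℕ} (h : bco m m' c ≠ 0) :
    probeF (m / m') (c + 1) 1 ≠ 0 := by
  unfold probeF
  rw [Real.one_rpow, mul_one, prod_range_succ']
  refine mul_ne_zero (prod_ne_zero_iff.2 fun i hi h0 => h ?_) (by simpa using ⟨hm.ne', hm'.ne'⟩)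
  unfold bco
  rw [prod_eq_zero hi, zero_div]
  push_cast at h0
  have : m / m' = (i : ℝ) + 1 := by linarith
  rw [div_eq_iff hm'.ne'] at this
  linarith

theorem probe_log {a b ε : ℝ} (hε : ε ≤ 1 / 2) (ha : |a - 1| ≤ ε) (hb : |b - 1| ≤ ε) :
    |Real.log a - Real.log b - (a - b)| ≤ 2 * ε * |a - b| := by
  have hd : ∀ x ∈ Set.Icc (1 - ε) (1 + ε), HasDerivWithinAt (fun x => Real.log x - x) (x⁻¹ - 1)
      (Set.Icc (1 - ε) (1 + ε)) x := fun x hx =>
    ((Real.hasDerivAt_log (by linarith [hx.1] : x ≠ 0)).sub (hasDerivAt_id x)).hasDerivWithinAt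
  have hbd : ∀ x ∈ Set.Icc (1 - ε) (1 + ε), ‖x⁻¹ - 1‖ ≤ 2 * ε := by
    intro x hx
    have hx0 : 0 < x := by linarith [hx.1]
    have e : x⁻¹ - 1 = (1 - x) / x := by field_simp
    rw [Real.norm_eq_abs, e, abs_div, abs_of_pos hx0, div_le_iff₀ hx0]
    have h1 : |1 - x| ≤ ε := by rw [abs_le]; constructor <;> linarith [hx.1, hx.2]
    have h2 : 0 ≤ ε := (abs_nonneg _).trans h1
    nlinarith [hx.1]
  rw [abs_le] at ha hb
  have := (convex_Icc (1 - ε) (1 + ε)).norm_image_sub_le_of_norm_hasDerivWithin_le hd hbd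
    (x := b) (y := a) ⟨by linarith [hb.1], by linarith [hb.2]⟩ ⟨by linarith [ha.1], by linarith [ha.2]⟩
  rw [Real.norm_eq_abs, Real.norm_eq_abs] at this
  have e : Real.log a - Real.log b - (a - b) = Real.log a - a - (Real.log b - b) := by ring
  rwa [e]

/-! Marks. -/

theorem probe_split {n : ℕ} (F : Mk n → ℝ) :
    avg F = avg (fun a : Fin n → Bool => avg (fun w : Fin n → Bool => F (Sum.elim a w))) := by
  rw [← avg_equiv (Equiv.sumArrowEquivProdArrow (Fin n) (Fin n) Bool).symm F, avg_prod]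
  rfl

/-- The probability of choosing the child `b`. -/
noncomputable def probeP (n c : ℕ) (b : Fin (c + 1)) : ℝ :=
  avg (fun v : Mk n => if chc c v = b then (1 : ℝ) else 0)

theorem probeP_nonneg (n c : ℕ) (b : Fin (c + 1)) : 0 ≤ probeP n c b :=
  avg_nonneg (fun v => by split_ifs <;> norm_num)

theorem probeP_sum (n c : ℕ) : ∑ b, probeP n c b = 1 := by
  unfold probeP
  rw [← avg_sum]
  simp only [sum_ite_eq, mem_univ, if_true]
  exact avg_const 1

theorem probeP_pos {n : ℕ} (c : Fin n) (b : Fin (c.val + 1)) : 0 < probeP n c.val b := by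
  unfold probeP avg
  refine div_pos (sum_pos' (fun v _ => by split_ifs <;> norm_num)
    ⟨Sum.elim (fun j => decide (j.val < b.val)) (fun _ => false), mem_univ _, ?_⟩)
    (by exact_mod_cast Fintype.card_pos)
  have hc : (univ.filter (fun j : Fin n => (Sum.elim (fun j : Fin n => decide (j.val < b.val))
      (fun _ : Fin n => false) : Mk n) (Sum.inl j) = true)).card = b.val := by
    simp only [Sum.elim_inl, decide_eq_true_eq]
    rw [Fin.card_filter_val_lt]
    have := b.isLt
    have := c.isLt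
    omega
  rw [if_pos]
  · norm_num
  · unfold chc
    rw [dif_pos (by rw [hc]; exact b.isLt)]
    exact Fin.ext hc

theorem probe_fact {n c : ℕ} (Φ : Fin (c + 1) → Mk n → ℝ)
    (hΦ : ∀ b u u', (∀ j, u (Sum.inr j) = u' (Sum.inr j)) → Φ b u = Φ b u') :
    avg (fun v => Φ (chc c v) v) = ∑ b, probeP n c b * avg (Φ b) := by
  have e1 : ∀ v, Φ (chc c v) v = ∑ b, (if chc c v = b then (1 : ℝ) else 0) * Φ b v := by
    intro v
    simp
  simp only [e1]
  rw [avg_sum]
  refine sum_congr rfl (fun b _ => ?_)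
  unfold probeP
  rw [probe_split, probe_split (fun v : Mk n => if chc c v = b then (1 : ℝ) else 0),
    probe_split (Φ b)]
  have e2 : ∀ a w : Fin n → Bool, chc c (Sum.elim a w) = chc c (Sum.elim a (fun _ => false)) :=
    fun a w => rfl
  have e3 : ∀ a w : Fin n → Bool, Φ b (Sum.elim a w) = Φ b (Sum.elim (fun _ => false) w) :=
    fun a w => hΦ b _ _ (fun j => rfl)
  simp only [e2, e3, avg_mul_left, avg_mul_right, avg_const]

theorem probe_lock_sign {n : ℕ} (c : Fin n) (u : Mk n) (z : Bool) (b : Fin (c.val + 1)) :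
    ∃ η : Bool, lock c u (spin z) b = spin η := by
  have key : ∀ (A : Finset (Fin (c.val + 1))) (g : Fin (c.val + 1) → Bool),
      ∃ η : Bool, spin z * ∏ b ∈ A, spin (g b) = spin η := by
    intro A g
    induction A using Finset.induction_on with
    | empty => exact ⟨z, by simp⟩
    | insert a A ha ih =>
      obtain ⟨η, hη⟩ := ih
      rw [prod_insert ha, mul_left_comm, hη]
      cases g a <;> cases η
      · exact ⟨true, by simp [spin]⟩
      · exact ⟨false, by simp [spin]⟩
      · exact ⟨false, by simp [spin]⟩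
      · exact ⟨true, by simp [spin]⟩
  unfold lock
  split_ifs
  · exact key _ _
  · exact ⟨_, rfl⟩

theorem probe_lock_eq {n : ℕ} (c : Fin n) (u : Mk n) (z : ℝ) :
    lock c u z = Fin.cons (α := fun _ => ℝ)
      (z * ∏ j : Fin c.val, spin (u (Sum.inr ⟨j.val + 1, lt_of_lt_of_le j.succ.isLt c.isLt⟩)))
      (fun j : Fin c.val => spin (u (Sum.inr ⟨j.val + 1, lt_of_lt_of_le j.succ.isLt c.isLt⟩))) := by
  funext b
  refine Fin.cases ?_ (fun j => ?_) b
  · unfold lock
    rw [if_pos rfl, Fin.cons_zero]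
    refine congrArg (z * ·) ?_
    have h := Finset.mul_prod_erase (univ : Finset (Fin (c.val + 1)))
      (fun b' => spin (u (Sum.inr ⟨b'.val, lt_of_lt_of_le b'.isLt c.isLt⟩))) (mem_univ 0)
    rw [Fin.prod_univ_succ] at h
    have hne : spin (u (Sum.inr ⟨(0 : Fin (c.val + 1)).val,
        lt_of_lt_of_le (0 : Fin (c.val + 1)).isLt c.isLt⟩)) ≠ 0 := by
      unfold spin; split_ifs <;> norm_num
    exact mul_left_cancel₀ hne h
  · unfold lock
    rw [if_neg (Fin.succ_ne_zero j), Fin.cons_succ]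
    rfl

/-- Under uniform locks the odd part in the incoming sign is the top Fourier coefficient. -/
theorem probe_lock_odd {n : ℕ} (c : Fin n) (G : (Fin (c.val + 1) → ℝ) → ℝ) :
    (avg (fun u : Mk n => G (lock c u 1)) - avg (fun u : Mk n => G (lock c u (-1)))) / 2 =
      avg (fun η : Fin (c.val + 1) → Bool => (∏ b, spin (η b)) * G (fun b => spin (η b))) := by
  have he : Function.Injective (fun j : Fin c.val =>
      (Sum.inr ⟨j.val + 1, lt_of_lt_of_le j.succ.isLt c.isLt⟩ : Fin n ⊕ Fin n)) := by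
    intro i j hij
    simp only [Sum.inr.injEq, Fin.mk.injEq] at hij
    exact Fin.ext (by omega)
  have key : ∀ z : ℝ, avg (fun u : Mk n => G (lock c u z)) = avg (fun y : Fin c.val → Bool =>
      G (Fin.cons (α := fun _ => ℝ) (z * ∏ j, spin (y j)) (fun j => spin (y j)))) := by
    intro z
    rw [← avg_comp_inj _ he]
    simp only [probe_lock_eq]
  rw [key, key, probe_avg_cons, ← avg_sub, div_eq_mul_inv, ← avg_mul_right]
  refine congrArg avg (funext fun y => ?_)
  have e : ∀ ε : Bool, (fun b => spin (Fin.cons (α := fun _ => Bool) ε y b)) =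
      Fin.cons (α := fun _ => ℝ) (spin ε) (fun j => spin (y j)) := by
    intro ε
    funext b
    refine Fin.cases ?_ (fun j => ?_) b <;> simp
  simp only [Fin.prod_univ_succ, Fin.cons_zero, Fin.cons_succ, e]
  have hP : (∏ j, spin (y j)) ^ 2 = 1 := by
    rw [← prod_pow]
    simp only [spin_sq, prod_const_one]
  have e1 : spin true = 1 := rfl
  have e2 : spin false = -1 := rfl
  rw [e1, e2]
  rcases sq_eq_one_iff.1 hP with h | h
  · rw [h]; norm_num; ring
  · rw [h]; norm_num; ring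

end Vale.Agent.P168
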