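import Vale.Agent.P168.FT

namespace Vale.Agent.P168

open Finset MeasureTheory
open scoped BigOperators

/-- sampling from a probability vector with one uniform variable -/
theorem exists_sample {S : Type} [Fintype S] {w : S → ℝ} (hw : Prob w) :
    ∃ G : unitInterval → S, ∀ s, MeasurableSet (G ⁻¹' {s}) ∧ volume.real (G ⁻¹' {s}) = w s := by
  sorry

/-- running the chain along the uniform variables -/
def run {S : Type} (G : ℕ → S → unitInterval → S) : (r : ℕ) → S → (Fin r → unitInterval) → S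
  | 0, s, _ => s
  | r + 1, s, ω => run G r (G r s (ω 0)) (Fin.tail ω)

/-- a trial function given by sampling maps has the finite trial functional -/
theorem msgT_eq {f : FD} (hf : f.Ok) (G0 : unitInterval → f.Sm) (G : ℕ → f.Sm → unitInterval → f.Sm)
    (h0 : ∀ s, MeasurableSet (G0 ⁻¹' {s}) ∧ volume.real (G0 ⁻¹' {s}) = f.w s)
    (hG : ∀ d < f.r, ∀ s t, MeasurableSet (G d s ⁻¹' {t}) ∧ volume.real (G d s ⁻¹' {t}) = f.κ d s t)
    (p : Trial f.r) (hm : ∀ q : Fin f.r, p.m q = f.m (f.r - 1 - q))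
    (hx : ∀ ω, p.x ω = f.x (run G f.r (G0 (ω 0)) (Fin.tail ω)))
    (J : Type) [Fintype J] [DecidableEq J] (Y : (J → ℝ) → ℝ) (hY : ∀ x, Cube x → 0 < Y x) :
    msgT p J Y = f.T J Y := by
  sorry

theorem measurable_run {S : Type} [Fintype S] (r : ℕ) (G0 : unitInterval → S)
    (G : ℕ → S → unitInterval → S) (h0 : ∀ s, MeasurableSet (G0 ⁻¹' {s}))
    (hG : ∀ d < r, ∀ s t, MeasurableSet (G d s ⁻¹' {t})) (x : S → ℝ) :
    Measurable fun ω : Fin (r + 1) → unitInterval => x (run G r (G0 (ω 0)) (Fin.tail ω)) := by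
  sorry

/-- finite trial data are realised by trial functions -/
theorem realize {f : FD} (hf : f.Ok) : ∃ p : Trial f.r, ∀ (J : Type) [Fintype J] [DecidableEq J]
    (Y : (J → ℝ) → ℝ), (∀ x, Cube x → 0 < Y x) → msgT p J Y = f.T J Y := by
  sorry

end Vale.Agent.P168
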