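import Vale.Agent.P168.SyncA

namespace Vale.Agent.P168

open Finset Matrix
open scoped BigOperators

section

variable {n : ℕ} {S I : Type} [Fintype S] [Fintype I] {c : Ch S} {μ : ℕ → S → ℝ}
  {z : I → Bool → S → ℝ} {D : ℕ}

theorem sync_inc_nonneg (hc : c.Sto D) (hμ : Path c D μ) {d : ℕ} (hd : d < D) (t : Sh n Bool d) :
    0 ≤ inc c μ z d t :=
  sum_nonneg fun γ _ => mul_nonneg ((hμ.prob hc hd).1 γ) (sum_nonneg fun β _ =>
    mul_nonneg ((hc d hd).1.1 γ β) (expect_nonneg fun _ _ => sq_nonneg _))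

theorem sync_err_nonneg (hc : c.Sto D) (hμ : Path c D μ) :
    ∀ (d : ℕ), d ≤ D → ∀ t : Sh n Bool d, 0 ≤ err c μ z d t
  | 0, _, _ => le_rfl
  | d + 1, hd, t => sum_nonneg fun q _ => add_nonneg
      (sync_err_nonneg hc hμ d (Nat.le_of_succ_le hd) _) (by
        split_ifs
        · exact le_rfl
        · exact sync_inc_nonneg hc hμ hd _)

theorem sync_err_child (hc : c.Sto D) (hμ : Path c D μ) {d : ℕ} (hd : d < D)
    (t : Sh n Bool (d + 1)) {η : ℝ} (h : err c μ z (d + 1) t ≤ η) (q : Fin (t.1 + 1)) :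
    err c μ z d (t.2 q) ≤ η ∧ ((t.1 : ℕ) ≠ 0 → inc c μ z d (t.2 q) ≤ η) := by
  have h0 : ∀ q, 0 ≤ if (t.1 : ℕ) = 0 then 0 else inc c μ z d (t.2 q) := fun q => by
    split_ifs
    · exact le_rfl
    · exact sync_inc_nonneg hc hμ hd _
  have h1 := (single_le_sum (f := fun q => err c μ z d (t.2 q) +
    if (t.1 : ℕ) = 0 then 0 else inc c μ z d (t.2 q))
    (fun q _ => add_nonneg (sync_err_nonneg hc hμ d hd.le _) (h0 q)) (mem_univ q)).trans h
  have h2 := sync_err_nonneg (z := z) hc hμ d hd.le (t.2 q)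
  refine ⟨by linarith [h0 q], fun hk => ?_⟩
  rw [if_neg hk] at h1
  linarith

theorem sync_card_le {L : Type} (d : ℕ) (t : Sh n L (d + 1)) : (t.1 : ℕ) + 1 ≤ lv (d + 1) t := by
  have := card_nsmul_le_sum univ (fun q => lv d (t.2 q)) 1 fun q _ => lv_pos d (t.2 q)
  rwa [card_univ, Fintype.card_fin, smul_eq_mul, mul_one] at this

theorem sync_lv_child {L : Type} (d : ℕ) (t : Sh n L (d + 1)) (q : Fin (t.1 + 1)) :
    lv d (t.2 q) + t.1 ≤ lv (d + 1) t := by
  have h := card_nsmul_le_sum (univ.erase q) (fun q => lv d (t.2 q)) 1 fun q _ => lv_pos d (t.2 q)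
  have h2 := add_sum_erase univ (fun q => lv d (t.2 q)) (mem_univ q)
  simp only [card_erase_of_mem (mem_univ q), card_univ, Fintype.card_fin, smul_eq_mul, mul_one,
    add_tsub_cancel_right] at h
  have h3 : lv (d + 1) t = ∑ q, lv d (t.2 q) := rfl
  omega

variable [Nonempty I]

theorem sync_inc1 (hc : c.Sto D) (hμ : Path c D μ) {d : ℕ} (hd : d < D) (t : Sh n Bool d) {η : ℝ}
    (h : inc c μ z d t ≤ η) : av (μ (d + 1)) (fun i (_ : I) γ =>
      (c.A d *ᵥ fun β => |ph c z d t i β - (c.A d *ᵥ ph c z d t i) γ|) γ) ≤ Real.sqrt η := by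
  have hp := hμ.prob hc hd
  refine (av_le_sqrt hp _).trans (Real.sqrt_le_sqrt (le_trans ?_ h))
  refine (av_mono hp.1 (G := fun i _ γ =>
    ∑ β, c.A d γ β * (ph c z d t i β - (c.A d *ᵥ ph c z d t i) γ) ^ 2) fun i _ γ => ?_).trans
    (le_of_eq ?_)
  · have h1 := sum_le_sqrt (w := c.A d γ) ⟨(hc d hd).1.1 γ, (hc d hd).1.2 γ⟩
      fun β => |ph c z d t i β - (c.A d *ᵥ ph c z d t i) γ|
    simp only [sq_abs] at h1
    exact (Real.le_sqrt (mulVec_nonneg' (hc d hd).1.1 (fun _ => abs_nonneg _) γ) (sum_nonneg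
      fun β _ => mul_nonneg ((hc d hd).1.1 γ β) (sq_nonneg _))).1 h1
  · simp only [av, inc, Fintype.expect_const, expect_sum_comm, mul_expect]

omit [Nonempty I] in
theorem sync_lift (hμ : Path c D μ) {d : ℕ} (hd : d < D) (F : I → I → S → ℝ) :
    av (μ (d + 1)) (fun i i' γ => (c.A d *ᵥ (c.B d *ᵥ F i i')) γ) = av (μ d) F := by
  rw [hμ.av_mo hd, Path.av_me]

theorem sync_abs_lift (hc : c.Sto D) {d : ℕ} (hd : d < D) (f g : S → ℝ) (γ : S) :
    |(c.A d *ᵥ (c.B d *ᵥ f)) γ - (c.A d *ᵥ (c.B d *ᵥ g)) γ| ≤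
      (c.A d *ᵥ (c.B d *ᵥ fun s => |f s - g s|)) γ := by
  rw [← Pi.sub_apply (c.A d *ᵥ _), ← mulVec_sub, ← mulVec_sub]
  exact (abs_mulVec_le (hc d hd).1.1 _ γ).trans
    (mulVec_mono (hc d hd).1.1 (abs_mulVec_le (hc d hd).2.1 _) γ)

theorem sync_abs_B (hc : c.Sto D) {d : ℕ} (hd : d < D) (f g : S → ℝ) (β : S) :
    |(c.B d *ᵥ f) β - (c.B d *ᵥ g) β| ≤ (c.B d *ᵥ fun s => |f s - g s|) β := by
  rw [← Pi.sub_apply (c.B d *ᵥ _), ← mulVec_sub]
  exact abs_mulVec_le (hc d hd).2.1 _ β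

omit [Nonempty I] in
theorem sync_abs_le_one {x : ℝ} (h : 0 ≤ x ∧ x ≤ 1) : |x| ≤ 1 := abs_le.2 ⟨by linarith, h.2⟩

omit [Fintype I] [Nonempty I] in
/-- the product of the children is close to the product of their means -/
theorem sync_prod (hc : c.Sto D) (hz : Obs z) {d : ℕ} (hd : d < D) (t : Sh n Bool (d + 1)) (i : I)
    (γ : S) : (c.A d *ᵥ fun β => |eact c (z i) d t β - ∏ q, (c.A d *ᵥ ph c z d (t.2 q) i) γ|) γ ≤
      ∑ q, (c.A d *ᵥ fun β => |ph c z d (t.2 q) i β - (c.A d *ᵥ ph c z d (t.2 q) i) γ|) γ := by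
  refine (mulVec_mono (hc d hd).1.1 (fun β => abs_prod_sub_prod_le univ
    (fun q => sync_abs_le_one (Bact_mem hc (hz i) hd _ β)) fun q =>
      (hc d hd).1.abs_mulVec_le (fun β => sync_abs_le_one (Bact_mem hc (hz i) hd _ β)) γ) γ).trans
    (le_of_eq ?_)
  simp only [mulVec_apply' (c.A d) _ γ, mul_sum]
  exact sum_comm

theorem sync_sub_const (hc : c.Sto D) {d : ℕ} (hd : d < D) (f : S → ℝ) (x : ℝ) (γ : S) :
    |(c.A d *ᵥ f) γ - x| ≤ (c.A d *ᵥ fun β => |f β - x|) γ := by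
  have h := abs_mulVec_le (hc d hd).1.1 (f - fun _ => x) γ
  rwa [mulVec_sub, Pi.sub_apply, (hc d hd).1.mulVec_const] at h

theorem sync_dev (hc : c.Sto D) (hμ : Path c D μ) (hz : Obs z) {η : ℝ} :
    ∀ (d : ℕ), d ≤ D → ∀ t : Sh n Bool d, err c μ z d t ≤ η →
      av (μ d) (fun i (_ : I) s => |act c (z i) d t s - vir c (z i) d t s|) ≤
        (2 * lv d t - 2) * Real.sqrt η
  | 0, _, t, _ => by simp [av, act, vir, lv]
  | d + 1, hd, t, h => by
    have hp := hμ.prob hc hd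
    have ih := fun q => sync_dev hc hμ hz d (Nat.le_of_succ_le hd) (t.2 q)
      (sync_err_child hc hμ hd t h q).1
    have h2 : ∀ i γ, |∏ q, (c.A d *ᵥ ph c z d (t.2 q) i) γ - vir c (z i) (d + 1) t γ| ≤
        ∑ q, (c.A d *ᵥ (c.B d *ᵥ fun s =>
          |act c (z i) d (t.2 q) s - vir c (z i) d (t.2 q) s|)) γ := fun i γ =>
      (abs_prod_sub_prod_le univ (fun q => (hc d hd).1.abs_mulVec_le
        (fun β => sync_abs_le_one (Bact_mem hc (hz i) hd _ β)) γ) fun q =>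
        (hc d hd).1.abs_mulVec_le ((hc d hd).2.abs_mulVec_le fun s =>
          sync_abs_le_one (vir_mem hc (hz i) d (Nat.le_of_succ_le hd) _ s)) γ).trans
        (sum_le_sum fun q _ => sync_abs_lift hc hd _ _ γ)
    have h3 : av (μ (d + 1)) (fun i (_ : I) γ => ∑ q, (c.A d *ᵥ (c.B d *ᵥ fun s =>
        |act c (z i) d (t.2 q) s - vir c (z i) d (t.2 q) s|)) γ) ≤
        (2 * lv (d + 1) t - 2 * ((t.1 : ℕ) + 1)) * Real.sqrt η := by
      rw [av_sum]
      refine (sum_le_sum fun q _ => (sync_lift hμ hd _).le.trans (ih q)).trans (le_of_eq ?_)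
      rw [← sum_mul, sum_sub_distrib, ← mul_sum]
      simp [lv, mul_comm]
    have hs := Real.sqrt_nonneg η
    by_cases hk : (t.1 : ℕ) = 0
    · obtain ⟨⟨k, hk'⟩, ts⟩ := t
      obtain rfl : k = 0 := hk
      refine (av_mono hp.1 fun i _ γ => le_trans (le_of_eq ?_) (h2 i γ)).trans
        (h3.trans (le_of_eq (by simp)))
      simp [act, ph]
    · have h4 : av (μ (d + 1)) (fun i (_ : I) γ => ∑ q, (c.A d *ᵥ fun β =>
          |ph c z d (t.2 q) i β - (c.A d *ᵥ ph c z d (t.2 q) i) γ|) γ) ≤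
          ((t.1 : ℕ) + 1) * Real.sqrt η := by
        rw [av_sum]
        refine (sum_le_sum fun q _ =>
          sync_inc1 hc hμ hd _ ((sync_err_child hc hμ hd t h q).2 hk)).trans (le_of_eq ?_)
        simp
      have h5 := (av_add _ _ _).le.trans (add_le_add h4 h3)
      have h6 : (1 : ℝ) ≤ (t.1 : ℕ) := by exact_mod_cast Nat.one_le_iff_ne_zero.2 hk
      refine ((av_mono hp.1 fun i _ γ => ?_).trans h5).trans (by nlinarith)
      exact (abs_sub_le _ _ _).trans (add_le_add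
        ((sync_sub_const hc hd _ _ γ).trans (sync_prod hc hz hd t i γ)) (h2 i γ))

omit [Fintype S] [Fintype I] [Nonempty I] in
theorem sync_obs_mul (hz : Obs z) (i i' : I) (l : Bool) (s : S) :
    0 ≤ (z i * z i') l s ∧ (z i * z i') l s ≤ 1 :=
  ⟨mul_nonneg (hz i l s).1 (hz i' l s).1, mul_le_one₀ (hz i l s).2 (hz i' l s).1 (hz i' l s).2⟩

/-- the covariance at a branching node -/
theorem sync_core (hc : c.Sto D) (hμ : Path c D μ) (hz : Obs z) {d : ℕ} (hd : d < D)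
    (t : Sh n Bool (d + 1)) {η x : ℝ} (h1 : ∀ q, inc c μ z d (t.2 q) ≤ η)
    (h2 : ∀ q, ce c μ z d (t.2 q) ≤ x) : av (μ (d + 1)) (fun i i' s =>
      |act c (z i * z i') (d + 1) t s - act c (z i) (d + 1) t s * act c (z i') (d + 1) t s|) ≤
      ((t.1 : ℕ) + 1) * (x + 4 * Real.sqrt η) := by
  have hp := hμ.prob hc hd
  have hA := (hc d hd).1
  obtain ⟨δ, hδ⟩ : ∃ δ : I → S → ℝ, δ = fun i γ => ∑ q, (c.A d *ᵥ fun β =>
    |ph c z d (t.2 q) i β - (c.A d *ᵥ ph c z d (t.2 q) i) γ|) γ := ⟨_, rfl⟩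
  have h3 : av (μ (d + 1)) (fun i (_ : I) γ => δ i γ) ≤ ((t.1 : ℕ) + 1) * Real.sqrt η := by
    rw [hδ, av_sum]
    refine (sum_le_sum fun q _ => sync_inc1 hc hμ hd _ (h1 q)).trans (le_of_eq ?_)
    simp
  have h4 : av (μ (d + 1)) (fun i i' γ => ∑ q, (c.A d *ᵥ fun β =>
      |(c.B d *ᵥ act c (z i * z i') d (t.2 q)) β -
        ph c z d (t.2 q) i β * ph c z d (t.2 q) i' β|) γ) ≤ ((t.1 : ℕ) + 1) * x := by
    rw [av_sum]
    refine (sum_le_sum fun q _ => (Path.av_me c μ d _).ge.trans (h2 q)).trans (le_of_eq ?_)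
    simp
  have h5 := (av_swap (μ (d + 1)) fun i (_ : I) γ => δ i γ).le.trans h3
  have h6 := (av_add _ _ _).le.trans (add_le_add h4 (((av_const_mul _ 2 _).le.trans
    (mul_le_mul_of_nonneg_left ((av_add _ _ _).le.trans (add_le_add h3 h5)) zero_le_two))))
  refine ((av_mono hp.1 fun i i' γ => ?_).trans h6).trans (le_of_eq (by ring))
  obtain ⟨p, hp'⟩ : ∃ p : I → ℝ, p = fun i => ∏ q, (c.A d *ᵥ ph c z d (t.2 q) i) γ := ⟨_, rfl⟩
  have p1 : ∀ i, |p i| ≤ 1 := fun i => by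
    rw [hp', abs_prod]
    exact prod_le_one (fun _ _ => abs_nonneg _) fun q _ =>
      hA.abs_mulVec_le (fun β => sync_abs_le_one (Bact_mem hc (hz i) hd _ β)) γ
  have e1 : ∀ i, (c.A d *ᵥ fun β => |eact c (z i) d t β - p i|) γ ≤ δ i γ := fun i => by
    rw [hp', hδ]
    exact sync_prod hc hz hd t i γ
  have e2 : ∀ i, |act c (z i) (d + 1) t γ - p i| ≤ δ i γ := fun i =>
    (sync_sub_const hc hd _ _ γ).trans (e1 i)
  have key : ∀ x y x' y' : ℝ, |x| ≤ 1 → |y'| ≤ 1 → |x * y - x' * y'| ≤ |x - x'| + |y - y'| := by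
    intro x y x' y' hx hy
    rw [show x * y - x' * y' = (x - x') * y' + x * (y - y') by ring]
    refine (abs_add_le _ _).trans (add_le_add ?_ ?_) <;> rw [abs_mul]
    · exact mul_le_of_le_one_right (abs_nonneg _) hy
    · exact mul_le_of_le_one_left (abs_nonneg _) hx
  have e3 := key _ (act c (z i') (d + 1) t γ) (p i) _
    (sync_abs_le_one (act_mem hc (hz i) (d + 1) hd t γ)) (p1 i')
  have e4 : |act c (z i * z i') (d + 1) t γ - p i * p i'| ≤ (c.A d *ᵥ fun β =>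
      ∑ q, |(c.B d *ᵥ act c (z i * z i') d (t.2 q)) β - ph c z d (t.2 q) i β * ph c z d (t.2 q) i' β|
        + (|eact c (z i) d t β - p i| + |eact c (z i') d t β - p i'|)) γ := by
    refine (sync_sub_const hc hd _ _ γ).trans (mulVec_mono hA.1 (fun β => ?_) γ)
    refine (abs_sub_le _ (eact c (z i) d t β * eact c (z i') d t β) _).trans (add_le_add ?_
      (key _ _ _ _ (sync_abs_le_one (eact_mem hc (hz i) hd t β)) (p1 i')))
    unfold eact
    rw [← prod_mul_distrib]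
    exact abs_prod_sub_prod_le univ
      (fun q => sync_abs_le_one (Bact_mem hc (sync_obs_mul hz i i') hd _ β)) fun q => by
        rw [abs_mul]
        exact mul_le_one₀ (sync_abs_le_one (Bact_mem hc (hz i) hd _ β)) (abs_nonneg _)
          (sync_abs_le_one (Bact_mem hc (hz i') hd _ β))
  have e5 := e1 i
  have e6 := e1 i'
  simp only [mulVec_apply' (c.A d) _ γ, mul_add, sum_add_distrib, mul_sum] at e4 e5 e6 ⊢
  rw [sum_comm] at e4
  have e7 := abs_sub_le (act c (z i * z i') (d + 1) t γ) (p i * p i')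
    (act c (z i) (d + 1) t γ * act c (z i') (d + 1) t γ)
  rw [abs_sub_comm (p i * p i')] at e7
  linarith [e2 i, e2 i']

/-- regular parts of the second-moment and response matrices -/
def Reg (c : Ch S) (μ : ℕ → S → ℝ) (z : I → Bool → S → ℝ) (d : ℕ) (t : Sh n Bool d)
    (e1 e2 : ℝ) : Prop :=
  ∃ M N : I → I → S → ℝ, (∀ i i' s, 0 ≤ M i i' s ∧ M i i' s ≤ 1) ∧
    (∀ s, Psd fun i i' => M i i' s - act c (z i) d t s * act c (z i') d t s) ∧
    (∀ s, Psd fun i i' => N i i' s - c.b d * M i i' s) ∧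
    av (μ d) (fun i i' s => |act c (z i * z i') d t s - M i i' s|) ≤ e1 ∧
    av (μ d) (fun i i' s => |nu c (z i) (z i') d t t s - N i i' s|) ≤ e2

theorem sync_base {β : ℝ} (he : Expo c.a c.b D β) (hc : c.Sto D) (hμ : Path c D μ) (hz : Obs z)
    {d : ℕ} (hd : d ≤ D) (t : Sh n Bool d) {e1 dv K : ℝ} (hK : 2 * (lv d t : ℝ) ^ 2 ≤ K)
    (h1 : av (μ d) (fun i i' s =>
      |act c (z i * z i') d t s - act c (z i) d t s * act c (z i') d t s|) ≤ e1)
    (h2 : av (μ d) (fun i (_ : I) s => |act c (z i) d t s - vir c (z i) d t s|) ≤ dv) :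
    Reg c μ z d t e1 (K * Real.sqrt (Real.sqrt e1) + dv) := by
  have hp := hμ.prob hc hd
  have ha := fun i s => act_mem hc (hz i) d hd t s
  refine ⟨fun i i' s => act c (z i) d t s * act c (z i') d t s,
    fun i i' s => c.b d * (act c (z i) d t s * act c (z i') d t s),
    fun i i' s => ⟨mul_nonneg (ha i s).1 (ha i' s).1, mul_le_one₀ (ha i s).2 (ha i' s).1 (ha i' s).2⟩,
    fun s => psd_zero.congr fun _ _ => sub_self _, fun s => psd_zero.congr fun _ _ => sub_self _,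
    h1, ?_⟩
  have hK0 : 0 ≤ 2 * (lv d t : ℝ) ^ 2 := by positivity
  have h3 : av (μ d) (fun i i' s => |nu c (z i) (z i') d t t s -
      c.b d * act c (z i') d t s * vir c (z i) d t s|) ≤ K * Real.sqrt (Real.sqrt e1) := by
    refine (av_le_sqrt hp _).trans ?_
    rw [← Real.sqrt_sq (hK0.trans hK), ← Real.sqrt_mul (sq_nonneg _)]
    refine Real.sqrt_le_sqrt ?_
    simp only [sq_abs]
    refine (sum_le_sum fun s _ => mul_le_mul_of_nonneg_left (nu_core hc he hz hd t s) (hp.1 s)).trans ?_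
    simp only [mul_left_comm (μ d _), ← mul_sum]
    refine mul_le_mul (by gcongr) ((sum_le_sqrt hp _).trans (Real.sqrt_le_sqrt (le_trans
      (le_of_eq (sum_congr rfl fun s _ => ?_)) h1))) (sum_nonneg fun s _ =>
        mul_nonneg (hp.1 s) (Real.sqrt_nonneg _)) (sq_nonneg _)
    rw [Real.sq_sqrt (expect_nonneg fun _ _ => expect_nonneg fun _ _ => abs_nonneg _)]
  refine (av_mono hp.1 fun i i' s => ?_).trans ((av_add _ _ _).le.trans (add_le_add h3 h2))
  refine (abs_sub_le _ (c.b d * act c (z i') d t s * vir c (z i) d t s) _).trans (add_le_add le_rfl ?_)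
  rw [show c.b d * act c (z i') d t s * vir c (z i) d t s -
    c.b d * (act c (z i) d t s * act c (z i') d t s) =
    c.b d * act c (z i') d t s * (vir c (z i) d t s - act c (z i) d t s) by ring, abs_mul,
    abs_sub_comm]
  refine mul_le_of_le_one_left (abs_nonneg _) (sync_abs_le_one ?_)
  exact ⟨mul_nonneg (he.dec.b_pos hd).le (ha i' s).1,
    mul_le_one₀ (he.dec.b_le_one hd) (ha i' s).1 (ha i' s).2⟩

omit [Nonempty I] in
theorem sync_unary {β : ℝ} (he : Expo c.a c.b D β) (hc : c.Sto D) (hμ : Path c D μ) (hz : Obs z)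
    {d : ℕ} (hd : d < D) (hn : 0 < n) (ts : Fin 1 → Sh n Bool d) {e1 e2 dv : ℝ}
    (h : Reg c μ z d (ts 0) e1 e2)
    (h2 : av (μ d) (fun i (_ : I) s => |act c (z i) d (ts 0) s - vir c (z i) d (ts 0) s|) ≤ dv) :
    Reg c μ z (d + 1) ⟨⟨0, hn⟩, ts⟩ e1 (e2 + (c.b d - c.b (d + 1)) * dv) := by
  obtain ⟨M, N, m1, m2, m3, m4, m5⟩ := h
  have hp := hμ.prob hc hd
  obtain ⟨hA, hB⟩ := hc d hd
  obtain ⟨l1, l2⟩ := he.lt d hd
  have ea : ∀ w : Bool → S → ℝ, act c w (d + 1) (⟨⟨0, hn⟩, ts⟩ : Sh n Bool (d + 1)) =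
      c.A d *ᵥ (c.B d *ᵥ act c w d (ts 0)) := fun w => by simp [act]
  have p1 := psd_lift hB m2
  refine ⟨fun i i' => c.A d *ᵥ (c.B d *ᵥ M i i'), fun i i' γ =>
    (c.b (d + 1) - c.a d) * ((c.A d *ᵥ ph c z d (ts 0) i) γ * (c.A d *ᵥ ph c z d (ts 0) i') γ) +
    (c.A d *ᵥ fun β => (c.a d - c.b d) * (ph c z d (ts 0) i β * ph c z d (ts 0) i' β) +
      (c.B d *ᵥ N i i') β) γ,
    fun i i' γ => ⟨hA.le_mulVec (hB.le_mulVec fun s => (m1 i i' s).1) γ,
      hA.mulVec_le (hB.mulVec_le fun s => (m1 i i' s).2) γ⟩, fun γ => ?_, fun γ => ?_, ?_, ?_⟩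
  · simp only [ea]
    exact psd_lift hA p1 γ
  · refine (((psd_mulVec hA.1 (psd_mulVec hB.1 m3) γ).add ((psd_mulVec hA.1 p1 γ).smul
      (sub_nonneg.2 l2.le))).add ((psd_lift hA p1 γ).smul (sub_nonneg.2 l1.le))).congr
      fun i i' => ?_
    have e1 : ∀ β, (c.B d *ᵥ fun s => N i i' s - c.b d * M i i' s) β =
        (c.B d *ᵥ N i i') β - c.b d * (c.B d *ᵥ M i i') β := fun β => by
      simp only [mulVec_apply', mul_sum, ← sum_sub_distrib]
      exact sum_congr rfl fun s _ => by ring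
    simp only [e1, ph, mulVec_apply' (c.A d) _ γ, mul_add, mul_sub, sum_add_distrib,
      sum_sub_distrib, sub_mul, mul_left_comm (c.A d γ _) (c.b d), mul_left_comm (c.A d γ _) (c.a d),
      ← mul_sum]
    ring
  · simp only [ea]
    exact (av_mono hp.1 fun i i' γ => sync_abs_lift hc hd _ _ γ).trans
      ((sync_lift hμ hd _).le.trans m4)
  · have h3 := (sync_lift hμ hd _).le.trans h2
    have h4 := (av_add _ _ _).le.trans (add_le_add ((sync_lift hμ hd _).le.trans m5)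
      ((av_const_mul _ _ _).le.trans (mul_le_mul_of_nonneg_left h3
        (sub_nonneg.2 (l1.trans l2).le))))
    refine (av_mono hp.1 fun i i' γ => ?_).trans h4
    have en : nu c (z i) (z i') (d + 1) (⟨⟨0, hn⟩, ts⟩ : Sh n Bool (d + 1)) ⟨⟨0, hn⟩, ts⟩ γ =
        (c.b (d + 1) - c.a d) * ((c.A d *ᵥ (c.B d *ᵥ vir c (z i) d (ts 0))) γ *
          (c.A d *ᵥ ph c z d (ts 0) i') γ) +
        (c.A d *ᵥ fun β => (c.a d - c.b d) * ((c.B d *ᵥ vir c (z i) d (ts 0)) β *
          ph c z d (ts 0) i' β) + (c.B d *ᵥ nu c (z i) (z i') d (ts 0) (ts 0)) β) γ := by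
      simp [nu, vir, act, eact, ph, mul_assoc]
    have b1 := fun β => sync_abs_le_one (Bact_mem hc (hz i') hd (ts 0) β)
    have f1 := sync_abs_lift hc hd (act c (z i) d (ts 0)) (vir c (z i) d (ts 0)) γ
    have f2 : |(c.A d *ᵥ fun β => (c.a d - c.b d) * ((c.B d *ᵥ vir c (z i) d (ts 0)) β *
          ph c z d (ts 0) i' β) + (c.B d *ᵥ nu c (z i) (z i') d (ts 0) (ts 0)) β) γ -
        (c.A d *ᵥ fun β => (c.a d - c.b d) * (ph c z d (ts 0) i β * ph c z d (ts 0) i' β) +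
          (c.B d *ᵥ N i i') β) γ| ≤ (c.A d *ᵥ fun β => (c.b d - c.a d) * (c.B d *ᵥ fun s =>
            |act c (z i) d (ts 0) s - vir c (z i) d (ts 0) s|) β + (c.B d *ᵥ fun s =>
              |nu c (z i) (z i') d (ts 0) (ts 0) s - N i i' s|) β) γ := by
      rw [← Pi.sub_apply (c.A d *ᵥ _), ← mulVec_sub]
      refine (abs_mulVec_le hA.1 _ γ).trans (mulVec_mono hA.1 (fun β => ?_) γ)
      rw [Pi.sub_apply, show ∀ x y v u w k : ℝ, k * (v * y) + u - (k * (x * y) + w) =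
        -k * (x - v) * y + (u - w) from fun _ _ _ _ _ _ => by ring]
      refine (abs_add_le _ _).trans (add_le_add ?_ (sync_abs_B hc hd _ _ β))
      rw [abs_mul, abs_mul, neg_sub, abs_of_nonneg (sub_nonneg.2 l2.le)]
      exact (mul_le_of_le_one_right (mul_nonneg (sub_nonneg.2 l2.le) (abs_nonneg _)) (b1 β)).trans
        (mul_le_mul_of_nonneg_left (sync_abs_B hc hd _ _ β) (sub_nonneg.2 l2.le))
    have f3 : |(c.b (d + 1) - c.a d) * ((c.A d *ᵥ (c.B d *ᵥ vir c (z i) d (ts 0))) γ *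
          (c.A d *ᵥ ph c z d (ts 0) i') γ) - (c.b (d + 1) - c.a d) *
        ((c.A d *ᵥ ph c z d (ts 0) i) γ * (c.A d *ᵥ ph c z d (ts 0) i') γ)| ≤
        (c.a d - c.b (d + 1)) * (c.A d *ᵥ (c.B d *ᵥ fun s =>
          |act c (z i) d (ts 0) s - vir c (z i) d (ts 0) s|)) γ := by
      rw [show ∀ x y v k : ℝ, k * (v * y) - k * (x * y) = -k * (x - v) * y from
        fun _ _ _ _ => by ring, abs_mul, abs_mul, neg_sub, abs_of_nonneg (sub_nonneg.2 l1.le)]
      exact (mul_le_of_le_one_right (mul_nonneg (sub_nonneg.2 l1.le) (abs_nonneg _))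
        (hA.abs_mulVec_le b1 γ)).trans (mul_le_mul_of_nonneg_left f1 (sub_nonneg.2 l1.le))
    rw [en, add_sub_add_comm]
    refine (abs_add_le _ _).trans ((add_le_add f3 f2).trans (le_of_eq ?_))
    simp only [mulVec_apply' (c.A d) _ γ, mul_add, sum_add_distrib,
      mul_left_comm (c.A d γ _) (c.b d - c.a d), ← mul_sum]
    ring

omit [Nonempty I] in
theorem Reg.mono {d : ℕ} {t : Sh n Bool d} {e1 e2 e2' : ℝ} (h : Reg c μ z d t e1 e2)
    (h2 : e2 ≤ e2') : Reg c μ z d t e1 e2' := by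
  obtain ⟨M, N, m1, m2, m3, m4, m5⟩ := h
  exact ⟨M, N, m1, m2, m3, m4, m5.trans h2⟩

theorem sync_dev' (hc : c.Sto D) (hμ : Path c D μ) (hz : Obs z) {η : ℝ} {m d : ℕ} (hd : d ≤ D)
    (t : Sh n Bool d) (hm : lv d t ≤ m) (h : err c μ z d t ≤ η) :
    av (μ d) (fun i (_ : I) s => |act c (z i) d t s - vir c (z i) d t s|) ≤ 2 * m * Real.sqrt η := by
  have : (lv d t : ℝ) ≤ m := by exact_mod_cast hm
  exact (sync_dev hc hμ hz d hd t h).trans
    (mul_le_mul_of_nonneg_right (by linarith) (Real.sqrt_nonneg _))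

theorem sync_reg {β η x : ℝ} {m : ℕ} (he : Expo c.a c.b D β) (hc : c.Sto D) (hμ : Path c D μ)
    (hz : Obs z) (hx : 0 ≤ x) (ih : ∀ d < D, ∀ t : Sh n Bool d, lv d t + 1 ≤ m →
      err c μ z d t ≤ η → inc c μ z d t ≤ η → ce c μ z d t ≤ x) :
    ∀ (d : ℕ), d ≤ D → ∀ t : Sh n Bool d, lv d t ≤ m → err c μ z d t ≤ η →
      Reg c μ z d t (m * (x + 4 * Real.sqrt η)) (2 * m ^ 2 * Real.sqrt (Real.sqrt
        (m * (x + 4 * Real.sqrt η))) + (2 - c.b d) * (2 * m * Real.sqrt η)) := by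
  have hdv : (0 : ℝ) ≤ 2 * m * Real.sqrt η := by positivity
  have base : ∀ (d : ℕ), d ≤ D → ∀ t : Sh n Bool d, lv d t ≤ m → err c μ z d t ≤ η →
      av (μ d) (fun i i' s => |act c (z i * z i') d t s - act c (z i) d t s * act c (z i') d t s|)
        ≤ m * (x + 4 * Real.sqrt η) → Reg c μ z d t (m * (x + 4 * Real.sqrt η)) (2 * m ^ 2 *
        Real.sqrt (Real.sqrt (m * (x + 4 * Real.sqrt η))) + (2 - c.b d) * (2 * m * Real.sqrt η)) := by
    intro d hd t hm h h1
    have : (lv d t : ℝ) ≤ m := by exact_mod_cast hm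
    refine (sync_base he hc hμ hz hd t (K := 2 * m ^ 2) (by gcongr) h1
      (sync_dev' hc hμ hz hd t hm h)).mono (add_le_add le_rfl (le_mul_of_one_le_left hdv ?_))
    linarith [he.dec.b_le_one hd]
  intro d
  induction d with
  | zero =>
    intro hd t hm h
    refine base 0 hd t hm h (le_trans (le_of_eq ?_) (by positivity))
    have : ∀ i i' s, act c (z i * z i') 0 t s - act c (z i) 0 t s * act c (z i') 0 t s = 0 :=
      fun _ _ _ => sub_self _
    simp [av, this]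
  | succ d ihd =>
    intro hd t hm h
    have hch := sync_err_child hc hμ hd t h
    have hl := sync_lv_child d t
    by_cases hk : (t.1 : ℕ) = 0
    · obtain ⟨⟨k, hk'⟩, ts⟩ := t
      obtain rfl : k = 0 := hk
      have hm' : lv d (ts 0) ≤ m := (hl 0).trans hm
      refine (sync_unary he hc hμ hz hd hk' ts (ihd (Nat.le_of_succ_le hd) _ hm' (hch 0).1)
        (sync_dev' hc hμ hz (Nat.le_of_succ_le hd) _ hm' (hch 0).1)).mono (le_of_eq ?_)
      ring
    · refine base (d + 1) hd t hm h ((sync_core hc hμ hz hd t (fun q => (hch q).2 hk) fun q =>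
        ih d hd _ (by have := hl q; omega) (hch q).1 ((hch q).2 hk)).trans ?_)
      have : ((t.1 : ℕ) + 1 : ℝ) ≤ m := by exact_mod_cast (sync_card_le d t).trans hm
      gcongr

theorem sync_fin {β : ℝ} (he : Expo c.a c.b D β) (hc : c.Sto D) (hμ : Path c D μ) (hz : Obs z)
    {d : ℕ} (hd : d < D) (t : Sh n Bool d) {e1 e2 dv g : ℝ} (h : Reg c μ z d t e1 e2)
    (h2 : av (μ d) (fun i (_ : I) s => |act c (z i) d t s - vir c (z i) d t s|) ≤ dv)
    (hg : ga c μ z d t ≤ g) : ce c μ z d t ≤ Real.sqrt ((Real.sqrt g + e2 + dv) / β) + e1 := by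
  obtain ⟨M, N, m1, m2, m3, m4, m5⟩ := h
  have hp := hμ.prob_me hc hd
  have hB := (hc d hd).2
  have hb := he.dec.b_pos hd.le
  obtain ⟨C, hC⟩ : ∃ C : I → I → S → ℝ, C = fun i i' s =>
    (c.B d *ᵥ M i i') s - ph c z d t i s * ph c z d t i' s := ⟨_, rfl⟩
  have b1 := fun i s => Bact_mem hc (hz i) hd t s
  have c1 : ∀ i i' s, |C i i' s| ≤ 1 := fun i i' s => by
    have u1 := hB.le_mulVec (fun s => (m1 i i' s).1) s
    have u2 := hB.mulVec_le (fun s => (m1 i i' s).2) s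
    have u3 := mul_nonneg (b1 i s).1 (b1 i' s).1
    have u4 := mul_le_one₀ (b1 i s).2 (b1 i' s).1 (b1 i' s).2
    rw [hC]
    exact abs_le.2 ⟨by simp only [ph]; linarith, by simp only [ph]; linarith⟩
  have g1 := (av_le_sqrt hp fun i i' s => |(c.B d *ᵥ nu c (z i) (z i') d t t) s -
    c.b d * ph c z d t i' s * (c.B d *ᵥ vir c (z i) d t) s|).trans (Real.sqrt_le_sqrt
      (le_trans (le_of_eq (by simp only [sq_abs]; rfl)) hg))
  have g2 := (av_add _ _ _).le.trans (add_le_add ((av_add _ _ _).le.trans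
    (add_le_add g1 ((hμ.av_mo hd _).ge.trans m5))) ((hμ.av_mo hd _).ge.trans h2))
  have g3 : 0 ≤ av (me c μ d) fun i i' s =>
      (c.B d *ᵥ fun u => N i i' u - c.b d * M i i' u) s * C i i' s :=
    sum_nonneg fun s _ => mul_nonneg (hp.1 s) ((psd_mulVec hB.1 m3 s).pair (by
      rw [hC]; exact psd_lift hB m2 s))
  have g4 : β * av (me c μ d) (fun i i' s => |C i i' s| ^ 2) ≤ Real.sqrt g + e2 + dv := by
    rw [← av_const_mul]
    refine ((le_add_of_nonneg_right g3).trans ((av_add _ _ _).ge.trans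
      (av_mono hp.1 fun i i' s => ?_))).trans g2
    have e1 : (c.B d *ᵥ fun u => N i i' u - c.b d * M i i' u) s =
        (c.B d *ᵥ N i i') s - c.b d * (c.B d *ᵥ M i i') s := by
      simp only [mulVec_apply', mul_sum, ← sum_sub_distrib]
      exact sum_congr rfl fun s _ => by ring
    have e2 : β * |C i i' s| ^ 2 ≤ c.b d * C i i' s ^ 2 := by
      rw [sq_abs]
      exact mul_le_mul_of_nonneg_right (he.dec.le_b hd.le) (sq_nonneg _)
    have e3 : c.b d * C i i' s ^ 2 + ((c.B d *ᵥ N i i') s - c.b d * (c.B d *ᵥ M i i') s) *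
        C i i' s = ((c.B d *ᵥ N i i') s - c.b d * (ph c z d t i s * ph c z d t i' s)) *
          C i i' s := by
      rw [hC]
      ring
    have e4 := (le_abs_self _).trans ((abs_mul ((c.B d *ᵥ N i i') s - c.b d *
      (ph c z d t i s * ph c z d t i' s)) (C i i' s)).le.trans
        (mul_le_of_le_one_right (abs_nonneg _) (c1 i i' s)))
    have e5 := sync_abs_B hc hd (nu c (z i) (z i') d t t) (N i i') s
    have e6 : |c.b d * ph c z d t i' s * (c.B d *ᵥ vir c (z i) d t) s -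
        c.b d * (ph c z d t i s * ph c z d t i' s)| ≤
        (c.B d *ᵥ fun u => |act c (z i) d t u - vir c (z i) d t u|) s := by
      rw [show ∀ k x y v : ℝ, k * y * v - k * (x * y) = -(k * y) * (x - v) from
        fun _ _ _ _ => by ring, abs_mul, abs_neg]
      exact (mul_le_of_le_one_left (abs_nonneg _) (sync_abs_le_one ⟨mul_nonneg hb.le (b1 i' s).1,
        mul_le_one₀ (he.dec.b_le_one hd.le) (b1 i' s).1 (b1 i' s).2⟩)).trans
        (sync_abs_B hc hd _ _ s)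
    have e7 := abs_sub_le ((c.B d *ᵥ N i i') s) ((c.B d *ᵥ nu c (z i) (z i') d t t) s)
      (c.b d * (ph c z d t i s * ph c z d t i' s))
    have e8 := abs_sub_le ((c.B d *ᵥ nu c (z i) (z i') d t t) s)
      (c.b d * ph c z d t i' s * (c.B d *ᵥ vir c (z i) d t) s)
      (c.b d * (ph c z d t i s * ph c z d t i' s))
    rw [abs_sub_comm ((c.B d *ᵥ N i i') s) ((c.B d *ᵥ nu c (z i) (z i') d t t) s)] at e7
    rw [e1]
    linarith
  have g5 := (av_le_sqrt hp fun i i' s => |C i i' s|).trans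
    (Real.sqrt_le_sqrt ((le_div_iff₀' he.pos).2 g4))
  refine (av_mono hp.1 fun i i' s => ?_).trans ((av_add _ _ _).le.trans
    (add_le_add g5 ((hμ.av_mo hd _).ge.trans m4)))
  rw [hC, add_comm]
  exact (abs_sub_le _ _ _).trans (add_le_add (sync_abs_B hc hd _ _ s) le_rfl)

end

/-- synchronisation of all multi-overlaps with the tree -/
theorem sync (m : ℕ) {β ε : ℝ} (hβ : 0 < β) (hε : 0 < ε) : ∃ η : ℝ, 0 < η ∧ ∀ {n : ℕ} {S I : Type}
    [Fintype S] [Fintype I] [Nonempty I] (c : Ch S) (μ : ℕ → S → ℝ) (z : I → Bool → S → ℝ) (D : ℕ),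
    Expo c.a c.b D β → c.Sto D → Path c D μ → Obs z → Resp n c μ z D η →
    ∀ d < D, ∀ t : Sh n Bool d, lv d t ≤ m → err c μ z d t ≤ η → inc c μ z d t ≤ η →
      ce c μ z d t ≤ ε := by
  induction m generalizing ε with
  | zero => exact ⟨1, one_pos, fun c μ z D _ _ _ _ _ d _ t hm => absurd (lv_pos d t) (by omega)⟩
  | succ m ih =>
    obtain ⟨k, hk⟩ : ∃ k : ℝ, k = ((m + 1 : ℕ) : ℝ) := ⟨_, rfl⟩
    have hk0 : 0 ≤ k := hk ▸ Nat.cast_nonneg _
    have hG : Continuous fun x : ℝ => Real.sqrt ((Real.sqrt (1001 * x) + (2 * k ^ 2 * Real.sqrt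
        (Real.sqrt (k * (x + 4 * Real.sqrt x))) + 2 * (2 * k * Real.sqrt x)) +
        2 * k * Real.sqrt x) / β) + k * (x + 4 * Real.sqrt x) := by fun_prop
    obtain ⟨x, hx, hx0⟩ := (((hG.tendsto 0).eventually (gt_mem_nhds (by simpa using hε))).filter_mono
      nhdsWithin_le_nhds |>.and (self_mem_nhdsWithin (s := Set.Ioi 0))).exists
    obtain ⟨η, hη, h⟩ := ih (ε := x) hx0
    refine ⟨min η x, lt_min hη hx0, ?_⟩
    intro n S I _ _ _ c μ z D he hc hμ hz hr d hd t hm h1 h2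
    have h3 := sync_fin he hc hμ hz hd t (sync_reg (η := min η x) (m := m + 1) he hc hμ hz
      (le_of_lt hx0) (fun d hd t hm h1 h2 => h c μ z D he hc hμ hz
        (fun d hd t => (hr d hd t).trans (add_le_add le_rfl (min_le_left _ _))) d hd t (by omega)
        (h1.trans (min_le_left _ _)) (h2.trans (min_le_left _ _))) d hd.le t hm h1)
      (sync_dev' hc hμ hz hd.le t hm h1) (g := 1001 * x)
      ((hr d hd t).trans (by linarith [min_le_right η x]))
    rw [← hk] at h3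
    refine h3.trans (le_trans ?_ hx.le)
    have h4 := min_le_right η x
    have h5 := he.dec.b_pos hd.le
    have h6 : 0 < x := hx0
    gcongr
    linarith

end Vale.Agent.P168
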