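import Vale.Agent.P168.Rep

namespace Vale.Agent.P168

open Finset Matrix
open scoped BigOperators

variable {S I : Type} [Fintype S] [Fintype I]

/-- average over a state and two sites -/
noncomputable def av (w : S → ℝ) (F : I → I → S → ℝ) : ℝ := ∑ s, w s * 𝔼 i, 𝔼 i', F i i' s

theorem av_mono {w : S → ℝ} (hw : ∀ s, 0 ≤ w s) {F G : I → I → S → ℝ}
    (h : ∀ i i' s, F i i' s ≤ G i i' s) : av w F ≤ av w G :=
  sum_le_sum fun s _ => mul_le_mul_of_nonneg_left
    (expect_le_expect fun i _ => expect_le_expect fun i' _ => h i i' s) (hw s)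

theorem av_add (w : S → ℝ) (F G : I → I → S → ℝ) :
    av w (fun i i' s => F i i' s + G i i' s) = av w F + av w G := by
  simp only [av, expect_add_distrib, mul_add, sum_add_distrib]

theorem av_const_mul (w : S → ℝ) (x : ℝ) (F : I → I → S → ℝ) :
    av w (fun i i' s => x * F i i' s) = x * av w F := by
  simp only [av, ← mul_expect, mul_sum]
  exact sum_congr rfl fun s _ => by ring

theorem av_sum {ι : Type} (T : Finset ι) (w : S → ℝ) (F : ι → I → I → S → ℝ) :
    av w (fun i i' s => ∑ q ∈ T, F q i i' s) = ∑ q ∈ T, av w (F q) := by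
  simp only [av, expect_sum_comm, mul_sum]
  exact sum_comm

theorem av_swap (w : S → ℝ) (F : I → I → S → ℝ) : av w (fun i i' s => F i' i s) = av w F :=
  sum_congr rfl fun s _ => by rw [expect_comm]

theorem av_vecMul (w : S → ℝ) (κ : Matrix S S ℝ) (F : I → I → S → ℝ) :
    av (w ᵥ* κ) F = av w fun i i' s => (κ *ᵥ F i i') s := by
  rw [av, sum_vecMul_mul, av]
  refine sum_congr rfl fun s _ => congrArg _ ?_
  simp only [mulVec_apply', expect_sum_comm, mul_expect]

theorem av_nonneg {w : S → ℝ} (hw : ∀ s, 0 ≤ w s) {F : I → I → S → ℝ} (h : ∀ i i' s, 0 ≤ F i i' s) :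
    0 ≤ av w F :=
  sum_nonneg fun s _ => mul_nonneg (hw s)
    (expect_nonneg fun i _ => expect_nonneg fun i' _ => h i i' s)

theorem av_const [Nonempty I] {w : S → ℝ} (hw : Prob w) (x : ℝ) :
    av w (fun (_ _ : I) _ => x) = x := by
  simp only [av, Fintype.expect_const, ← sum_mul, hw.2, one_mul]

theorem sum_le_sqrt {w : S → ℝ} (hw : Prob w) (f : S → ℝ) :
    ∑ s, w s * f s ≤ Real.sqrt (∑ s, w s * f s ^ 2) := by
  refine Real.le_sqrt_of_sq_le ?_
  have h := sum_mul_sq_le_sq_mul_sq univ (fun s => Real.sqrt (w s)) (fun s => Real.sqrt (w s) * f s)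
  simp only [← mul_assoc, Real.mul_self_sqrt (hw.1 _), mul_pow, Real.sq_sqrt (hw.1 _), hw.2,
    one_mul] at h
  exact h

theorem av_le_sqrt [Nonempty I] {w : S → ℝ} (hw : Prob w) (F : I → I → S → ℝ) :
    av w F ≤ Real.sqrt (av w fun i i' s => F i i' s ^ 2) := by
  refine (sum_le_sqrt hw _).trans (Real.sqrt_le_sqrt (sum_le_sum fun s _ =>
    mul_le_mul_of_nonneg_left ?_ (hw.1 s)))
  have key : ∀ f : I → ℝ, (𝔼 i, f i) ^ 2 ≤ 𝔼 i, f i ^ 2 := fun f => by
    simpa [Fintype.expect_const] using expect_mul_sq_le_sq_mul_sq univ f fun _ => 1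
  exact (key _).trans (expect_le_expect fun i _ => key _)

theorem Path.av_me (c : Ch S) (μ : ℕ → S → ℝ) (d : ℕ) (F : I → I → S → ℝ) :
    av (me c μ d) F = av (μ (d + 1)) fun i i' s => (c.A d *ᵥ F i i') s :=
  av_vecMul _ _ _

theorem Path.av_mo {c : Ch S} {D : ℕ} {μ : ℕ → S → ℝ} (h : Path c D μ) {d : ℕ} (hd : d < D)
    (F : I → I → S → ℝ) : av (μ d) F = av (me c μ d) fun i i' s => (c.B d *ᵥ F i i') s := by
  rw [h.step d hd]
  exact av_vecMul _ _ _

/-- symmetric nonnegative kernels on the sites -/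
def Psd (F : I → I → ℝ) : Prop :=
  (∀ i i', F i i' = F i' i) ∧ ∀ v : I → ℝ, 0 ≤ ∑ i, ∑ i', v i * F i i' * v i'

theorem Psd.add {F G : I → I → ℝ} (hF : Psd F) (hG : Psd G) : Psd fun i i' => F i i' + G i i' :=
  ⟨fun i i' => by simp only [hF.1 i i', hG.1 i i'], fun v => by
    simp only [mul_add, add_mul, sum_add_distrib]
    exact add_nonneg (hF.2 v) (hG.2 v)⟩

theorem Psd.smul {F : I → I → ℝ} (hF : Psd F) {x : ℝ} (hx : 0 ≤ x) : Psd fun i i' => x * F i i' :=
  ⟨fun i i' => by simp only [hF.1 i i'], fun v => by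
    refine (mul_nonneg hx (hF.2 v)).trans (le_of_eq ?_)
    simp only [mul_sum]
    exact sum_congr rfl fun i _ => sum_congr rfl fun i' _ => by ring⟩

theorem psd_zero : Psd fun _ _ : I => (0 : ℝ) := ⟨fun _ _ => rfl, fun v => by simp⟩

theorem psd_sq (f : I → ℝ) : Psd fun i i' => f i * f i' :=
  ⟨fun i i' => mul_comm _ _, fun v => by
    refine (mul_self_nonneg (∑ i, v i * f i)).trans (le_of_eq ?_)
    rw [sum_mul_sum]
    exact sum_congr rfl fun i _ => sum_congr rfl fun i' _ => by ring⟩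

theorem Psd.congr {F G : I → I → ℝ} (hF : Psd F) (h : ∀ i i', G i i' = F i i') : Psd G := by
  rwa [show G = F from funext fun i => funext (h i)]

theorem psd_mulVec {κ : Matrix S S ℝ} (h : ∀ s t, 0 ≤ κ s t) {F : I → I → S → ℝ}
    (hF : ∀ t, Psd fun i i' => F i i' t) (s : S) : Psd fun i i' => (κ *ᵥ F i i') s := by
  classical
  have : ∀ T : Finset S, Psd fun i i' => ∑ t ∈ T, κ s t * F i i' t := fun T => by
    induction T using Finset.induction_on with
    | empty => simpa using psd_zero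
    | insert a T ha ih => simpa only [sum_insert ha] using ((hF a).smul (h s a)).add ih
  exact this univ

/-- lifting a second-moment bound through a stochastic kernel -/
theorem psd_lift {κ : Matrix S S ℝ} (h : Sto κ) {M : I → I → S → ℝ} {φ : I → S → ℝ}
    (hM : ∀ t, Psd fun i i' => M i i' t - φ i t * φ i' t) (s : S) :
    Psd fun i i' => (κ *ᵥ M i i') s - (κ *ᵥ φ i) s * (κ *ᵥ φ i') s := by
  refine ((psd_mulVec h.1 hM s).add (psd_mulVec h.1 (F := fun i i' t =>
    (φ i t - (κ *ᵥ φ i) s) * (φ i' t - (κ *ᵥ φ i') s)) (fun t => psd_sq _) s)).congr fun i i' => ?_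
  have h1 : ∀ x y : ℝ, (κ *ᵥ fun t => M i i' t - φ i t * φ i' t) s +
      (κ *ᵥ fun t => (φ i t - x) * (φ i' t - y)) s =
      (κ *ᵥ M i i') s - (κ *ᵥ φ i) s * y - x * (κ *ᵥ φ i') s + (∑ t, κ s t) * (x * y) := by
    intro x y
    simp only [mulVec_apply', sum_mul, mul_sum, ← sum_add_distrib, ← sum_sub_distrib]
    exact sum_congr rfl fun t _ => by ring
  rw [h1, h.2]
  ring

theorem Psd.pair {F G : I → I → ℝ} (hF : Psd F) (hG : Psd G) :
    0 ≤ 𝔼 i, 𝔼 i', F i i' * G i i' := by
  classical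
  have key : ∀ {F : I → I → ℝ}, Psd F → (Matrix.of F).PosSemidef := fun {F} hF =>
    PosSemidef.of_dotProduct_mulVec_nonneg (Matrix.IsHermitian.ext fun i j => by
      simpa using hF.1 j i) fun v => by
        simpa [dotProduct, mulVec, mul_sum, mul_assoc] using hF.2 v
  have h := ((key hF).hadamard (key hG)).dotProduct_mulVec_nonneg fun _ => 1
  simp only [dotProduct, mulVec, hadamard_apply, of_apply, Pi.star_apply, star_trivial, one_mul,
    mul_one] at h
  simp only [Fintype.expect_eq_sum_div_card, ← sum_div]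
  positivity

end Vale.Agent.P168
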