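import Vale.Agent.P168.Basic

namespace Vale.Agent.P168

open Finset Matrix
open scoped BigOperators

/-- probe families: level, shape and initial sign (`none` = fair coin) -/
def Fam (n D : ℕ) : Type := Σ d : Fin D, Sh n Bool d × Option Bool

noncomputable instance Fam.fintype (n D : ℕ) : Fintype (Fam n D) :=
  inferInstanceAs (Fintype (Σ d : Fin D, Sh n Bool d × Option Bool))

noncomputable instance Fam.decEq (n D : ℕ) : DecidableEq (Fam n D) := Classical.decEq _

/-- slots -/
abbrev Sl (n D s : ℕ) : Type := Fam n D × Fin s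

/-- choices of a child, one for each arity -/
abbrev Chc (n : ℕ) : Type := (c : Fin n) → Fin (c + 1)

/-- randomness of a slot at a step `A`: activity, site, choice -/
abbrev RA (n : ℕ) (I : Type) : Type := Bool × I × Chc n

/-- randomness of a slot at a step `B`: coin, signs -/
abbrev RB (n : ℕ) : Type := Bool × (Fin n → Bool)

/-- states -/
abbrev St (n D s : ℕ) (I : Type) : Type :=
  (Fin D → Sl n D s → RA n I) × (Fin D → Sl n D s → RB n) × (I → Bool)

noncomputable instance RA.fintype (n D s : ℕ) (I : Type) [Fintype I] :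
    Fintype (Sl n D s → RA n I) := inferInstance

noncomputable instance RB.fintype (n D s : ℕ) : Fintype (Sl n D s → RB n) := inferInstance

noncomputable instance St.fintype (n D s : ℕ) (I : Type) [Fintype I] [DecidableEq I] :
    Fintype (St n D s I) := inferInstance

noncomputable instance St.decEq (n D s : ℕ) (I : Type) : DecidableEq (St n D s I) :=
  Classical.decEq _

/-- resampling kernel -/
noncomputable def rs {S Ω : Type} [Fintype Ω] [DecidableEq S] (w : Ω → ℝ) (upd : S → Ω → S) :
    Matrix S S ℝ :=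
  fun s t => ∑ ω, if upd s ω = t then w ω else 0

theorem rs_mulVec {S Ω : Type} [Fintype S] [Fintype Ω] [DecidableEq S] (w : Ω → ℝ)
    (upd : S → Ω → S) (g : S → ℝ) (s : S) : (rs w upd *ᵥ g) s = ∑ ω, w ω * g (upd s ω) := by
  simp only [mulVec_apply', rs, sum_mul]
  rw [sum_comm]
  simp [ite_mul]

theorem rs_posK {S Ω : Type} [Fintype S] [Fintype Ω] [DecidableEq S] [Nonempty Ω] {w : Ω → ℝ}
    (hw : ∀ ω, 0 < w ω) (upd : S → Ω → S) : PosK (rs w upd) := by
  refine ⟨fun s t => sum_nonneg fun ω _ => ?_, fun s => ?_⟩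
  · split_ifs
    · exact (hw ω).le
    · exact le_rfl
  · have := rs_mulVec w upd (fun _ => 1) s
    simp only [mulVec_apply', mul_one] at this
    rw [this]
    exact sum_pos (fun ω _ => hw ω) univ_nonempty

/-- signs with prescribed product -/
noncomputable def sgn {n : ℕ} (c : Fin n) (s : Bool) (e : Fin n → Bool) : Fin (c + 1) → Bool :=
  Fin.snoc (α := fun _ => Bool) (fun q : Fin c => e ⟨q, q.2.trans c.2⟩)
    (decide (sg s * ∏ q : Fin c, sg (e ⟨q, q.2.trans c.2⟩) = 1))

/-- the label and the sign at the leaf reached by a probe -/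
noncomputable def walk {n : ℕ} (cA : ℕ → Chc n) (eB : ℕ → Fin n → Bool) :
    (d : ℕ) → Sh n Bool d → Bool → Bool × Bool
  | 0, t, s => (t, s)
  | d + 1, t, s => walk cA eB d (t.2 (cA d t.1)) (sgn t.1 s (eB (d + 1)) (cA d t.1))

variable {n D s : ℕ} {I : Type}

/-- history of choices of a slot -/
def hA (st : St n D s I) (j : Sl n D s) (d : ℕ) : Chc n :=
  if h : d < D then (st.1 ⟨d, h⟩ j).2.2 else fun _ => 0

/-- history of signs of a slot -/
def hB (st : St n D s I) (j : Sl n D s) (d : ℕ) : Fin n → Bool :=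
  if h : d < D then (st.2.1 ⟨d, h⟩ j).2 else fun _ => false

/-- spins -/
def spn (st : St n D s I) (i : I) : Bool := st.2.2 i

/-- leaf label and sign of a slot -/
noncomputable def wk (st : St n D s I) (j : Sl n D s) : Bool × Bool :=
  walk (hA st j) (hB st j) j.1.1 j.1.2.1 (j.1.2.2.getD (st.2.1 j.1.1 j).1)

/-- the factor of a slot -/
noncomputable def fac (lam : ℝ) (st : St n D s I) (j : Sl n D s) : ℝ :=
  if (st.1 j.1.1 j).1 then 1 + lam * sg (wk st j).2 * ind spn (st.1 j.1.1 j).2.1 (wk st j).1 st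
  else 1

/-- terminal log-weight -/
noncomputable def term (lam : ℝ) (H : (I → Bool) → ℝ) (st : St n D s I) : ℝ :=
  H st.2.2 + ∑ j, Real.log (fac lam st j)

variable [Fintype I] [DecidableEq I]

/-- weight of the draw at the step `A d` -/
noncomputable def wA (y : Fam n D → ℝ) (d : Fin D) (ω : Sl n D s → RA n I) : ℝ :=
  ∏ j, (if (ω j).1 = true ∧ j.1.1 = d then Real.exp (y j.1) else 1) / Fintype.card I

/-- weight of the draw at the step `B d` -/
noncomputable def wB (I : Type) [Fintype I] [DecidableEq I] (d : ℕ) : ℝ :=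
  if d = 0 then 1 else 1 / Fintype.card (I → Bool)

/-- the untilted chain -/
noncomputable def base (n D s : ℕ) (I : Type) [Fintype I] [DecidableEq I] (a b : ℕ → ℝ)
    (y : Fam n D → ℝ) : Ch (St n D s I) where
  A := fun d => if h : d < D then
      rs (wA y ⟨d, h⟩) fun st ω => (Function.update st.1 ⟨d, h⟩ ω, st.2) else 1
  B := fun d => if h : d < D then
      rs (fun _ : (Sl n D s → RB n) × (I → Bool) => wB I d)
        fun st ω => (st.1, Function.update st.2.1 ⟨d, h⟩ ω.1, if d = 0 then ω.2 else st.2.2)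
    else 1
  a := a
  b := b

/-- the root state -/
def st0 (n D s : ℕ) (I : Type) [Inhabited I] : St n D s I :=
  (fun _ _ => (false, default, fun _ => 0), fun _ _ => (false, fun _ => false), fun _ => false)

/-- the tilted chain of the system -/
noncomputable def sys (n D s : ℕ) (a b : ℕ → ℝ) (lam : ℝ) (y : Fam n D → ℝ) (H : (I → Bool) → ℝ) :
    Ch (St n D s I) :=
  (base n D s I a b y).tl (term lam H)

variable [Inhabited I]

/-- the path law of the system -/
noncomputable def sysμ (n D s : ℕ) (a b : ℕ → ℝ) (lam : ℝ) (y : Fam n D → ℝ)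
    (H : (I → Bool) → ℝ) : ℕ → St n D s I → ℝ :=
  mo (sys n D s a b lam y H) D (Pi.single (st0 n D s I) 1)

/-- the root value -/
noncomputable def root (n D s : ℕ) (a b : ℕ → ℝ) (lam : ℝ) (y : Fam n D → ℝ)
    (H : (I → Bool) → ℝ) : ℝ :=
  XO (base n D s I a b y) (term lam H) D (st0 n D s I)

/-- the grid of activities -/
noncomputable def grid (g : Fam n D → Fin s) : Fam n D → ℝ := fun φ => ((g φ : ℕ) : ℝ) / s

/-- the perturbed free energy -/
noncomputable def GG (n D s : ℕ) (a b : ℕ → ℝ) (lam : ℝ) (H : (I → Bool) → ℝ) : ℝ :=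
  𝔼 g : Fam n D → Fin s, root n D s a b lam (grid g) H

/-- number of active slots of a family -/
noncomputable def cnt (φ : Fam n D) (st : St n D s I) : ℝ :=
  ∑ k : Fin s, if (st.1 φ.1 (φ, k)).1 then 1 else 0

/-- conditional variance of the number of active slots -/
noncomputable def vr (c : Ch (St n D s I)) (μ : ℕ → St n D s I → ℝ) (φ : Fam n D) : ℝ :=
  ∑ γ, μ (φ.1 + 1) γ * ∑ β, c.A φ.1 γ β * (cnt φ β - (c.A φ.1 *ᵥ cnt φ) γ) ^ 2

theorem base_pos (n D s : ℕ) (a b : ℕ → ℝ) (y : Fam n D → ℝ) : (base n D s I a b y).Pos D := by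
  intro d hd
  have h1 : (0 : ℝ) < Fintype.card I := by exact_mod_cast Fintype.card_pos
  have h2 : (0 : ℝ) < Fintype.card (I → Bool) := by exact_mod_cast Fintype.card_pos
  simp only [base, dif_pos hd]
  refine ⟨rs_posK (fun ω => prod_pos fun j _ => div_pos ?_ h1) _, rs_posK (fun _ => ?_) _⟩
  · split_ifs
    · exact Real.exp_pos _
    · exact one_pos
  · unfold wB
    split_ifs
    · exact one_pos
    · positivity

theorem sys_sto (n D s : ℕ) (a b : ℕ → ℝ) (lam : ℝ) (y : Fam n D → ℝ) (H : (I → Bool) → ℝ) :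
    (sys n D s a b lam y H).Sto D :=
  Ch.tl_sto (base_pos n D s a b y) _

theorem sys_path (n D s : ℕ) (a b : ℕ → ℝ) (lam : ℝ) (y : Fam n D → ℝ) (H : (I → Bool) → ℝ) :
    Path (sys n D s a b lam y H) D (sysμ n D s a b lam y H) :=
  path_mo _ _ (Prob.single _)

end Vale.Agent.P168
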