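import Vale.Agent.P168.Casc

/-! Trees, weights and the tree expansion of the recursion. -/

namespace Vale.Agent.P168

open Finset

variable {Λ Λ' S S' : Type} [Fintype S] [Fintype S'] {n : ℕ}

theorem Tr.ar_node {d : ℕ} (c : Fin n) (f : Fin (c.val + 1) → Tr Λ n d) :
    (Tr.node c f).ar = c := rfl
theorem Tr.ch_node {d : ℕ} (c : Fin n) (f : Fin (c.val + 1) → Tr Λ n d) :
    (Tr.node c f).ch = f := rfl
theorem Tr.node_eta {d : ℕ} (τ : Tr Λ n (d + 1)) : Tr.node τ.ar τ.ch = τ := rfl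
theorem Tr.lab_leaf (l : Λ) : (Tr.leaf l : Tr Λ n 0).lab = l := rfl

theorem sum_Tr_zero [Fintype Λ] (F : Tr Λ n 0 → ℝ) :
    ∑ τ, F τ = ∑ l : Λ, F (Tr.leaf l) := rfl
theorem sum_Tr_succ [Fintype Λ] {d : ℕ} (F : Tr Λ n (d + 1) → ℝ) :
    ∑ τ, F τ = ∑ c : Fin n, ∑ f : Fin (c.val + 1) → Tr Λ n d, F (Tr.node c f) := 
  Fintype.sum_sigma (α := fun c : Fin n => Fin (c.val + 1) → Tr Λ n d) F

theorem one_le_size (d : ℕ) (τ : Tr Λ n d) : 1 ≤ size d τ := by
  induction d with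
  | zero => exact le_rfl
  | succ d ih =>
    exact (ih (τ.ch 0)).trans
      (Finset.single_le_sum (f := fun b => size d (τ.ch b)) (fun _ _ => Nat.zero_le _) (mem_univ _))

theorem bco_zero (m m' : ℝ) : bco m m' 0 = 1 := by simp [bco]
theorem bco_nonneg {m m' : ℝ} (h0 : 0 ≤ m') (h : m ≤ m') (c : ℕ) : 0 ≤ bco m m' c := by
  refine div_nonneg (Finset.prod_nonneg fun i _ => ?_) (Nat.cast_nonneg _)
  have : (0 : ℝ) ≤ i * m' := mul_nonneg (Nat.cast_nonneg _) h0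
  linarith
theorem bco_self {m : ℝ} {c : ℕ} (hc : 1 ≤ c) : bco m m c = 0 := by
  rw [bco, Finset.prod_eq_zero (i := 0) (mem_range.2 hc) (by simp), zero_div]
lemma tree_bco_succ (m m' : ℝ) (c : ℕ) :
    ((c : ℝ) + 2) * bco m m' (c + 1) = (((c : ℝ) + 1) * m' - m) * bco m m' c := by
  have h : ((c + 1).factorial : ℝ) ≠ 0 := by positivity
  rw [bco, bco, Finset.prod_range_succ, Nat.factorial_succ (c + 1)]
  generalize ∏ i ∈ range c, (((i : ℝ) + 1) * m' - m) = P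
  push_cast
  field_simp
  ring
theorem bco_le {m m' : ℝ} (h0 : 0 ≤ m) (h : m ≤ m') (h1 : m' ≤ 1) {c : ℕ} (hc : 1 ≤ c) :
    bco m m' c ≤ (m' - m) / ((c : ℝ) + 1) := by
  induction c, hc using Nat.le_induction with
  | base => simp [bco, Nat.factorial]; norm_num
  | succ c hc ih =>
    have hc0 : (0 : ℝ) < (c : ℝ) + 1 := by positivity
    have hb := bco_nonneg (h0.trans h) h c
    rw [le_div_iff₀ hc0] at ih
    rw [le_div_iff₀ (by positivity)]
    have e := tree_bco_succ m m' c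
    have h2 : ((c : ℝ) + 1) * m' - m ≤ (c : ℝ) + 1 := by nlinarith
    have h3 := mul_le_mul_of_nonneg_right h2 hb
    push_cast
    nlinarith

theorem wt_nonneg {μ : ℕ → ℝ} (d : ℕ) (h0 : ∀ e, e < d → 0 ≤ μ e)
    (h : ∀ e, e < d → μ (e + 1) ≤ μ e) (τ : Tr Λ n d) : 0 ≤ wt μ d τ := by
  induction d with
  | zero => exact zero_le_one
  | succ d ih =>
    exact mul_nonneg (bco_nonneg (h0 d d.lt_succ_self) (h d d.lt_succ_self) _)
      (Finset.prod_nonneg fun b _ => ih (fun e he => h0 e (he.trans d.lt_succ_self))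
        (fun e he => h e (he.trans d.lt_succ_self)) _)
theorem wt_mu_nonneg (r d : ℕ) (τ : Tr Λ n d) : 0 ≤ wt (mu r) d τ := by
  have hr : (0 : ℝ) < (r : ℝ) + 1 := by positivity
  refine wt_nonneg d (fun e _ => ?_) (fun e _ => ?_) τ
  · rw [mu, sub_nonneg, div_le_one hr]
    exact_mod_cast (min_le_right _ _).trans r.le_succ
  · rw [mu, mu]
    refine sub_le_sub_left (div_le_div_of_nonneg_right ?_ hr.le) _
    exact_mod_cast min_le_min_right _ (by omega)
lemma tree_single {μ : ℕ → ℝ} {d : ℕ} (hμ : μ (d + 1) = μ d) (τ : Tr Λ n (d + 1))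
    (h : wt μ (d + 1) τ ≠ 0) : Single (d + 1) τ := by
  by_contra hc
  refine h ?_
  rw [wt, hμ, bco_self (Nat.one_le_iff_ne_zero.2 hc), zero_mul]
theorem single_of_wt_ne_zero (r e : ℕ) (τ : Tr Λ n (2 * e)) (h : wt (mu r) (2 * e) τ ≠ 0) :
    Single (2 * e) τ := by
  cases e with
  | zero => exact trivial
  | succ e =>
    refine tree_single (μ := mu r) (d := 2 * e + 1) ?_ τ h
    rw [mu, mu, show (2 * e + 1 + 1 + 1) / 2 = (2 * e + 1 + 1) / 2 by omega]

theorem cw_const (x : ℝ) (d : ℕ) (τ : Tr Λ n d) : cw (fun _ => x) d τ = x ^ size d τ := by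
  induction d with
  | zero => exact (pow_one x).symm
  | succ d ih =>
    rw [cw, size, ← Finset.prod_pow_eq_pow_sum]
    exact Finset.prod_congr rfl fun b _ => ih _
theorem abs_cw_le {c : Λ → ℝ} {A : ℝ} (h : ∀ l, |c l| ≤ A) (d : ℕ) (τ : Tr Λ n d) :
    |cw c d τ| ≤ A ^ size d τ := by
  induction d with
  | zero => exact (h _).trans_eq (pow_one A).symm
  | succ d ih =>
    rw [cw, size, ← Finset.prod_pow_eq_pow_sum, Finset.abs_prod]
    exact Finset.prod_le_prod (fun _ _ => abs_nonneg _) fun b _ => ih _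

theorem size_tmap (φ : Λ → Λ') (d : ℕ) (τ : Tr Λ n d) : size d (tmap φ d τ) = size d τ := by
  induction d with
  | zero => rfl
  | succ d ih => exact Finset.sum_congr rfl fun b _ => ih (τ.ch b)
theorem wt_tmap (μ : ℕ → ℝ) (φ : Λ → Λ') (d : ℕ) (τ : Tr Λ n d) :
    wt μ d (tmap φ d τ) = wt μ d τ := by
  induction d with
  | zero => rfl
  | succ d ih =>
    exact congrArg (fun x => bco (μ (d + 1)) (μ d) τ.ar.val * x)
      (Finset.prod_congr rfl fun b _ => ih (τ.ch b))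
theorem ev_tmap (κ : ℕ → S → S → ℝ) (g : Λ' → S → ℝ) (φ : Λ → Λ') (d : ℕ) (τ : Tr Λ n d) :
    ev κ g d (tmap φ d τ) = ev κ (fun l => g (φ l)) d τ := by
  induction d with
  | zero => rfl
  | succ d ih =>
    funext s
    exact Finset.prod_congr rfl fun b _ => congrArg (fun f => Ex (κ d) f s) (ih (τ.ch b))

theorem ev_mor {κ : ℕ → S → S → ℝ} {κ' : ℕ → S' → S' → ℝ} {φ : S' → S} (g : Λ → S → ℝ) (d : ℕ)
    (h : ∀ e, e < d → IsMor φ (κ' e) (κ e)) (τ : Tr Λ n d) (s : S') :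
    ev κ' (fun l t => g l (φ t)) d τ s = ev κ g d τ (φ s) := by
  induction d generalizing s with
  | zero => rfl
  | succ d ih =>
    refine Finset.prod_congr rfl fun b _ => ?_
    rw [← h d d.lt_succ_self]
    exact congrArg (fun f => Ex (κ' d) f s)
      (funext fun t => ih (fun e he => h e (he.trans d.lt_succ_self)) (τ.ch b) t)
theorem abs_ev_le {κ : ℕ → S → S → ℝ} (hκ : ∀ d, IsK (κ d)) {g : Λ → S → ℝ} {ρ : ℝ}
    (h : ∀ l s, |g l s| ≤ ρ) (d : ℕ) (τ : Tr Λ n d) (s : S) :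
    |ev κ g d τ s| ≤ ρ ^ size d τ := by
  induction d generalizing s with
  | zero => exact (h _ _).trans_eq (pow_one ρ).symm
  | succ d ih =>
    rw [ev, size, ← Finset.prod_pow_eq_pow_sum, Finset.abs_prod]
    exact Finset.prod_le_prod (fun _ _ => abs_nonneg _) fun b _ =>
      (hκ d).abs_Ex_le (fun t => ih _ t) s
theorem ev_mul_label (κ : ℕ → S → S → ℝ) (c : Λ → ℝ) (g : Λ → S → ℝ) (d : ℕ) (τ : Tr Λ n d)
    (s : S) : ev κ (fun l t => c l * g l t) d τ s = cw c d τ * ev κ g d τ s := by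
  induction d generalizing s with
  | zero => rfl
  | succ d ih =>
    simp only [ev, cw]
    rw [← Finset.prod_mul_distrib]
    refine Finset.prod_congr rfl fun b _ => ?_
    rw [← Ex_mul_left]
    exact congrArg (fun f => Ex (κ d) f s) (funext fun t => ih _ t)
theorem ev_one {κ : ℕ → S → S → ℝ} (hκ : ∀ d, IsK (κ d)) (d : ℕ) (τ : Tr Λ n d) (s : S) :
    ev κ (fun _ _ => (1 : ℝ)) d τ s = 1 := by
  induction d generalizing s with
  | zero => rfl
  | succ d ih =>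
    exact Finset.prod_eq_one fun b _ =>
      (congrArg (fun f => Ex (κ d) f s) (funext fun t => ih _ t)).trans ((hκ d).Ex_const 1 s)
theorem ev_prodK (κ : ℕ → S → S → ℝ) (κ' : ℕ → S' → S' → ℝ) (g : Λ → S → ℝ) (g' : Λ → S' → ℝ)
    (d : ℕ) (τ : Tr Λ n d) (s : S × S') :
    ev (prodK κ κ') (fun l x => g l x.1 * g' l x.2) d τ s = ev κ g d τ s.1 * ev κ' g' d τ s.2 :=
  by
  induction d generalizing s with
  | zero => rfl
  | succ d ih =>
    simp only [ev]
    rw [← Finset.prod_mul_distrib]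
    refine Finset.prod_congr rfl fun b _ => ?_
    rw [← Ex_prodK_mul]
    exact congrArg (fun f => Ex (prodK κ κ' d) f s) (funext fun t => ih _ t)
theorem ev_piK (J : Type) [Fintype J] [DecidableEq J] (κ : ℕ → S → S → ℝ) (g : J → Λ → S → ℝ)
    (d : ℕ) (τ : Tr Λ n d) (s : J → S) :
    ev (piK J κ) (fun l t => ∏ j, g j l (t j)) d τ s = ∏ j, ev κ (g j) d τ (s j) := by
  induction d generalizing s with
  | zero => rfl
  | succ d ih =>
    simp only [ev]
    rw [Finset.prod_comm]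
    refine Finset.prod_congr rfl fun b _ => ?_
    rw [← Ex_piK_prod]
    exact congrArg (fun f => Ex (piK J κ d) f s) (funext fun t => ih _ t)

open Classical in
lemma tree_sum_fiber [Fintype Λ] (φ : Λ → Λ') {d : ℕ} (τ' : Tr Λ' n (d + 1))
    (F : Tr Λ n (d + 1) → ℝ) (H : Tr Λ n d → ℝ)
    (hF : ∀ c f, F (Tr.node c f) = ∏ b, H (f b)) :
    ∑ τ ∈ univ.filter (fun τ : Tr Λ n (d + 1) => tmap φ (d + 1) τ = τ'), F τ =
      ∏ b, ∑ τ ∈ univ.filter (fun τ : Tr Λ n d => tmap φ d τ = τ'.ch b), H τ := by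
  rw [Finset.prod_univ_sum, Finset.sum_filter, sum_Tr_succ, Finset.sum_eq_single τ'.ar]
  · rw [← Finset.sum_filter]
    refine Finset.sum_congr ?_ fun f _ => hF _ f
    ext f
    simp only [mem_filter, mem_univ, true_and, Fintype.mem_piFinset]
    constructor
    · intro h b
      exact congrFun (eq_of_heq (Sigma.mk.inj_iff.1 h).2) b
    · intro h
      exact congrArg (Tr.node τ'.ar) (funext h)
  · intro c _ hc
    refine Finset.sum_eq_zero fun f _ => if_neg fun h => hc ?_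
    rw [← h]
    rfl
  · intro h
    exact absurd (mem_univ _) h

open Classical in
/-- Multilinear expansion over the labels. -/
theorem ev_fiber [Fintype Λ] (κ : ℕ → S → S → ℝ) (φ : Λ → Λ') (c : Λ → ℝ) (g : Λ → S → ℝ)
    (d : ℕ) (τ' : Tr Λ' n d) (s : S) :
    ev κ (fun l' t => ∑ l ∈ univ.filter (fun l => φ l = l'), c l * g l t) d τ' s =
      ∑ τ ∈ univ.filter (fun τ : Tr Λ n d => tmap φ d τ = τ'), cw c d τ * ev κ g d τ s := by
  induction d generalizing s with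
  | zero => rfl
  | succ d ih =>
    rw [tree_sum_fiber φ τ' (fun τ => cw c (d + 1) τ * ev κ g (d + 1) τ s)
      (fun τ => cw c d τ * Ex (κ d) (ev κ g d τ) s) fun _ _ => Finset.prod_mul_distrib.symm]
    refine Finset.prod_congr rfl fun b _ => ?_
    simp only [← Ex_mul_left]
    rw [← Ex_sum]
    exact congrArg (fun f => Ex (κ d) f s) (funext fun t => ih _ t)

open Classical in
theorem card_fiber_le [Fintype Λ] (φ : Λ → Λ') (d : ℕ) (τ' : Tr Λ' n d) :
    ((univ.filter (fun τ : Tr Λ n d => tmap φ d τ = τ')).card : ℝ) ≤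
      (Fintype.card Λ : ℝ) ^ size d τ' := by
  induction d with
  | zero =>
    rw [size, pow_one]
    exact_mod_cast Finset.card_le_univ _
  | succ d ih =>
    have e := tree_sum_fiber φ τ' (fun _ => 1) (fun _ => 1) fun _ _ => Finset.prod_const_one.symm
    simp only [Finset.sum_const, nsmul_eq_mul, mul_one] at e
    rw [e, size, ← Finset.prod_pow_eq_pow_sum]
    exact Finset.prod_le_prod (fun _ _ => Nat.cast_nonneg _) fun b _ => ih _

lemma tree_sum_node [Fintype Λ] (μ : ℕ → ℝ) {d : ℕ} (F : Tr Λ n (d + 1) → ℝ) (H : Tr Λ n d → ℝ)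
    (hF : ∀ c f, F (Tr.node c f) = ∏ b, H (f b)) :
    ∑ τ, wt μ (d + 1) τ * F τ =
      ∑ c ∈ range n, bco (μ (d + 1)) (μ d) c * (∑ τ, wt μ d τ * H τ) ^ (c + 1) := by
  rw [sum_Tr_succ, Finset.sum_range]
  refine Finset.sum_congr rfl fun c _ => ?_
  rw [Fintype.sum_pow, Finset.mul_sum]
  refine Finset.sum_congr rfl fun f _ => ?_
  rw [hF, Finset.prod_mul_distrib, ← mul_assoc]
  rfl

lemma tree_bco_scale (m : ℝ) {m' : ℝ} (h : m' ≠ 0) (c : ℕ) :
    bco m m' c = bco (m / m') 1 c * m' ^ c := by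
  rw [bco, bco, div_mul_eq_mul_div]
  congr 1
  rw [← Finset.card_range c, ← Finset.prod_const, Finset.card_range, ← Finset.prod_mul_distrib]
  refine Finset.prod_congr rfl fun i _ => ?_
  field_simp

/-- Truncated series of `1 - (1 - x) ^ θ`. -/
noncomputable def treeP (θ : ℝ) (n : ℕ) (x : ℝ) : ℝ := ∑ c ∈ range n, θ * bco θ 1 c * x ^ (c + 1)

lemma tree_scale_sum (m : ℝ) {m' : ℝ} (h : m' ≠ 0) (n : ℕ) (w : ℝ) :
    m * ∑ c ∈ range n, bco m m' c * w ^ (c + 1) = treeP (m / m') n (m' * w) := by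
  rw [treeP, Finset.mul_sum]
  refine Finset.sum_congr rfl fun c _ => ?_
  rw [tree_bco_scale m h, mul_pow, pow_succ m']
  field_simp

lemma tree_choose (θ : ℝ) (c : ℕ) :
    Ring.choose θ (c + 1) * (-1) ^ (c + 1) = -(θ * bco θ 1 c) := by
  induction c with
  | zero => simp [bco_zero]
  | succ c ih =>
    have e := Ring.choose_smul_choose θ (Nat.le_succ (c + 1))
    rw [Nat.succ_sub (le_refl _), Nat.sub_self, Ring.choose_one_right, Nat.succ_eq_add_one,
      Nat.choose_succ_self_right, nsmul_eq_mul] at e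
    have e2 := tree_bco_succ θ 1 c
    have hc : (c : ℝ) + 2 ≠ 0 := by positivity
    refine mul_left_cancel₀ hc ?_
    push_cast at e
    linear_combination (-1) ^ (c + 1 + 1) * e - (θ - (c + 1)) * ih + θ * e2

lemma tree_hasSum (θ : ℝ) {x : ℝ} (hx : |x| < 1) :
    HasSum (fun c => θ * bco θ 1 c * x ^ (c + 1)) (1 - (1 - x) ^ θ) := by
  have h := (Real.one_add_rpow_hasFPowerSeriesOnBall_zero (a := θ)).hasSum (y := -x) (by
    rw [← ENNReal.ofReal_one, Metric.eball_ofReal]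
    simpa using hx)
  simp only [binomialSeries, FormalMultilinearSeries.ofScalars_apply_eq, smul_eq_mul,
    zero_add] at h
  have h2 := ((hasSum_nat_add_iff' 1).2 h).neg
  simp only [Finset.range_one, Finset.sum_singleton, Ring.choose_zero_right, pow_zero, mul_one,
    neg_sub, ← sub_eq_add_neg] at h2
  have e : (fun c => -(Ring.choose θ (c + 1) * (-x) ^ (c + 1))) =
      fun c => θ * bco θ 1 c * x ^ (c + 1) := funext fun c => by
    rw [neg_pow x, ← mul_assoc, tree_choose]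
    ring
  rwa [e] at h2

lemma tree_beta_le {θ : ℝ} (h0 : 0 ≤ θ) (h1 : θ ≤ 1) (c : ℕ) : bco θ 1 c * ((c : ℝ) + 1) ≤ 1 := by
  rcases Nat.eq_zero_or_pos c with rfl | hc
  · simp [bco_zero]
  · have := bco_le h0 h1 le_rfl hc
    rw [le_div_iff₀ (by positivity)] at this
    linarith

lemma tree_sum_al (θ : ℝ) (n : ℕ) :
    ∑ c ∈ range n, θ * bco θ 1 c = 1 - ((n : ℝ) + 1) * bco θ 1 n := by
  induction n with
  | zero => simp [bco_zero]
  | succ n ih =>
    rw [Finset.sum_range_succ, ih]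
    push_cast
    linear_combination tree_bco_succ θ 1 n

lemma tree_abs_P {θ ρ x : ℝ} (h0 : 0 ≤ θ) (h1 : θ ≤ 1) (hρ : ρ ≤ 1) (hx : |x| ≤ ρ) (n : ℕ) :
    |treeP θ n x| ≤ ρ := by
  have hρ0 : 0 ≤ ρ := (abs_nonneg _).trans hx
  have hb := fun c => bco_nonneg zero_le_one h1 c
  refine (Finset.abs_sum_le_sum_abs _ _).trans ?_
  calc ∑ c ∈ range n, |θ * bco θ 1 c * x ^ (c + 1)| ≤ ∑ c ∈ range n, θ * bco θ 1 c * ρ := by
        refine Finset.sum_le_sum fun c _ => ?_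
        rw [abs_mul, abs_of_nonneg (mul_nonneg h0 (hb c)), abs_pow]
        refine mul_le_mul_of_nonneg_left ?_ (mul_nonneg h0 (hb c))
        exact (pow_le_of_le_one (abs_nonneg _) (hx.trans hρ) c.succ_ne_zero).trans hx
    _ ≤ ρ := by
        rw [← Finset.sum_mul, tree_sum_al]
        have : 0 ≤ ((n : ℝ) + 1) * bco θ 1 n := mul_nonneg (by positivity) (hb n)
        nlinarith

lemma tree_abs_G {θ ρ x : ℝ} (h0 : 0 ≤ θ) (h1 : θ ≤ 1) (hρ : ρ < 1) (hx : |x| ≤ ρ) :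
    |1 - (1 - x) ^ θ| ≤ ρ :=
  le_of_tendsto' (tree_hasSum θ (hx.trans_lt hρ)).tendsto_sum_nat.abs
    fun n => tree_abs_P h0 h1 hρ.le hx n

lemma tree_P_le {θ x z : ℝ} (h0 : 0 ≤ θ) (h1 : θ ≤ 1) (hx : 0 ≤ x) (hxz : x ≤ z) (hz : z < 1)
    (n : ℕ) : treeP θ n x ≤ 1 - (1 - z) ^ θ := by
  have hb := fun c => mul_nonneg h0 (bco_nonneg zero_le_one h1 c)
  have hz0 := hx.trans hxz
  refine le_trans (Finset.sum_le_sum fun c _ => ?_)
    (sum_le_hasSum (range n) (fun c _ => mul_nonneg (hb c) (pow_nonneg hz0 _))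
      (tree_hasSum θ (by rwa [abs_of_nonneg hz0])))
  exact mul_le_mul_of_nonneg_left (pow_le_pow_left₀ hx hxz _) (hb c)

lemma tree_sum_wt [Fintype Λ] {μ : ℕ → ℝ} (d : ℕ) (hμ0 : μ 0 = 1) (hpos : ∀ e, e ≤ d → 0 < μ e)
    (hanti : ∀ e, e < d → μ (e + 1) ≤ μ e) {x : ℝ} (hx : 0 ≤ x)
    (hx1 : (Fintype.card Λ : ℝ) * x < 1) :
    μ d * ∑ τ : Tr Λ n d, wt μ d τ * x ^ size d τ ≤
      1 - (1 - (Fintype.card Λ : ℝ) * x) ^ μ d := by
  induction d with
  | zero =>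
    rw [sum_Tr_zero, hμ0]
    simp [wt, size]
  | succ d ih =>
    have hd := hpos d d.le_succ
    have hd' := hpos (d + 1) le_rfl
    have h1 : 0 < 1 - (Fintype.card Λ : ℝ) * x := sub_pos.2 hx1
    rw [tree_sum_node μ (fun τ => x ^ size (d + 1) τ) (fun τ => x ^ size d τ)
      fun _ _ => (Finset.prod_pow_eq_pow_sum _ _ _).symm, tree_scale_sum _ hd.ne']
    refine (tree_P_le (div_pos hd' hd).le ((div_le_one hd).2 (hanti d d.lt_succ_self))
      (mul_nonneg hd.le (Finset.sum_nonneg fun τ _ => mul_nonneg (wt_nonneg d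
        (fun e he => (hpos e (by omega)).le) (fun e he => hanti e (by omega)) τ) (pow_nonneg hx _)))
      (ih (fun e he => hpos e (by omega)) fun e he => hanti e (by omega))
      (sub_lt_self _ (Real.rpow_pos_of_pos h1 _)) n).trans_eq ?_
    rw [sub_sub_cancel, ← Real.rpow_mul h1.le, mul_div_cancel₀ _ hd.ne']

/-- Total weight. -/
theorem sum_wt_le [Fintype Λ] {μ : ℕ → ℝ} (d : ℕ) (hμ0 : μ 0 = 1) (hpos : ∀ e, e ≤ d → 0 < μ e)
    (hanti : ∀ e, e < d → μ (e + 1) ≤ μ e) {x : ℝ} (hx : 0 ≤ x)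
    (hx1 : (Fintype.card Λ : ℝ) * x < 1) :
    ∑ τ : Tr Λ n d, wt μ d τ * x ^ size d τ ≤
      (Fintype.card Λ : ℝ) * x / (1 - (Fintype.card Λ : ℝ) * x) := by
  have h := tree_sum_wt (n := n) d hμ0 hpos hanti hx hx1
  have hd := hpos d le_rfl
  set a := (Fintype.card Λ : ℝ) * x
  have h1 : 0 < 1 - a := sub_pos.2 hx1
  refine le_of_mul_le_mul_left (h.trans ?_) hd
  have h2 := Real.add_one_le_exp (Real.log (1 - a) * μ d)
  rw [← Real.rpow_def_of_pos h1] at h2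
  have h3 := Real.log_le_sub_one_of_pos (inv_pos.2 h1)
  rw [Real.log_inv, show (1 - a)⁻¹ - 1 = a / (1 - a) by field_simp; ring] at h3
  nlinarith [mul_le_mul_of_nonneg_left h3 hd.le]

lemma tree_err {θ ρ u v : ℝ} (h0 : 0 ≤ θ) (h1 : θ ≤ 1) (hρ : ρ < 1) (hu : |u| ≤ ρ) (hv : |v| ≤ ρ)
    (n : ℕ) : |1 - (1 - u) ^ θ - treeP θ n v| ≤ θ * (|u - v| + ρ ^ (n + 1)) / (1 - ρ) := by
  have hρ0 : 0 ≤ ρ := (abs_nonneg _).trans hu
  have hb := fun c => bco_nonneg zero_le_one h1 c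
  have hg := hasSum_geometric_of_lt_one hρ0 hρ
  have hA : |1 - (1 - u) ^ θ - treeP θ n u| ≤ θ * ρ ^ (n + 1) * (1 - ρ)⁻¹ := by
    refine HasSum.norm_le_of_bounded ((hasSum_nat_add_iff' n).2 (tree_hasSum θ (hu.trans_lt hρ)))
      (hg.mul_left _) fun c => ?_
    have h2 := tree_beta_le h0 h1 (c + n)
    have h3 : bco θ 1 (c + n) ≤ 1 := by
      have : 0 ≤ bco θ 1 (c + n) * ((c + n : ℕ) : ℝ) := mul_nonneg (hb _) (Nat.cast_nonneg _)
      linarith
    rw [Real.norm_eq_abs, abs_mul, abs_of_nonneg (mul_nonneg h0 (hb _)), abs_pow, mul_assoc,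
      mul_assoc, ← pow_add, show n + 1 + c = c + n + 1 by ring]
    refine mul_le_mul_of_nonneg_left ?_ h0
    exact (mul_le_of_le_one_left (by positivity) h3).trans (pow_le_pow_left₀ (abs_nonneg _) hu _)
  have hB : |treeP θ n u - treeP θ n v| ≤ θ * |u - v| * (1 - ρ)⁻¹ := by
    rw [treeP, treeP, ← Finset.sum_sub_distrib]
    refine (Finset.abs_sum_le_sum_abs _ _).trans (le_trans (Finset.sum_le_sum fun c _ => ?_)
      (sum_le_hasSum (range n) (fun c _ => by positivity) (hg.mul_left (θ * |u - v|))))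
    rw [← mul_sub, abs_mul, abs_of_nonneg (mul_nonneg h0 (hb _)), mul_assoc, mul_assoc]
    refine mul_le_mul_of_nonneg_left ?_ h0
    have h2 := abs_pow_sub_pow_le (a := u) (b := v) (n := c + 1)
    rw [Nat.add_sub_cancel, Nat.cast_succ] at h2
    have h3 : max |u| |v| ^ c ≤ ρ ^ c := pow_le_pow_left₀ (by positivity) (max_le hu hv) c
    calc bco θ 1 c * |u ^ (c + 1) - v ^ (c + 1)|
        ≤ bco θ 1 c * (|u - v| * ((c : ℝ) + 1) * ρ ^ c) :=
          mul_le_mul_of_nonneg_left (h2.trans (mul_le_mul_of_nonneg_left h3 (by positivity))) (hb c)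
      _ = bco θ 1 c * ((c : ℝ) + 1) * (|u - v| * ρ ^ c) := by ring
      _ ≤ |u - v| * ρ ^ c := mul_le_of_le_one_left (by positivity) (tree_beta_le h0 h1 c)
  calc |1 - (1 - u) ^ θ - treeP θ n v|
      ≤ |1 - (1 - u) ^ θ - treeP θ n u| + |treeP θ n u - treeP θ n v| := abs_sub_le _ _ _
    _ ≤ _ := by
      rw [div_eq_mul_inv]
      linarith

lemma tree_Nt_succ {κ : ℕ → S → S → ℝ} {μ : ℕ → ℝ} (L : S → ℝ) {d : ℕ} (hκ : IsK (κ d))
    (hd : μ d ≠ 0) (hd' : μ (d + 1) ≠ 0) (s : S) :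
    μ (d + 1) * Nt κ μ L (d + 1) s =
      1 - (1 - μ d * Ex (κ d) (Nt κ μ L d) s) ^ (μ (d + 1) / μ d) := by
  have e : Ex (κ d) (fun t => Real.exp (μ d * Rec κ μ L d t)) s =
      1 - μ d * Ex (κ d) (Nt κ μ L d) s := by
    rw [← Ex_mul_left, ← hκ.Ex_const 1 s, ← Ex_sub]
    refine congrArg (fun f => Ex (κ d) f s) (funext fun t => ?_)
    rw [Nt, mul_div_cancel₀ _ hd, sub_sub_cancel]
  rw [← e, Real.rpow_def_of_pos (hκ.Ex_pos (fun t => Real.exp_pos _) s), Nt,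
    mul_div_cancel₀ _ hd', Rec]
  congr 2
  ring

lemma tree_Nt {κ : ℕ → S → S → ℝ} (hκ : ∀ d, IsK (κ d)) {μ : ℕ → ℝ} {m₀ ρ : ℝ} (d : ℕ)
    (hμ0 : μ 0 = 1) (hm₀ : 0 < m₀) (hpos : ∀ e, e ≤ d → m₀ ≤ μ e)
    (hanti : ∀ e, e < d → μ (e + 1) ≤ μ e) (hρ : ρ < 1) {y : S → ℝ} (hy : ∀ s, |y s| ≤ ρ)
    (s : S) :
    |μ d * Nt κ μ (fun t => Real.log (1 - y t)) d s| ≤ ρ ∧
    |μ d * ∑ τ : Tr Unit n d, wt μ d τ * ev κ (fun _ => y) d τ s| ≤ ρ ∧
    |Nt κ μ (fun t => Real.log (1 - y t)) d s -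
        ∑ τ : Tr Unit n d, wt μ d τ * ev κ (fun _ => y) d τ s| ≤
      d * ρ ^ (n + 1) / (m₀ * (1 - ρ) ^ d) := by
  induction d generalizing s with
  | zero =>
    have h1 : 0 < 1 - y s := by linarith [(abs_le.1 (hy s)).2]
    have e1 : Nt κ μ (fun t => Real.log (1 - y t)) 0 s = y s := by
      rw [Nt, hμ0, Rec, one_mul, Real.exp_log h1, div_one, sub_sub_cancel]
    have e2 : ∑ τ : Tr Unit n 0, wt μ 0 τ * ev κ (fun _ => y) 0 τ s = y s := by
      rw [sum_Tr_zero]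
      simp [wt, ev]
    rw [e1, e2, hμ0]
    simp [hy s]
  | succ d ih =>
    have ih' := ih (fun e he => hpos e (by omega)) fun e he => hanti e (by omega)
    have hd := hm₀.trans_le (hpos d d.le_succ)
    have hd' := hm₀.trans_le (hpos (d + 1) le_rfl)
    have hρ0 : 0 ≤ ρ := (abs_nonneg _).trans (hy s)
    have h0 := (div_pos hd' hd).le
    have h1 := (div_le_one hd).2 (hanti d d.lt_succ_self)
    have eN := tree_Nt_succ (fun t => Real.log (1 - y t)) (hκ d) hd.ne' hd'.ne' s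
    have eT : μ (d + 1) * ∑ τ : Tr Unit n (d + 1), wt μ (d + 1) τ * ev κ (fun _ => y) (d + 1) τ s =
        treeP (μ (d + 1) / μ d) n (μ d * Ex (κ d)
          (fun t => ∑ τ : Tr Unit n d, wt μ d τ * ev κ (fun _ => y) d τ t) s) := by
      rw [tree_sum_node μ (fun τ => ev κ (fun _ => y) (d + 1) τ s)
        (fun τ => Ex (κ d) (ev κ (fun _ => y) d τ) s) fun _ _ => rfl, tree_scale_sum _ hd.ne',
        Ex_sum]
      simp only [Ex_mul_left]
    set N := Nt κ μ (fun t => Real.log (1 - y t)) d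
    set T := fun t => ∑ τ : Tr Unit n d, wt μ d τ * ev κ (fun _ => y) d τ t
    have hu : |μ d * Ex (κ d) N s| ≤ ρ := by
      rw [← Ex_mul_left]
      exact (hκ d).abs_Ex_le (fun t => (ih' t).1) s
    have hv : |μ d * Ex (κ d) T s| ≤ ρ := by
      rw [← Ex_mul_left]
      exact (hκ d).abs_Ex_le (fun t => (ih' t).2.1) s
    refine ⟨eN ▸ tree_abs_G h0 h1 hρ hu, eT ▸ tree_abs_P h0 h1 hρ.le hv n, ?_⟩
    have hE := tree_err h0 h1 hρ hu hv n
    have huv : |Ex (κ d) N s - Ex (κ d) T s| ≤ d * ρ ^ (n + 1) / (m₀ * (1 - ρ) ^ d) := by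
      rw [← Ex_sub]
      exact (hκ d).abs_Ex_le (fun t => (ih' t).2.2) s
    rw [← eN, ← eT, ← mul_sub, ← mul_sub, abs_mul, abs_mul, abs_of_pos hd, abs_of_pos hd'] at hE
    refine le_of_mul_le_mul_left (hE.trans ?_) hd'
    have h1ρ : 0 < 1 - ρ := sub_pos.2 hρ
    have hq : 0 < (1 - ρ) ^ d := pow_pos h1ρ d
    have hq1 : (1 - ρ) ^ d ≤ 1 := pow_le_one₀ h1ρ.le (by linarith)
    have hK : ρ ^ (n + 1) / μ d ≤ ρ ^ (n + 1) / (m₀ * (1 - ρ) ^ d) :=
      div_le_div_of_nonneg_left (by positivity) (by positivity)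
        ((mul_le_of_le_one_right hm₀.le hq1).trans (hpos d d.le_succ))
    calc μ (d + 1) / μ d * (μ d * |Ex (κ d) N s - Ex (κ d) T s| + ρ ^ (n + 1)) / (1 - ρ)
        = μ (d + 1) * ((|Ex (κ d) N s - Ex (κ d) T s| + ρ ^ (n + 1) / μ d) / (1 - ρ)) := by
          field_simp
      _ ≤ μ (d + 1) * ((d * ρ ^ (n + 1) / (m₀ * (1 - ρ) ^ d) +
            ρ ^ (n + 1) / (m₀ * (1 - ρ) ^ d)) / (1 - ρ)) := by
          gcongr
      _ = _ := by
          push_cast
          rw [pow_succ (1 - ρ)]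
          field_simp

/-- The tree expansion with an explicit truncation error. -/
theorem Nt_expansion {κ : ℕ → S → S → ℝ} (hκ : ∀ d, IsK (κ d)) {μ : ℕ → ℝ} {m₀ ρ : ℝ} (d : ℕ)
    (hμ0 : μ 0 = 1) (hm₀ : 0 < m₀) (hpos : ∀ e, e ≤ d → m₀ ≤ μ e)
    (hanti : ∀ e, e < d → μ (e + 1) ≤ μ e) (hρ : ρ < 1) {y : S → ℝ} (hy : ∀ s, |y s| ≤ ρ)
    (s : S) :
    |Nt κ μ (fun t => Real.log (1 - y t)) d s -
        ∑ τ : Tr Unit n d, wt μ d τ * ev κ (fun _ => y) d τ s| ≤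
      d * ρ ^ (n + 1) / (m₀ * (1 - ρ) ^ d) := (tree_Nt hκ d hμ0 hm₀ hpos hanti hρ hy s).2.2

end Vale.Agent.P168
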