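import Vale.Agent.P168.FT

namespace Vale.Agent.P168

open Finset Matrix MeasureTheory ProbabilityTheory
open scoped BigOperators NNReal

/-- the Panchenko-Talagrand class -/
structure PT {Ω : Type} [MeasurableSpace Ω] (P : Measure Ω) {K : ℕ} (θ : Ω → Cl K) (a b : Ω → ℝ)
    (f : Fin K → Ω → Bool → ℝ) : Prop where
  even : Even K
  two : 2 ≤ K
  mθ : Measurable θ
  mb : Measurable b
  mf : ∀ j, Measurable (f j)
  eq : ∀ ω σ, Real.exp (θ ω σ) = a ω * (1 + b ω * ∏ j, f j ω (σ j))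
  a_pos : ∀ ω, 0 < a ω
  b_lt : ∀ ω, |b ω| < 1
  f_le : ∀ j ω s, |f j ω s| ≤ 1
  indep : iIndepFun f P
  ident : ∀ j j', IdentDistrib (f j) (f j') P P
  indep_b : IndepFun b (fun ω j => f j ω) P
  mom : ∀ n : ℕ, 1 ≤ n → 0 ≤ ∫ ω, (-b ω) ^ n ∂P
  int : Integrable θ P

/-- probability of the value `τ` at a position: a spin or a message -/
noncomputable def pq {N : ℕ} (o : Option (Fin N)) (σ : Cf N) (x : ℝ) (τ : Bool) : ℝ :=
  o.elim ((1 + x * sg τ) / 2) fun i => if σ i = τ then 1 else 0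

/-- the factor of a clause whose positions are spins or messages -/
noncomputable def slot {K N : ℕ} (θ : Cl K) (π : Fin K → Option (Fin N)) (σ : Cf N)
    (x : Fin K → ℝ) : ℝ :=
  ∑ τ : Fin K → Bool, Real.exp (θ τ) * ∏ j, pq (π j) σ (x j) (τ j)

/-- marks -/
abbrev Mk (K N : ℕ) : Type := Fin K × (Fin K → Fin N)

/-- patterns: `true` = cavity clause; `false` = real clause (first position marked) or `V` term -/
def pat {K N : ℕ} (sel : Bool) (mk : Mk K N) : Fin K → Option (Fin N) :=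
  fun j => if (if sel then j = mk.1 else (mk.1 : ℕ) = 0) then some (mk.2 j) else none

/-- background times one more clause -/
noncomputable def one {K N : ℕ} {J : Type} (X : (J → ℝ) → Cf N → ℝ) (θ : Cl K)
    (π : Fin K → Option (Fin N)) (x : J ⊕ Fin K → ℝ) : ℝ :=
  ∑ σ, Real.exp (X (fun j => x (Sum.inl j)) σ) * slot θ π σ fun j => x (Sum.inr j)

theorem slot_mem {K N : ℕ} (θ : Cl K) (π : Fin K → Option (Fin N)) (σ : Cf N) {x : Fin K → ℝ}
    (hx : Cube x) : 0 < slot θ π σ x ∧ |Real.log (slot θ π σ x)| ≤ ‖θ‖ := by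
  sorry

theorem log_slot_lip {K N : ℕ} (θ θ' : Cl K) (π : Fin K → Option (Fin N)) (σ : Cf N)
    {x : Fin K → ℝ} (hx : Cube x) :
    |Real.log (slot θ π σ x) - Real.log (slot θ' π σ x)| ≤ ‖θ - θ'‖ := by
  sorry

/-- the moment inequality behind the interpolation -/
theorem pt_moment {Ω : Type} [MeasurableSpace Ω] {P : Measure Ω} [IsProbabilityMeasure P] {K : ℕ}
    {θ : Ω → Cl K} {a b : Ω → ℝ} {f : Fin K → Ω → Bool → ℝ} (h : PT P θ a b f) {N : ℕ} [NeZero N]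
    (A : Fin N → (Bool → ℝ) → ℝ) (B : (Bool → ℝ) → ℝ) (hA : ∀ i, Continuous (A i))
    (hB : Continuous B) {n : ℕ} (hn : 1 ≤ n) :
    ∫ ω, (-b ω) ^ n * 𝔼 mk : Mk K N, ∏ j, (pat true mk j).elim (B (f j ω)) (fun i => A i (f j ω)) ∂P ≤
    ∫ ω, (-b ω) ^ n * 𝔼 mk : Mk K N, ∏ j, (pat false mk j).elim (B (f j ω)) (fun i => A i (f j ω)) ∂P := by
  sorry

end Vale.Agent.P168
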