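import Vale.Agent.P168.One
import Vale.Agent.P168.CP
import Vale.Agent.P168.Pint

namespace Vale.Agent.P168

open Finset Matrix MeasureTheory ProbabilityTheory
open scoped BigOperators NNReal

variable {K N : ℕ}

/-- the interpolating partition function -/
noncomputable def mix {M : ℕ} (θ : Fin M → Cl K) (π : Fin M → Fin K → Option (Fin N))
    (h : Fin N → ℝ) (x : Fin M × Fin K → ℝ) : ℝ :=
  ∑ σ : Cf N, Real.exp (∑ v, h v * sg (σ v)) * ∏ k, slot (θ k) (π k) σ fun j => x (k, j)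

/-- the interpolating free energy at fixed fields -/
noncomputable def Xi (fd : FD) (h : Fin N → ℝ) {M : ℕ} (sel : Fin M → Bool) (θ : Fin M → Cl K) : ℝ :=
  𝔼 mk : Fin M → Mk K N, fd.T (Fin M × Fin K) (mix θ (fun k => pat (sel k) (mk k)) h)

/-- the one-clause inequality in terms of the law of `θ` -/
def OneSlot (ν : Measure (Cl K)) : Prop :=
  ∀ (N : ℕ) [NeZero N] (fd : FD), fd.Ok → ∀ (J : Type) [Fintype J] [DecidableEq J]
    (X : (J → ℝ) → Cf N → ℝ),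
    ∫ θ, 𝔼 mk : Mk K N, fd.T (J ⊕ Fin K) (one X θ (pat false mk)) ∂ν ≤
      ∫ θ, 𝔼 mk : Mk K N, fd.T (J ⊕ Fin K) (one X θ (pat true mk)) ∂ν

theorem PT.oneSlot {Ω : Type} [MeasurableSpace Ω] {P : Measure Ω} [IsProbabilityMeasure P]
    {θ : Ω → Cl K} {a b : Ω → ℝ} {f : Fin K → Ω → Bool → ℝ} (h : PT P θ a b f) :
    OneSlot (P.map θ) := by
  sorry

theorem Xi_lip {fd : FD} (hf : fd.Ok) (h h' : Fin N → ℝ) {M : ℕ} (sel : Fin M → Bool)
    (θ θ' : Fin M → Cl K) :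
    |Xi fd h sel θ - Xi fd h' sel θ'| ≤ ∑ v, |h v - h' v| + ∑ k, ‖θ k - θ' k‖ := by
  sorry

theorem abs_Xi_le {fd : FD} (hf : fd.Ok) (h : Fin N → ℝ) {M : ℕ} (sel : Fin M → Bool)
    (θ : Fin M → Cl K) : |Xi fd h sel θ| ≤ N + ∑ v, |h v| + ∑ k, ‖θ k‖ := by
  sorry

/-- replacing all clauses -/
theorem Xi_mono [NeZero N] {ν : Measure (Cl K)} [IsProbabilityMeasure ν] (hν : Integrable id ν)
    (h1 : OneSlot ν) {fd : FD} (hf : fd.Ok) (h : Fin N → ℝ) (M : ℕ) :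
    ∫ θ, Xi fd h (fun _ => false) θ ∂(Measure.pi fun _ : Fin M => ν) ≤
      ∫ θ, Xi fd h (fun _ => true) θ ∂(Measure.pi fun _ : Fin M => ν) := by
  sorry

end Vale.Agent.P168
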