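import Vale.Agent.P168.UpA

/-! The initial end point of the interpolation. -/

namespace Vale.Agent.P168

open Finset

variable {Θ S : Type} [Fintype Θ] [Fintype S] {K N : ℕ}

/-- The cavity factor of one clause. -/
noncomputable def cav (θ : Cl K) (a : Fin K) (ε : Bool) (y : Fin K → ℝ) : ℝ :=
  ∑ σ ∈ univ.filter (fun σ : Fin K → Bool => σ a = ε),
    Real.exp (θ σ) * ∏ j ∈ univ.erase a, (1 + y j * spin (σ j)) / 2

theorem cav_bd (θ : Cl K) (a : Fin K) (ε : Bool) {y : Fin K → ℝ} (hy : Cube y) :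
    0 < cav θ a ε y ∧ |Real.log (cav θ a ε y)| ≤ ‖θ‖ :=
  ⟨slotF_pos (N := 1) θ (Sum.inr (Sum.inl (a, 0))) (fun _ => ε) hy,
    abs_log_slotF_le (N := 1) θ (Sum.inr (Sum.inl (a, 0))) (fun _ => ε) hy⟩

/-- The cavity factor seen from the site `v`. -/
noncomputable def cavIf (th : Θ → Cl K) (v : Fin N) (c : Θ × (Fin K × Fin N)) (ε : Bool)
    (y : Fin K → ℝ) : ℝ :=
  if c.2.2 = v then cav (th c.1) c.2.1 ε y else 1

theorem cavIf_bd (th : Θ → Cl K) (v : Fin N) (c : Θ × (Fin K × Fin N)) (ε : Bool)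
    (y : Fin K → ℝ) (hy : Cube y) :
    0 < cavIf th v c ε y ∧ |Real.log (cavIf th v c ε y)| ≤ ‖th‖ := by
  unfold cavIf
  split_ifs
  · exact ⟨(cav_bd _ _ _ hy).1, (cav_bd _ _ _ hy).2.trans (norm_le_pi_norm th _)⟩
  · simp

theorem XG_decouple {ι : Type} [Fintype ι] [DecidableEq ι] {m : Msg S} (hm : m.Good)
    (th : Θ → Cl K) (h : Fin N → ℝ) (c : ι → Θ × (Fin K × Fin N)) :
    XG m (fun s : Fin N → Bool => ∑ v, h v * spin (s v))
        (fun k s => cav (th (c k).1) (c k).2.1 (s (c k).2.2)) =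
      ∑ v, XG m (fun ε : Bool => h v * spin ε) (fun k => cavIf th v (c k)) := by
  unfold XG
  rw [← Tfin_prod hm (fun p : ι × Fin K => (c p.1).2.2) fun v (y : ι × Fin K → ℝ) =>
    ∑ ε : Bool, Real.exp (h v * spin ε) * ∏ k, cavIf th v (c k) ε (fun j => y (k, j))]
  · congr 1
    funext y
    rw [prod_univ_sum, Fintype.piFinset_univ]
    refine sum_congr rfl fun s _ => ?_
    rw [prod_mul_distrib, ← Real.exp_sum, prod_comm]
    simp only [cavIf, prod_ite_eq, mem_univ, if_true]
  · exact fun v y hy => sum_pos (fun ε _ => mul_pos (Real.exp_pos _)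
      (prod_pos fun k _ => (cavIf_bd th v _ ε _ fun j => hy _).1)) univ_nonempty
  · intro v y y' hy
    refine sum_congr rfl fun ε _ => congrArg _ (prod_congr rfl fun k _ => ?_)
    unfold cavIf
    split_ifs with hk
    · simp only [fun j => hy (k, j) hk]
    · rfl

omit [Fintype Θ] in
theorem XL_drop {m : Msg S} (hm : m.Good) (th : Θ → Cl K) (w : Bool → ℝ) (v : Fin N)
    (l₁ : List (Θ × (Fin K × Fin N))) (l₂ : List {c : Θ × (Fin K × Fin N) // c.2.2 ≠ v}) :
    XL m w (cavIf th v) (l₁ ++ l₂.map Subtype.val) = XL m w (cavIf th v) l₁ := by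
  induction l₂ with
  | nil => simp
  | cons c l ih =>
    have e : cavIf th v c.1 = fun _ _ => 1 := by
      funext ε y
      exact if_neg c.2
    rw [List.map_cons, permInv_XL hm w _ _ _ List.perm_middle, XL_cons hm, e, XG_one hm]
    exact ih

theorem PP_site {q : Θ → ℝ} (hq : IsPr q) (hK : 1 ≤ K) (th : Θ → Cl K) (x : ℝ)
    {lam : ℝ} (hlam : 0 ≤ lam) {m : Msg S} (hm : m.Good) (v : Fin N) :
    PP (fun c : Θ × (Fin K × Fin N) => lam * q c.1)
        (XL m (fun ε : Bool => x * spin ε) (cavIf th v)) =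
      ∑' M : ℕ, poi (K * lam) M * Epi q (fun ω : Fin M → Θ =>
        avg (fun l : Fin M → Fin K => Tfin m (Ufun x (fun k => th (ω k)) l))) := by
  have hK' : (0 : ℝ) < K := by exact_mod_cast hK
  have : Nonempty (Fin K) := ⟨⟨0, hK⟩⟩
  let qU : Θ × Fin K → ℝ := fun c => q c.1 / (Fintype.card (Fin K) : ℝ)
  have hU : IsPr qU := ⟨fun c => div_nonneg (hq.1 _) (Nat.cast_nonneg _), by
    rw [Fintype.sum_prod_type, ← hq.2]
    refine sum_congr rfl fun x _ => ?_
    simp only [qU, sum_const, card_univ, nsmul_eq_mul, Fintype.card_fin]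
    field_simp⟩
  have h0 : ∀ c : Θ × (Fin K × Fin N), 0 ≤ lam * q c.1 := fun c => mul_nonneg hlam (hq.1 _)
  have e : (fun c : Θ × (Fin K × Fin N) => lam * q c.1) = fun c =>
      (if c.2.2 = v then lam * q c.1 else 0) + if c.2.2 = v then 0 else lam * q c.1 := by
    funext c
    split_ifs <;> simp
  rw [e, PP_add (fun c => by split_ifs; exacts [h0 c, le_rfl])
    (fun c => by split_ifs; exacts [le_rfl, h0 c]) (linG_XL hm _ (cavIf_bd th v))
    (permInv_XL hm _ _)]
  have e2 : ∀ l₁, PP (fun c : Θ × (Fin K × Fin N) => if c.2.2 = v then 0 else lam * q c.1)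
      (fun l₂ => XL m (fun ε : Bool => x * spin ε) (cavIf th v) (l₁ ++ l₂)) =
      XL m (fun ε : Bool => x * spin ε) (cavIf th v) l₁ := by
    intro l₁
    rw [PP_map (ν' := fun c : {c : Θ × (Fin K × Fin N) // c.2.2 ≠ v} => lam * q c.1.1)
      Subtype.val (fun F => ?_)]
    · simp only [XL_drop hm, PP_const]
    · rw [← sum_subtype (univ.filter fun c : Θ × (Fin K × Fin N) => c.2.2 ≠ v) (by simp)
        fun c => lam * q c.1 * F c, sum_filter]
      refine sum_congr rfl fun c _ => ?_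
      by_cases hc : c.2.2 = v <;> simp [hc]
  simp only [e2]
  rw [PP_map (ν' := fun c => K * lam * qU c) (fun c => (c.1, (c.2, v))) (fun F => ?_),
    PP_eq_poi hU]
  · have e3 : ∀ (a : Θ) (l : Fin K), cavIf th v (a, (l, v)) = cav (th a) l := fun a l => by
      funext ε y
      exact if_pos rfl
    have e4 : ∀ (M : ℕ) (θ : Fin M → Cl K) (l : Fin M → Fin K),
        XG m (fun ε : Bool => x * spin ε) (fun k => cav (θ k) (l k)) = Tfin m (Ufun x θ l) :=
      fun M θ l => by
        unfold XG Ufun cav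
        rfl
    simp only [qU, Epi_prod_unif, XL_map hm, XL_ofFn hm, e3, e4]
  · simp only [Fintype.sum_prod_type, ite_mul, zero_mul, sum_ite_eq', mem_univ, if_true, qU,
      Fintype.card_fin]
    refine sum_congr rfl fun a _ => sum_congr rfl fun l _ => ?_
    field_simp

theorem PP_q0 {q : Θ → ℝ} (hq : IsPr q) (hK : 1 ≤ K) (hN : 1 ≤ N) (th : Θ → Cl K) (hv : Θ → ℝ)
    {lam : ℝ} (hlam : 0 ≤ lam) {m : Msg S} (hm : m.Good) :
    Epi q (fun ω : Fin N → Θ => PP (fun c => (K * lam * N) * q0 q K N c)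
        (GX m th (fun v => hv (ω v)))) = N * TUfin q th hv lam m := by
  have hK' : (0 : ℝ) < K := by exact_mod_cast hK
  have hN' : (0 : ℝ) < N := by exact_mod_cast hN
  have key : ∀ h : Fin N → ℝ, PP (fun c => (K * lam * N) * q0 q K N c) (GX m th h) =
      ∑ v, ∑' M : ℕ, poi (K * lam) M * Epi q (fun ω : Fin M → Θ =>
        avg (fun l : Fin M → Fin K => Tfin m (Ufun (h v) (fun k => th (ω k)) l))) := by
    intro h
    rw [PP_map (ν' := fun c : Θ × (Fin K × Fin N) => lam * q c.1)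
      (fun c => (c.1, Sum.inr (Sum.inl c.2))) (fun F => ?_), GX_eq]
    · have e : ∀ l : List (Θ × (Fin K × Fin N)),
          XL m (fun s : Fin N → Bool => ∑ v, h v * spin (s v))
            (fun c s => slotF (th c.1) (Sum.inr (Sum.inl c.2)) s) l =
          ∑ v, XL m (fun ε : Bool => h v * spin ε) (cavIf th v) l := fun l =>
        XG_decouple hm th h fun k => l.get k
      simp only [XL_map hm, e]
      rw [PP_sum (fun c => mul_nonneg hlam (hq.1 _)) _ fun v => linG_XL hm _ (cavIf_bd th v)]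
      exact sum_congr rfl fun v _ => PP_site hq hK th (h v) hlam hm v
    · rw [Fintype.sum_prod_type, Fintype.sum_prod_type]
      refine sum_congr rfl fun a _ => ?_
      simp only [Fintype.sum_sum_type, q0, mul_zero, zero_mul, sum_const_zero, zero_add, add_zero]
      refine sum_congr rfl fun l _ => ?_
      field_simp
  simp only [key, Epi_sum]
  simp only [fun v : Fin N => Epi_eval hq v fun a => ∑' M : ℕ, poi (K * lam) M *
    Epi q (fun ω : Fin M → Θ =>
      avg (fun l : Fin M → Fin K => Tfin m (Ufun (hv a) (fun k => th (ω k)) l)))]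
  rw [sum_const, card_univ, Fintype.card_fin, nsmul_eq_mul, TUfin,
    upA_sum_tsum (by positivity) _ fun a => ?_]
  · simp only [Epi_sum, Epi_mul_left]
  · refine ⟨1 + |hv a|, ‖th‖, fun M => abs_Epi_le hq fun ω => abs_avg_le
      (by positivity) fun l => abs_Tfin_le hm fun y hy => ?_⟩
    rw [← hat_YU]
    refine abs_log_hat_le (fun s => ⟨YU_pos _ _ _ _, (abs_log_YU_le _ _ _ _).trans ?_⟩) hy
    have := sum_le_card_nsmul univ (fun k : Fin M => ‖th (ω k)‖) ‖th‖
      fun k _ => norm_le_pi_norm th _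
    rw [card_univ, Fintype.card_fin, nsmul_eq_mul] at this
    linarith

end Vale.Agent.P168
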